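import Mathlib
import Vale.Agent.H97.EgyCover
import Vale.Agent.H22.EgyPotential
import Vale.Agent.H79.EgyPrimes

/-! P012: a state-free covering level (the covering set consists of products of v pool primes) -/

namespace Vale.Agent.H78

open Finset

/-- a number at most (2^(2v))^w has at most 2w prime divisors above 2^v
(copied from Vale.Agent.H3.card_primes_dvd_le) -/
theorem egy_card_primes_dvd_le {S : Finset ℕ} (hS : ∀ p ∈ S, p.Prime) {v w n : ℕ} (hv : 0 < v)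
    (hgt : ∀ p ∈ S, 2 ^ v < p) (hdvd : ∀ p ∈ S, p ∣ n) (hn : 0 < n)
    (hle : n ≤ (2 ^ (2 * v)) ^ w) : S.card ≤ 2 * w := by
  have h1 : ∏ p ∈ S, p ∣ n := Finset.prod_primes_dvd n (fun p hp => (hS p hp).prime) hdvd
  have h2 : ∏ p ∈ S, p ≤ n := Nat.le_of_dvd hn h1
  have h3 : (2 ^ v) ^ S.card ≤ ∏ p ∈ S, p :=
    Finset.pow_card_le_prod S (fun p => p) (2 ^ v) (fun p hp => (hgt p hp).le)
  have h4 : 2 ^ (v * S.card) ≤ 2 ^ (2 * v * w) := by
    calc 2 ^ (v * S.card) = (2 ^ v) ^ S.card := pow_mul 2 v S.card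
      _ ≤ n := h3.trans h2
      _ ≤ (2 ^ (2 * v)) ^ w := hle
      _ = 2 ^ (2 * v * w) := (pow_mul 2 (2 * v) w).symm
  have h5 : v * S.card ≤ 2 * v * w := (Nat.pow_le_pow_iff_right (by norm_num)).mp h4
  have h6 : v * S.card ≤ v * (2 * w) := by
    calc v * S.card ≤ 2 * v * w := h5
      _ = v * (2 * w) := by ring
  exact Nat.le_of_mul_le_mul_left h6 hv

/-- the product map is injective on sets of primes -/
theorem egy_prod_primes_injOn (Pr : Finset ℕ) (hPr : ∀ p ∈ Pr, p.Prime) (S S' : Finset ℕ)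
    (hS : S ⊆ Pr) (hS' : S' ⊆ Pr) (h : ∏ p ∈ S, p = ∏ p ∈ S', p) : S = S' := by
  have key : ∀ T T' : Finset ℕ, T ⊆ Pr → T' ⊆ Pr → ∏ p ∈ T, p = ∏ p ∈ T', p → T ⊆ T' := by
    intro T T' hT hT' hh p hp
    have hpp := hPr p (hT hp)
    have hd : p ∣ ∏ q ∈ T', q := by
      rw [← hh]
      exact Finset.dvd_prod_of_mem (fun q => q) hp
    obtain ⟨q, hq, hpq⟩ := (Prime.dvd_finsetProd_iff hpp.prime _).mp hd
    have hqq := hPr q (hT' hq)
    have : p = q := (Nat.prime_dvd_prime_iff_eq hpp hqq).mp hpq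
    rw [this]
    exact hq
  exact Finset.Subset.antisymm (key S S' hS hS' h) (key S' S hS' hS h.symm)

theorem cover_level (w u γ v k : ℕ) (Pr : Finset ℕ)
    (hPr : ∀ p ∈ Pr, p.Prime ∧ 2 ^ w < p ∧ p ≤ 2 ^ (2 * w)) (hw : 3 ≤ w) (hwu : 2 * w ≤ u)
    (hk : 1 ≤ k) (hcount : (2 ^ γ) ^ k ≤ (Pr.card).choose v)
    (hsmall : 1000 * k * (2 ^ (2 * u)) ^ 3 < (2 ^ γ) ^ 4)
    (hsupply : 2 * u * (4 * k * 2 ^ γ * v + k + 2 ^ u + 2) ≤ 2 ^ (2 * u)) :
    ∃ Q : ℕ, 2 ^ (u * k) ≤ Q ∧ ∀ r : ℕ, ∃ D : Finset ℕ,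
      (∀ d ∈ D, d ∣ 210 * (∏ p ∈ Pr, p) ^ 2) ∧ D.card ≤ 4 ∧ (∀ d ∈ D, ¬ Q ∣ d) ∧
      ∑ d ∈ D, d < 2 ^ (4 * w * v + 5) ∧ (∑ d ∈ D, d) % Q = r % Q := by
  set N := ∏ p ∈ Pr, p with hN
  set c := 2 ^ γ with hc
  have hc1 : 1 ≤ c := Nat.one_le_two_pow
  have hupos : 0 < u := by omega
  have hu5 : 5 ≤ u := by omega
  have h8w : 8 ≤ 2 ^ w := by
    calc 8 = 2 ^ 3 := by norm_num
      _ ≤ 2 ^ w := Nat.pow_le_pow_right (by norm_num) hw
  have hwu2 : 2 ^ (2 * w) ≤ 2 ^ u := Nat.pow_le_pow_right (by norm_num) hwu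
  have h8u : 8 ≤ 2 ^ u := by
    calc 8 = 2 ^ 3 := by norm_num
      _ ≤ 2 ^ u := Nat.pow_le_pow_right (by norm_num) (by omega)
  have hPrprime : ∀ p ∈ Pr, p.Prime := fun p hp => (hPr p hp).1
  have hNpos : 0 < N := Finset.prod_pos (fun p hp => (hPrprime p hp).pos)
  -- N is coprime to 210
  have hN210 : Nat.Coprime N 210 := by
    apply Nat.Coprime.prod_left
    intro p hp
    have hpp := hPrprime p hp
    have hgt := (hPr p hp).2.1
    have e : (210 : ℕ) = 2 * (3 * (5 * 7)) := by norm_num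
    rw [e]
    refine Nat.Coprime.mul_right ?_ (Nat.Coprime.mul_right ?_ (Nat.Coprime.mul_right ?_ ?_))
    · exact (Nat.coprime_primes hpp Nat.prime_two).mpr (by omega)
    · exact (Nat.coprime_primes hpp Nat.prime_three).mpr (by omega)
    · exact (Nat.coprime_primes hpp Nat.prime_five).mpr (by omega)
    · exact (Nat.coprime_primes hpp (by norm_num)).mpr (by omega)
  -- the covering set: products of v pool primes
  set A := (Pr.powersetCard v).image (fun S => ∏ p ∈ S, p) with hA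
  have hAcard : A.card = (Pr.card).choose v := by
    rw [hA, Finset.card_image_of_injOn, Finset.card_powersetCard]
    intro S hS S' hS' h
    exact egy_prod_primes_injOn Pr hPrprime S S' (Finset.mem_powersetCard.mp hS).1
      (Finset.mem_powersetCard.mp hS').1 h
  have hbig : (2 ^ (2 * w)) ^ v ≤ (2 ^ (2 * u)) ^ v :=
    Nat.pow_le_pow_left (Nat.pow_le_pow_right (by norm_num) (by omega)) v
  have hAmem : ∀ a ∈ A, a ∣ N ∧ 0 < a ∧ a ≤ (2 ^ (2 * w)) ^ v := by
    intro a ha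
    obtain ⟨S, hS, rfl⟩ := Finset.mem_image.mp ha
    obtain ⟨hSsub, hScard⟩ := Finset.mem_powersetCard.mp hS
    refine ⟨Finset.prod_dvd_prod_of_subset S Pr (fun p => p) hSsub,
      Finset.prod_pos (fun p hp => (hPrprime p (hSsub hp)).pos), ?_⟩
    rw [← hScard]
    exact Finset.prod_le_pow_card S (fun p => p) (2 ^ (2 * w)) (fun p hp => (hPr p (hSsub hp)).2.2)
  have hAne : A.Nonempty := by
    rw [← Finset.card_pos, hAcard]
    exact lt_of_lt_of_le (Nat.pos_of_ne_zero (pow_ne_zero _ (by omega))) hcount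
  -- the pool of block primes
  set PP := (Finset.Ioc (2 ^ u) (2 ^ (2 * u))).filter Nat.Prime with hPP
  have hPPprime : ∀ p ∈ PP, p.Prime := fun p hp => (Finset.mem_filter.mp hp).2
  have hPPgt : ∀ p ∈ PP, 2 ^ u < p := fun p hp =>
    (Finset.mem_Ioc.mp (Finset.mem_filter.mp hp).1).1
  have hPPle : ∀ p ∈ PP, p ≤ 2 ^ (2 * u) := fun p hp =>
    (Finset.mem_Ioc.mp (Finset.mem_filter.mp hp).1).2
  have hcard : 2 * k * c * (2 * v) + k ≤ PP.card := by
    have hsup : 2 ^ (2 * u) ≤ 2 * u * (PP.card + 2 ^ u + 2) := Vale.Agent.H79.card_primes_Ioc u hu5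
    by_contra hlt
    have hlt' : PP.card < 2 * k * c * (2 * v) + k := not_le.mp hlt
    have e1 : PP.card + 2 ^ u + 2 < 4 * k * c * v + k + 2 ^ u + 2 := by
      have : 2 * k * c * (2 * v) = 4 * k * c * v := by ring
      omega
    have e2 : 2 * u * (PP.card + 2 ^ u + 2) < 2 * u * (4 * k * c * v + k + 2 ^ u + 2) :=
      Nat.mul_lt_mul_of_pos_left e1 (by omega)
    omega
  -- choose the block
  obtain ⟨L, hLsub, hLcard, hpot⟩ := Vale.Agent.H22.exists_prime_block A.offDiag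
    (fun x => (x.1 : ℤ) - (x.2 : ℤ)) PP k c (2 * v) (by
      intro x hx
      rw [Finset.mem_offDiag] at hx
      obtain ⟨hx1, hx2, hne⟩ := hx
      have b1 := hAmem x.1 hx1
      have b2 := hAmem x.2 hx2
      have hnat : 0 < ((x.1 : ℤ) - (x.2 : ℤ)).natAbs := by
        apply Int.natAbs_pos.mpr
        intro h0
        apply hne
        have : (x.1 : ℤ) = (x.2 : ℤ) := by linarith
        exact_mod_cast this
      have hnatle : ((x.1 : ℤ) - (x.2 : ℤ)).natAbs ≤ (2 ^ (2 * w)) ^ v := by omega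
      exact egy_card_primes_dvd_le
        (fun p hp => hPPprime p (Finset.mem_filter.mp hp).1) hupos
        (fun p hp => hPPgt p (Finset.mem_filter.mp hp).1)
        (fun p hp => Int.natCast_dvd.mp (Finset.mem_filter.mp hp).2) hnat (hnatle.trans hbig))
    hcard
  have hLprime : ∀ p ∈ L, p.Prime := fun p hp => hPPprime p (hLsub hp)
  have hLgt : ∀ p ∈ L, 2 ^ u < p := fun p hp => hPPgt p (hLsub hp)
  have hLle : ∀ p ∈ L, p ≤ 2 ^ (2 * u) := fun p hp => hPPle p (hLsub hp)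
  have hLN : ∀ p ∈ L, ¬ p ∣ N := by
    intro p hp hdvd
    obtain ⟨q, hq, hpq⟩ := (Prime.dvd_finsetProd_iff (hLprime p hp).prime _).mp hdvd
    have : p = q := (Nat.prime_dvd_prime_iff_eq (hLprime p hp) (hPrprime q hq)).mp hpq
    have h1 := hLgt p hp
    have h2 := (hPr q hq).2.2
    omega
  -- the markers
  let g : Fin 4 → ℕ := ![2, 3, 5, 7]
  have hgpos : ∀ i, 0 < g i ∧ g i ≤ 7 := by decide
  have hg210 : ∀ i, g i ∣ 210 := by decide
  have hggcd : ∀ i, Nat.gcd (g i) 210 = g i := by decide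
  have hginj : ∀ i j, g i = g j → i = j := by decide
  have hgsum : ∑ i, g i = 17 := by decide
  have hgL : ∀ i, ∀ p ∈ L, ¬ p ∣ g i := by
    intro i p hp hdvd
    have := Nat.le_of_dvd (hgpos i).1 hdvd
    have := hLgt p hp
    have := (hgpos i).2
    omega
  -- energy hypothesis
  have hen : ∀ T ⊆ L, c ^ T.card *
      ((A.offDiag).filter (fun x => ∀ p ∈ T, (p : ℤ) ∣ (x.1 : ℤ) - (x.2 : ℤ))).card
        ≤ 2 * A.card ^ 2 := by
    intro T hT
    have hoff : A.offDiag.card ≤ A.card ^ 2 := by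
      rw [Finset.offDiag_card, sq]
      exact Nat.sub_le _ _
    calc c ^ T.card *
          ((A.offDiag).filter (fun x => ∀ p ∈ T, (p : ℤ) ∣ (x.1 : ℤ) - (x.2 : ℤ))).card
        = ∑ _x ∈ (A.offDiag).filter (fun x => ∀ p ∈ T, (p : ℤ) ∣ (x.1 : ℤ) - (x.2 : ℤ)),
            c ^ T.card := by
          rw [Finset.sum_const, smul_eq_mul, mul_comm]
      _ ≤ ∑ x ∈ (A.offDiag).filter (fun x => ∀ p ∈ T, (p : ℤ) ∣ (x.1 : ℤ) - (x.2 : ℤ)),
            ∏ p ∈ L, (if (p : ℤ) ∣ (x.1 : ℤ) - (x.2 : ℤ) then c + 1 else 1) := by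
          apply Finset.sum_le_sum
          intro x hx
          have hx' := (Finset.mem_filter.mp hx).2
          calc c ^ T.card ≤ (c + 1) ^ T.card := Nat.pow_le_pow_left (Nat.le_succ c) _
            _ = ∏ p ∈ T, (c + 1) := by rw [Finset.prod_const]
            _ = ∏ p ∈ T, (if (p : ℤ) ∣ (x.1 : ℤ) - (x.2 : ℤ) then c + 1 else 1) := by
                apply Finset.prod_congr rfl
                intro p hp
                rw [if_pos (hx' p hp)]
            _ ≤ ∏ p ∈ L, (if (p : ℤ) ∣ (x.1 : ℤ) - (x.2 : ℤ) then c + 1 else 1) := by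
                apply Finset.prod_le_prod_of_subset_of_one_le' hT
                intro p _ _
                split_ifs <;> omega
      _ ≤ ∑ x ∈ A.offDiag,
            ∏ p ∈ L, (if (p : ℤ) ∣ (x.1 : ℤ) - (x.2 : ℤ) then c + 1 else 1) :=
          Finset.sum_le_sum_of_subset (Finset.filter_subset _ _)
      _ ≤ 2 * A.offDiag.card := hpot
      _ ≤ 2 * A.card ^ 2 := Nat.mul_le_mul_left 2 hoff
  have hcA : c ^ L.card ≤ A.card := by
    rw [hLcard, hAcard]
    exact hcount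
  have hsmall' : 1000 * L.card * (2 ^ (2 * u)) ^ 3 < c ^ 4 := by
    rw [hLcard]
    exact hsmall
  have cover := Vale.Agent.H97.fourier_cover L hLprime (2 ^ (2 * u)) c hLle A hAne g hgL hc1 hcA
    hen hsmall'
  -- the modulus
  set Q := ∏ p ∈ L, p with hQ
  have hLne : L.Nonempty := by
    rw [← Finset.card_pos, hLcard]
    exact hk
  obtain ⟨p0, hp0⟩ := hLne
  have hp0Q : p0 ∣ Q := Finset.dvd_prod_of_mem (fun p => p) hp0
  have hQge : 2 ^ (u * k) ≤ Q := by
    calc 2 ^ (u * k) = (2 ^ u) ^ L.card := by rw [hLcard, pow_mul]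
      _ ≤ ∏ p ∈ L, p := Finset.pow_card_le_prod L (fun p => p) (2 ^ u) (fun p hp => (hLgt p hp).le)
  refine ⟨Q, hQge, ?_⟩
  intro r
  obtain ⟨a, b, ha, hb, hdvd⟩ := cover (r : ℤ)
  set f : Fin 4 → ℕ := fun i => g i * a i * b i with hf
  have hfgcd : ∀ i, Nat.gcd (f i) 210 = g i := by
    intro i
    have hcop : Nat.Coprime (a i * b i) 210 :=
      Nat.Coprime.mul_left (Nat.Coprime.coprime_dvd_left (hAmem _ (ha i)).1 hN210)
        (Nat.Coprime.coprime_dvd_left (hAmem _ (hb i)).1 hN210)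
    have e : f i = g i * (a i * b i) := by simp only [hf]; ring
    rw [e, Nat.Coprime.gcd_mul_right_cancel (g i) hcop]
    exact hggcd i
  have hfinj : Function.Injective f := by
    intro i j hij
    apply hginj
    rw [← hfgcd i, ← hfgcd j, hij]
  have hfdvd : ∀ i, f i ∣ 210 * N ^ 2 := by
    intro i
    have e : 210 * N ^ 2 = 210 * N * N := by ring
    rw [e]
    exact Nat.mul_dvd_mul (Nat.mul_dvd_mul (hg210 i) (hAmem _ (ha i)).1) (hAmem _ (hb i)).1
  have hfle : ∀ i, f i ≤ g i * ((2 ^ (2 * w)) ^ v * (2 ^ (2 * w)) ^ v) := by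
    intro i
    have e : f i = g i * (a i * b i) := by simp only [hf]; ring
    rw [e]
    exact Nat.mul_le_mul_left _ (Nat.mul_le_mul (hAmem _ (ha i)).2.2 (hAmem _ (hb i)).2.2)
  have hsumD : ∑ d ∈ Finset.univ.image f, d = ∑ i, f i :=
    Finset.sum_image (fun i _ j _ hij => hfinj hij)
  refine ⟨Finset.univ.image f, ?_, ?_, ?_, ?_, ?_⟩
  · intro d hd
    obtain ⟨i, _, rfl⟩ := Finset.mem_image.mp hd
    exact hfdvd i
  · calc (Finset.univ.image f).card ≤ (Finset.univ : Finset (Fin 4)).card :=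
          Finset.card_image_le
      _ = 4 := by simp
  · intro d hd hQd
    obtain ⟨i, _, rfl⟩ := Finset.mem_image.mp hd
    have hp0f : p0 ∣ g i * a i * b i := hp0Q.trans hQd
    have hp0p := hLprime p0 hp0
    rcases (Nat.Prime.dvd_mul hp0p).mp hp0f with h | h
    · rcases (Nat.Prime.dvd_mul hp0p).mp h with h' | h'
      · exact hgL i p0 hp0 h'
      · exact hLN p0 hp0 (h'.trans (hAmem _ (ha i)).1)
    · exact hLN p0 hp0 (h.trans (hAmem _ (hb i)).1)
  · rw [hsumD]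
    have e4 : (2 ^ (2 * w)) ^ v * (2 ^ (2 * w)) ^ v = 2 ^ (4 * w * v) := by
      rw [← pow_mul, ← pow_add]
      congr 1
      ring
    calc ∑ i, f i ≤ ∑ i, g i * ((2 ^ (2 * w)) ^ v * (2 ^ (2 * w)) ^ v) :=
          Finset.sum_le_sum (fun i _ => hfle i)
      _ = 17 * 2 ^ (4 * w * v) := by rw [← Finset.sum_mul, hgsum, e4]
      _ < 32 * 2 ^ (4 * w * v) := by
          have : 0 < 2 ^ (4 * w * v) := Nat.pos_of_ne_zero (pow_ne_zero _ (by norm_num))
          omega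
      _ = 2 ^ (4 * w * v + 5) := by rw [pow_add]; ring
  · rw [hsumD]
    exact (Nat.modEq_iff_dvd.mpr hdvd)

end Vale.Agent.H78
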