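import Mathlib

/-! P256, task FR-B: the real-line matrix Fejer-Riesz theorem, given the quadratic division lemma
as a hypothesis. -/

namespace Vale.Agent.H78

open Polynomial

/-- a polynomial matrix that is a finite sum of rank one squares -/
def FRIsSOS {n : Type} (Q : n → n → Polynomial ℝ) : Prop :=
  ∃ (ι : Type) (_ : Fintype ι) (V : ι → n → Polynomial ℝ), ∀ a b, Q a b = ∑ i, V i a * V i b

theorem fr_L1 {n : Type} (c : ℝ) (Q : n → n → Polynomial ℝ)
    (h : FRIsSOS (fun a b => (X - C c) ^ 2 * Q a b)) : FRIsSOS Q := by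
  obtain ⟨ι, hι, V, hV⟩ := h
  have hroot : ∀ i b, (V i b).IsRoot c := by
    intro i b
    have h0 : (X - C c) ^ 2 * Q b b = ∑ i, V i b * V i b := hV b b
    have h1 := congrArg (eval c) h0
    simp only [eval_mul, eval_pow, eval_sub, eval_X, eval_C, sub_self, eval_finsetSum] at h1
    have h2 : ∑ i, eval c (V i b) * eval c (V i b) = 0 := by
      rw [← h1]
      ring
    have h3 := (Finset.sum_eq_zero_iff_of_nonneg (fun i _ => mul_self_nonneg _)).mp h2 i
      (Finset.mem_univ i)
    exact mul_self_eq_zero.mp h3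
  have hdvd : ∀ i b, ∃ q, V i b = (X - C c) * q := fun i b => dvd_iff_isRoot.mpr (hroot i b)
  choose W hW using hdvd
  refine ⟨ι, hι, W, fun a b => ?_⟩
  have h1 : (X - C c) ^ 2 * Q a b = ∑ i, V i a * V i b := hV a b
  have hne : ((X - C c) ^ 2 : ℝ[X]) ≠ 0 := pow_ne_zero 2 (X_sub_C_ne_zero c)
  apply mul_left_cancel₀ hne
  rw [h1, Finset.mul_sum]
  refine Finset.sum_congr rfl (fun i _ => ?_)
  rw [hW i a, hW i b]
  ring

theorem fr_div
    (hL2 : ∀ (n : Type) [Fintype n] (ζ : ℂ), ζ.im ≠ 0 → ∀ (ι : Type) [Fintype ι]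
      (V : ι → n → Polynomial ℝ) (Q : n → n → Polynomial ℝ),
      (∀ a b, (X ^ 2 - C (2 * ζ.re) * X + C (‖ζ‖ ^ 2)) * Q a b = ∑ i, V i a * V i b) →
      ∃ (ι' : Type) (_ : Fintype ι') (V' : ι' → n → Polynomial ℝ),
        ∀ a b, Q a b = ∑ i, V' i a * V' i b)
    (d : ℕ) : ∀ (M : Polynomial ℝ), M.natDegree ≤ d → M ≠ 0 → (∀ x, 0 ≤ M.eval x) →
      ∀ (n : Type) [Fintype n] (Q : n → n → Polynomial ℝ),
        FRIsSOS (fun a b => M * Q a b) → FRIsSOS Q := by
  induction d using Nat.strong_induction_on with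
  | _ d ih =>
  intro M hd hM0 hpos n _ Q hQ
  by_cases hdeg : M.natDegree = 0
  · obtain ⟨μ, rfl⟩ : ∃ μ, M = C μ := ⟨M.coeff 0, eq_C_of_natDegree_eq_zero hdeg⟩
    have hμ0 : μ ≠ 0 := fun h => hM0 (by rw [h, C_0])
    have hμ : 0 < μ := lt_of_le_of_ne (by simpa using hpos 0) (Ne.symm hμ0)
    obtain ⟨ι, hι, V, hV⟩ := hQ
    refine ⟨ι, hι, fun i a => C (1 / Real.sqrt μ) * V i a, fun a b => ?_⟩
    have h1 : C μ * Q a b = ∑ i, V i a * V i b := hV a b
    have h2 : (C (1 / Real.sqrt μ) * C (1 / Real.sqrt μ) : ℝ[X]) * C μ = 1 := by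
      rw [← C_mul, ← C_mul, ← C_1]
      congr 1
      have hs := Real.mul_self_sqrt hμ.le
      have hs0 : Real.sqrt μ ≠ 0 := (Real.sqrt_pos.mpr hμ).ne'
      field_simp
      nlinarith [hs]
    calc Q a b = (C (1 / Real.sqrt μ) * C (1 / Real.sqrt μ) * C μ) * Q a b := by
          rw [h2, one_mul]
      _ = C (1 / Real.sqrt μ) * C (1 / Real.sqrt μ) * (∑ i, V i a * V i b) := by
          rw [← h1]
          ring
      _ = ∑ i, (C (1 / Real.sqrt μ) * V i a) * (C (1 / Real.sqrt μ) * V i b) := by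
          rw [Finset.mul_sum]
          exact Finset.sum_congr rfl (fun i _ => by ring)
  · have hdegpos : 0 < (M.map (algebraMap ℝ ℂ)).degree := by
      rw [degree_map]
      exact natDegree_pos_iff_degree_pos.mp (Nat.pos_of_ne_zero hdeg)
    obtain ⟨ζ, hζ⟩ := Complex.exists_root hdegpos
    have hζ' : aeval ζ M = 0 := by
      rwa [IsRoot, eval_map, ← aeval_def] at hζ
    by_cases him : ζ.im = 0
    · have hζc : ζ = algebraMap ℝ ℂ ζ.re := by
        apply Complex.ext <;> simp [him]
      have hroot : M.IsRoot ζ.re := by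
        rw [hζc, aeval_algebraMap_apply_eq_algebraMap_eval] at hζ'
        have h2 : ((eval ζ.re M : ℝ) : ℂ) = 0 := hζ'
        exact_mod_cast h2
      have hmin : IsLocalMin (fun x => eval x M) ζ.re := by
        apply Filter.Eventually.of_forall
        intro x
        show eval ζ.re M ≤ eval x M
        rw [hroot]
        exact hpos x
      have hder : (derivative M).IsRoot ζ.re := by
        have h3 := hmin.deriv_eq_zero
        rwa [Polynomial.deriv] at h3
      have hmult : 2 ≤ M.rootMultiplicity ζ.re :=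
        (one_lt_rootMultiplicity_iff_isRoot hM0).mpr ⟨hroot, hder⟩
      obtain ⟨M2, hM2⟩ := (le_rootMultiplicity_iff hM0).mp hmult
      have hM2ne : M2 ≠ 0 := by
        rintro rfl
        exact hM0 (by rw [hM2, mul_zero])
      have hM2pos : ∀ x, 0 ≤ M2.eval x := by
        have hoff : ∀ x ∈ ({ζ.re}ᶜ : Set ℝ), 0 ≤ M2.eval x := by
          intro x hx
          have hxc : x - ζ.re ≠ 0 := sub_ne_zero.mpr hx
          have h1 := hpos x
          rw [hM2, eval_mul, eval_pow, eval_sub, eval_X, eval_C] at h1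
          exact nonneg_of_mul_nonneg_right h1 (by positivity)
        have hcl : IsClosed {x : ℝ | 0 ≤ M2.eval x} := isClosed_le continuous_const M2.continuous
        have hsub : closure ({ζ.re}ᶜ : Set ℝ) ⊆ {x : ℝ | 0 ≤ M2.eval x} := closure_minimal hoff hcl
        intro x
        exact hsub (by rw [(dense_compl_singleton ζ.re).closure_eq]; trivial)
      have hdeg2 : M2.natDegree < M.natDegree := by
        rw [hM2, Monic.natDegree_mul' ((monic_X_sub_C ζ.re).pow 2) hM2ne, natDegree_pow,
          natDegree_X_sub_C]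
        omega
      apply ih M2.natDegree (lt_of_lt_of_le hdeg2 hd) M2 le_rfl hM2ne hM2pos n Q
      apply fr_L1 ζ.re
      obtain ⟨ι, hι, V, hV⟩ := hQ
      refine ⟨ι, hι, V, fun a b => ?_⟩
      have h1 : M * Q a b = ∑ i, V i a * V i b := hV a b
      rw [← h1, hM2]
      ring
    · obtain ⟨M2, hM2⟩ := quadratic_dvd_of_aeval_eq_zero_im_ne_zero M hζ' him
      have hκeval : ∀ x : ℝ, 0 < (X ^ 2 - C (2 * ζ.re) * X + C (‖ζ‖ ^ 2) : ℝ[X]).eval x := by
        intro x
        have h1 : (X ^ 2 - C (2 * ζ.re) * X + C (‖ζ‖ ^ 2) : ℝ[X]).eval x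
            = (x - ζ.re) ^ 2 + ζ.im ^ 2 := by
          simp only [eval_add, eval_sub, eval_mul, eval_pow, eval_X, eval_C]
          rw [← Complex.normSq_eq_norm_sq, Complex.normSq_apply]
          ring
        rw [h1]
        have h2 : 0 < ζ.im ^ 2 := by positivity
        have h3 := sq_nonneg (x - ζ.re)
        linarith
      have hM2ne : M2 ≠ 0 := by
        rintro rfl
        exact hM0 (by rw [hM2, mul_zero])
      have hM2pos : ∀ x, 0 ≤ M2.eval x := by
        intro x
        have h1 := hpos x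
        rw [hM2, eval_mul] at h1
        exact nonneg_of_mul_nonneg_right h1 (hκeval x)
      have hκdeg : (X ^ 2 - C (2 * ζ.re) * X + C (‖ζ‖ ^ 2) : ℝ[X]).natDegree = 2 := by
        have h1 : (X ^ 2 - C (2 * ζ.re) * X + C (‖ζ‖ ^ 2) : ℝ[X])
            = C 1 * X ^ 2 + C (-(2 * ζ.re)) * X + C (‖ζ‖ ^ 2) := by
          rw [C_1, C_neg]
          ring
        rw [h1]
        exact natDegree_quadratic one_ne_zero
      have hκne : (X ^ 2 - C (2 * ζ.re) * X + C (‖ζ‖ ^ 2) : ℝ[X]) ≠ 0 := by
        intro h0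
        rw [h0] at hκdeg
        simp at hκdeg
      have hdeg2 : M2.natDegree < M.natDegree := by
        rw [hM2, natDegree_mul hκne hM2ne, hκdeg]
        omega
      apply ih M2.natDegree (lt_of_lt_of_le hdeg2 hd) M2 le_rfl hM2ne hM2pos n Q
      obtain ⟨ι, hι, V, hV⟩ := hQ
      obtain ⟨ι', hι', V', hV'⟩ := hL2 n ζ him ι V (fun a b => M2 * Q a b) (fun a b => by
        have h1 : M * Q a b = ∑ i, V i a * V i b := hV a b
        rw [← h1, hM2]
        ring)
      exact ⟨ι', hι', V', hV'⟩

theorem fejer_riesz_of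
    (hL2 : ∀ (n : Type) [Fintype n] (ζ : ℂ), ζ.im ≠ 0 → ∀ (ι : Type) [Fintype ι]
      (V : ι → n → Polynomial ℝ) (Q : n → n → Polynomial ℝ),
      (∀ a b, (X ^ 2 - C (2 * ζ.re) * X + C (‖ζ‖ ^ 2)) * Q a b = ∑ i, V i a * V i b) →
      ∃ (ι' : Type) (_ : Fintype ι') (V' : ι' → n → Polynomial ℝ),
        ∀ a b, Q a b = ∑ i, V' i a * V' i b)
    (m : ℕ) (P : Fin m → Fin m → Polynomial ℝ) (hsymm : ∀ a b, P a b = P b a)
    (hpsd : ∀ (x : ℝ) (v : Fin m → ℝ), 0 ≤ ∑ a, ∑ b, v a * (P a b).eval x * v b) :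
    ∃ (ι : Type) (_ : Fintype ι) (V : ι → Fin m → Polynomial ℝ),
      ∀ a b, P a b = ∑ i, V i a * V i b := by
  induction m with
  | zero => exact ⟨Fin 0, inferInstance, fun i => i.elim0, fun a => a.elim0⟩
  | succ m ih =>
    have hexp : ∀ (x s : ℝ) (v : Fin m → ℝ),
        ∑ a, ∑ b, (Fin.cons s v : Fin (m + 1) → ℝ) a * (P a b).eval x
            * (Fin.cons s v : Fin (m + 1) → ℝ) b
          = (P 0 0).eval x * (s * s) + (2 * ∑ a, (P 0 a.succ).eval x * v a) * s
            + ∑ a, ∑ b, v a * (P a.succ b.succ).eval x * v b := by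
      intro x s v
      simp only [Fin.sum_univ_succ, Fin.cons_zero, Fin.cons_succ]
      rw [Finset.sum_add_distrib]
      have h1 : ∑ a : Fin m, v a * (P a.succ 0).eval x * s
          = s * ∑ a, (P 0 a.succ).eval x * v a := by
        rw [Finset.mul_sum]
        refine Finset.sum_congr rfl (fun a _ => ?_)
        rw [hsymm a.succ 0]
        ring
      have h2 : ∑ b : Fin m, s * (P 0 b.succ).eval x * v b
          = s * ∑ a, (P 0 a.succ).eval x * v a := by
        rw [Finset.mul_sum]
        refine Finset.sum_congr rfl (fun a _ => ?_)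
        ring
      rw [h1, h2]
      ring
    have hquad : ∀ (x : ℝ) (v : Fin m → ℝ), (∑ a, (P 0 a.succ).eval x * v a) ^ 2
        ≤ (P 0 0).eval x * ∑ a, ∑ b, v a * (P a.succ b.succ).eval x * v b := by
      intro x v
      have h := discrim_le_zero (a := (P 0 0).eval x)
        (b := 2 * ∑ a, (P 0 a.succ).eval x * v a)
        (c := ∑ a, ∑ b, v a * (P a.succ b.succ).eval x * v b) (fun s => by
          rw [← hexp x s v]
          exact hpsd x _)
      unfold discrim at h
      nlinarith
    have hP'psd : ∀ (x : ℝ) (v : Fin m → ℝ),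
        0 ≤ ∑ a, ∑ b, v a * (P a.succ b.succ).eval x * v b := by
      intro x v
      have h := hpsd x (Fin.cons 0 v)
      rw [hexp x 0 v] at h
      simpa using h
    have hp0 : ∀ x, 0 ≤ (P 0 0).eval x := by
      intro x
      have h := hpsd x (Fin.cons 1 0)
      rw [hexp x 1 0] at h
      simpa using h
    by_cases hp : P 0 0 = 0
    · have hr : ∀ a : Fin m, P 0 a.succ = 0 := by
        intro a
        apply Polynomial.funext
        intro x
        have h := hquad x (Pi.single a 1)
        rw [hp, eval_zero, zero_mul] at h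
        have h2 : (∑ a' : Fin m, (P 0 a'.succ).eval x * (Pi.single a 1 : Fin m → ℝ) a')
            = (P 0 a.succ).eval x := by
          simp [Pi.single_apply]
        rw [h2] at h
        have h3 : (P 0 a.succ).eval x = 0 :=
          pow_eq_zero_iff (two_ne_zero) |>.mp (le_antisymm h (sq_nonneg _))
        rw [h3, eval_zero]
      obtain ⟨ι, hι, V, hV⟩ := ih (fun a b => P a.succ b.succ) (fun a b => hsymm _ _) hP'psd
      refine ⟨ι, hι, fun i => Fin.cons 0 (V i), fun a b => ?_⟩
      refine Fin.cases ?_ (fun a' => ?_) a <;> refine Fin.cases ?_ (fun b' => ?_) b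
      · simp [hp]
      · simp [hr b']
      · simp [hsymm a'.succ 0, hr a']
      · simp only [Fin.cons_succ]
        exact hV a' b'
    · have hSsymm : ∀ a b : Fin m, P 0 0 * P a.succ b.succ - P 0 a.succ * P 0 b.succ
          = P 0 0 * P b.succ a.succ - P 0 b.succ * P 0 a.succ := by
        intro a b
        rw [hsymm a.succ b.succ]
        ring
      have hSpsd : ∀ (x : ℝ) (v : Fin m → ℝ), 0 ≤ ∑ a, ∑ b,
          v a * (P 0 0 * P a.succ b.succ - P 0 a.succ * P 0 b.succ).eval x * v b := by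
        intro x v
        have h := hquad x v
        have e : ∑ a, ∑ b, v a * (P 0 0 * P a.succ b.succ - P 0 a.succ * P 0 b.succ).eval x * v b
            = (P 0 0).eval x * (∑ a, ∑ b, v a * (P a.succ b.succ).eval x * v b)
              - (∑ a, (P 0 a.succ).eval x * v a) ^ 2 := by
          simp only [eval_sub, eval_mul]
          rw [sq, Finset.sum_mul_sum, Finset.mul_sum, ← Finset.sum_sub_distrib]
          refine Finset.sum_congr rfl (fun a _ => ?_)
          rw [Finset.mul_sum, ← Finset.sum_sub_distrib]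
          refine Finset.sum_congr rfl (fun b _ => ?_)
          ring
        rw [e]
        linarith
      obtain ⟨ι, hι, V, hV⟩ := ih
        (fun a b => P 0 0 * P a.succ b.succ - P 0 a.succ * P 0 b.succ) hSsymm hSpsd
      have hsos : FRIsSOS (fun a b => P 0 0 * P a b) := by
        refine ⟨Option ι, inferInstance, fun o => Option.elim o
          (Fin.cons (P 0 0) (fun a => P 0 a.succ)) (fun i => Fin.cons 0 (V i)), fun a b => ?_⟩
        rw [Fintype.sum_option]
        refine Fin.cases ?_ (fun a' => ?_) a <;> refine Fin.cases ?_ (fun b' => ?_) b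
        · simp
        · simp
        · simp [hsymm a'.succ 0]
          ring
        · simp only [Option.elim, Fin.cons_succ]
          have h1 : P 0 0 * P a'.succ b'.succ - P 0 a'.succ * P 0 b'.succ
              = ∑ i, V i a' * V i b' := hV a' b'
          rw [← h1]
          ring
      exact fr_div hL2 (P 0 0).natDegree (P 0 0) le_rfl hp hp0 (Fin (m + 1)) P hsos

end Vale.Agent.H78
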