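import Mathlib

/-!
# Folding a one-periodic colouring of `ℤ^d` into a fully periodic one

`fold_lemma`: a colouring `c` of `ℤ^d` that is invariant under `N • ker ℓ` (for an additive
`ℓ : ℤ^d → ℤ` with `ℓ w = 1`) can be replaced by a colouring `c'` invariant under `P • ℤ^d`
such that on every window `s0 ≤ ℓ z ≤ s0 + r` the new colouring is a translate of the old one by
an element of `N • ℤ^d`.  (One-dimensional pigeonhole on the slabs of `c`.)
-/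

namespace Vale.Agent.H78.Fold

/-- The colour of a point depends only on its level `ℓ z` and on its residues modulo `N`. -/
theorem fold_reduce {d : ℕ} {α : Type*} (ℓ : (Fin d → ℤ) →+ ℤ) (w : Fin d → ℤ) (hw : ℓ w = 1)
    (N : ℕ) (c : (Fin d → ℤ) → α)
    (hc : ∀ x h, ℓ h = 0 → c (x + (N : ℤ) • h) = c x) (z : Fin d → ℤ) :
    c z = c ((fun i => z i % (N : ℤ)) + (ℓ z - ℓ (fun i => z i % (N : ℤ))) • w) := by
  obtain ⟨y, hy⟩ : ∃ y : Fin d → ℤ, y = fun i => z i % (N : ℤ) := ⟨_, rfl⟩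
  obtain ⟨q, hq⟩ : ∃ q : Fin d → ℤ, q = fun i => z i / (N : ℤ) := ⟨_, rfl⟩
  rw [← hy]
  have hz : z = y + (N : ℤ) • q := by
    funext i
    rw [hy, hq]
    simp only [Pi.add_apply, Pi.smul_apply, smul_eq_mul]
    exact (Int.emod_add_mul_ediv (z i) N).symm
  have e1 : ℓ z - ℓ y = (N : ℤ) * ℓ q := by
    rw [hz, map_add, map_zsmul, smul_eq_mul]
    ring
  have e2 : z = (y + ((N : ℤ) * ℓ q) • w) + (N : ℤ) • (q - ℓ q • w) := by
    rw [hz]
    module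
  have e3 : ℓ (q - ℓ q • w) = 0 := by
    rw [map_sub, map_zsmul, hw, smul_eq_mul, mul_one, sub_self]
  rw [e1]
  calc c z = c ((y + ((N : ℤ) * ℓ q) • w) + (N : ℤ) • (q - ℓ q • w)) := congrArg c e2
    _ = c (y + ((N : ℤ) * ℓ q) • w) := hc _ _ e3

/-- Seam identity: if two blocks of the colouring agree, the colouring is invariant under the
corresponding shift on the first slab. -/
theorem fold_seam {d : ℕ} {α : Type*} (ℓ : (Fin d → ℤ) →+ ℤ) (w : Fin d → ℤ) (hw : ℓ w = 1)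
    (N : ℕ) (hN : 0 < N) (R : ℕ) (c : (Fin d → ℤ) → α)
    (hc : ∀ x h, ℓ h = 0 → c (x + (N : ℤ) • h) = c x) (b1 m : ℤ)
    (hblk : ∀ (t : Fin R) (y : Fin d → Fin N),
      c ((fun i => ((y i : ℕ) : ℤ)) + (b1 + (t : ℕ) - ℓ (fun i => ((y i : ℕ) : ℤ))) • w) =
      c ((fun i => ((y i : ℕ) : ℤ)) +
        (b1 + (N : ℤ) * m + (t : ℕ) - ℓ (fun i => ((y i : ℕ) : ℤ))) • w))
    (z : Fin d → ℤ) (h1 : b1 ≤ ℓ z) (h2 : ℓ z < b1 + R) :
    c (z + ((N : ℤ) * m) • w) = c z := by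
  have hN0 : (0 : ℤ) < N := by exact_mod_cast hN
  have hy0 : ∀ i, 0 ≤ z i % (N : ℤ) := fun i => Int.emod_nonneg _ hN0.ne'
  have hy1 : ∀ i, z i % (N : ℤ) < N := fun i => Int.emod_lt_of_pos _ hN0
  let yF : Fin d → Fin N := fun i =>
    ⟨(z i % (N : ℤ)).toNat, by have := hy1 i; have := hy0 i; omega⟩
  have hyF : (fun i => ((yF i : ℕ) : ℤ)) = fun i => z i % (N : ℤ) := by
    funext i
    exact Int.toNat_of_nonneg (hy0 i)
  let t : Fin R := ⟨(ℓ z - b1).toNat, by omega⟩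
  have ht : ((t : ℕ) : ℤ) = ℓ z - b1 := Int.toNat_of_nonneg (by omega)
  have hb := hblk t yF
  rw [hyF, ht] at hb
  have r1 := fold_reduce ℓ w hw N c hc z
  have r2 := fold_reduce ℓ w hw N c hc (z + ((N : ℤ) * m) • w)
  have hres : (fun i => (z + ((N : ℤ) * m) • w) i % (N : ℤ)) = fun i => z i % (N : ℤ) := by
    funext i
    simp only [Pi.add_apply, Pi.smul_apply, smul_eq_mul]
    rw [mul_assoc]
    exact Int.add_mul_emod_self_left _ _ _
  have hlev : ℓ (z + ((N : ℤ) * m) • w) = ℓ z + (N : ℤ) * m := by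
    rw [map_add, map_zsmul, hw, smul_eq_mul, mul_one]
  rw [hres, hlev] at r2
  rw [r1, r2]
  have e1 : b1 + (ℓ z - b1) - ℓ (fun i => z i % (N : ℤ)) =
      ℓ z - ℓ (fun i => z i % (N : ℤ)) := by ring
  have e2 : b1 + (N : ℤ) * m + (ℓ z - b1) - ℓ (fun i => z i % (N : ℤ)) =
      ℓ z + (N : ℤ) * m - ℓ (fun i => z i % (N : ℤ)) := by ring
  rw [e1, e2] at hb
  exact hb.symm

/-- **Fold lemma.**  A colouring with finitely many colours that is invariant under `N • ker ℓ`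
can be folded into a colouring invariant under `P • ℤ^d`, such that on every window of `r + 1`
consecutive levels the new colouring is the old one translated by an element of `N • ℤ^d`. -/
theorem fold_lemma {d : ℕ} {α : Type*} [Finite α] (ℓ : (Fin d → ℤ) →+ ℤ) (w : Fin d → ℤ)
    (hw : ℓ w = 1) (N : ℕ) (hN : 0 < N) (r : ℕ) (c : (Fin d → ℤ) → α)
    (hc : ∀ x h, ℓ h = 0 → c (x + (N : ℤ) • h) = c x) :
    ∃ (P : ℕ) (c' : (Fin d → ℤ) → α), 0 < P ∧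
      (∀ x v : Fin d → ℤ, c' (x + (P : ℤ) • v) = c' x) ∧
      (∀ s0 : ℤ, ∃ v : Fin d → ℤ, ∀ z, s0 ≤ ℓ z → ℓ z ≤ s0 + r →
        c' z = c (z + (N : ℤ) • v)) := by
  classical
  obtain ⟨R, hR⟩ : ∃ R : ℕ, R = r + 1 := ⟨_, rfl⟩
  let Blk : ℕ → (Fin R × (Fin d → Fin N)) → α := fun s p =>
    c ((fun i => ((p.2 i : ℕ) : ℤ)) +
      ((s : ℤ) * R * N + (p.1 : ℕ) - ℓ (fun i => ((p.2 i : ℕ) : ℤ))) • w)
  obtain ⟨s1, s2, hne, heq⟩ := Finite.exists_ne_map_eq_of_infinite Blk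
  wlog hlt : s1 < s2 generalizing s1 s2
  · exact this s2 s1 hne.symm heq.symm (lt_of_le_of_ne (not_lt.mp hlt) hne.symm)
  have hN0 : (0 : ℤ) < N := by exact_mod_cast hN
  have hR0 : (0 : ℤ) < R := by rw [hR]; positivity
  obtain ⟨m, hm⟩ : ∃ m : ℤ, m = ((s2 : ℤ) - s1) * R := ⟨_, rfl⟩
  obtain ⟨b1, hb1⟩ : ∃ b1 : ℤ, b1 = (s1 : ℤ) * R * N := ⟨_, rfl⟩
  have hs : (0 : ℤ) < (s2 : ℤ) - s1 := by
    have : (s1 : ℤ) < s2 := by exact_mod_cast hlt
    linarith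
  have hm0 : 0 < m := by rw [hm]; positivity
  have hmR : (R : ℤ) ≤ m := by
    rw [hm]
    nlinarith
  obtain ⟨P, hP⟩ : ∃ P : ℕ, (P : ℤ) = (N : ℤ) * m :=
    ⟨((N : ℤ) * m).toNat, Int.toNat_of_nonneg (by positivity)⟩
  have hP0 : (0 : ℤ) < P := by rw [hP]; positivity
  have hPR : (R : ℤ) ≤ P := by
    rw [hP]
    nlinarith
  have hseam : ∀ z, b1 ≤ ℓ z → ℓ z < b1 + R → c (z + (P : ℤ) • w) = c z := by
    intro z h1 h2
    rw [hP]
    refine fold_seam ℓ w hw N hN R c hc b1 m (fun t y => ?_) z h1 h2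
    have h := congrFun heq (t, y)
    simp only [Blk] at h
    have e : b1 + (N : ℤ) * m = (s2 : ℤ) * R * N := by rw [hb1, hm]; ring
    rw [e, hb1]
    exact h
  refine ⟨P, fun x => c (x + (b1 + (ℓ x - b1) % (P : ℤ) - ℓ x) • w), by exact_mod_cast hP0, ?_, ?_⟩
  · intro x v
    show c (x + (P : ℤ) • v + (b1 + (ℓ (x + (P : ℤ) • v) - b1) % (P : ℤ) -
      ℓ (x + (P : ℤ) • v)) • w) = c (x + (b1 + (ℓ x - b1) % (P : ℤ) - ℓ x) • w)
    have hl : ℓ (x + (P : ℤ) • v) = ℓ x + (P : ℤ) * ℓ v := by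
      rw [map_add, map_zsmul, smul_eq_mul]
    have hmod : (ℓ x + (P : ℤ) * ℓ v - b1) % (P : ℤ) = (ℓ x - b1) % (P : ℤ) := by
      have : ℓ x + (P : ℤ) * ℓ v - b1 = (ℓ x - b1) + (P : ℤ) * ℓ v := by ring
      rw [this]
      exact Int.add_mul_emod_self_left _ _ _
    rw [hl, hmod]
    have e : x + (P : ℤ) • v + (b1 + (ℓ x - b1) % (P : ℤ) - (ℓ x + (P : ℤ) * ℓ v)) • w =
        (x + (b1 + (ℓ x - b1) % (P : ℤ) - ℓ x) • w) + (N : ℤ) • (m • (v - ℓ v • w)) := by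
      rw [hP]
      module
    rw [e]
    refine hc _ _ ?_
    rw [map_zsmul, map_sub, map_zsmul, hw, smul_eq_mul, smul_eq_mul, mul_one, sub_self, mul_zero]
  · intro s0
    obtain ⟨e, he⟩ : ∃ e : ℤ, e = (s0 - b1) % (P : ℤ) := ⟨_, rfl⟩
    obtain ⟨q, hq⟩ : ∃ q : ℤ, q = (s0 - b1) / (P : ℤ) := ⟨_, rfl⟩
    have he0 : 0 ≤ e := by rw [he]; exact Int.emod_nonneg _ hP0.ne'
    have he1 : e < P := by rw [he]; exact Int.emod_lt_of_pos _ hP0
    have hdiv : s0 - b1 = e + (P : ℤ) * q := by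
      rw [he, hq]
      exact (Int.emod_add_mul_ediv _ _).symm
    refine ⟨(-(m * q)) • w, fun z hz1 hz2 => ?_⟩
    obtain ⟨u, hu⟩ : ∃ u : ℤ, u = ℓ z - s0 := ⟨_, rfl⟩
    have hu0 : 0 ≤ u := by rw [hu]; linarith
    have hu1 : u ≤ r := by rw [hu]; linarith
    have hur : u < R := by rw [hR]; push_cast; linarith
    have hmod : (ℓ z - b1) % (P : ℤ) = (e + u) % (P : ℤ) := by
      have : ℓ z - b1 = (e + u) + (P : ℤ) * q := by rw [hu]; linarith
      rw [this]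
      exact Int.add_mul_emod_self_left _ _ _
    show c (z + (b1 + (ℓ z - b1) % (P : ℤ) - ℓ z) • w) = c (z + (N : ℤ) • (-(m * q)) • w)
    rw [hmod]
    by_cases hcase : e + u < P
    · have h1 : (e + u) % (P : ℤ) = e + u := Int.emod_eq_of_lt (by linarith) hcase
      rw [h1]
      congr 1
      have : b1 + (e + u) - ℓ z = (N : ℤ) * (-(m * q)) := by
        rw [hu]
        have := hdiv
        rw [hP] at this
        linarith
      rw [this]
      module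
    · have hge : (P : ℤ) ≤ e + u := not_lt.mp hcase
      have h1 : (e + u) % (P : ℤ) = e + u - P := by
        have h2 : (e + u - P + (P : ℤ) * 1) % (P : ℤ) = (e + u - P) % (P : ℤ) :=
          Int.add_mul_emod_self_left _ _ _
        have h3 : e + u - P + (P : ℤ) * 1 = e + u := by ring
        rw [h3] at h2
        rw [h2]
        exact Int.emod_eq_of_lt (by linarith) (by linarith)
      rw [h1]
      have hseam' := hseam (z + (b1 + (e + u - P) - ℓ z) • w) ?_ ?_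
      · rw [← hseam']
        congr 1
        have : b1 + (e + u - P) - ℓ z = (N : ℤ) * (-(m * q)) - P := by
          rw [hu]
          have := hdiv
          rw [hP] at this
          rw [hP]
          linarith
        rw [this]
        module
      · rw [map_add, map_zsmul, hw, smul_eq_mul, mul_one]
        linarith
      · rw [map_add, map_zsmul, hw, smul_eq_mul, mul_one]
        linarith

/-- **Periodization of coordinate systems.**  Let `φ i : ℤ^d → F i` be the coordinate functions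
of a tiling by `F 0 ⊕ ⋯ ⊕ F (k-1)` (properties `h1`, `h2`), each `φ i` invariant under a subgroup
`M i` that contains `N • ker (ℓ i)` for an additive `ℓ i : ℤ^d → ℤ` with `ℓ i (w i) = 1`
(so `M i` has rank at least `d - 1`), and suppose `N • ℤ^d ⊆ M i + M j` for `i ≠ j`.  Then there
are coordinate functions with the same properties that are invariant under `P • ℤ^d`. -/
theorem periodize {d k : ℕ} (F : Fin k → Finset (Fin d → ℤ))
    (φ : Fin k → (Fin d → ℤ) → (Fin d → ℤ))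
    (hφ : ∀ i g, φ i g ∈ F i)
    (h1 : ∀ i g, ∀ f ∈ F i, φ i (g - φ i g + f) = f)
    (h2 : ∀ i j, i ≠ j → ∀ g, ∀ f ∈ F i, φ j (g - φ i g + f) = φ j g)
    (M : Fin k → AddSubgroup (Fin d → ℤ))
    (hM : ∀ i g, ∀ m ∈ M i, φ i (g + m) = φ i g)
    (N : ℕ) (hN : 0 < N)
    (ℓ : Fin k → ((Fin d → ℤ) →+ ℤ)) (w : Fin k → (Fin d → ℤ)) (hw : ∀ i, ℓ i (w i) = 1)
    (hker : ∀ i h, ℓ i h = 0 → (N : ℤ) • h ∈ M i)
    (hpair : ∀ i j, i ≠ j → ∀ v : Fin d → ℤ, ∃ a ∈ M i, ∃ b ∈ M j, (N : ℤ) • v = a + b) :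
    ∃ (φ' : Fin k → (Fin d → ℤ) → (Fin d → ℤ)) (P : ℕ), 0 < P ∧
      (∀ i g, φ' i g ∈ F i) ∧
      (∀ i g, ∀ f ∈ F i, φ' i (g - φ' i g + f) = f) ∧
      (∀ i j, i ≠ j → ∀ g, ∀ f ∈ F i, φ' j (g - φ' i g + f) = φ' j g) ∧
      (∀ i g (v : Fin d → ℤ), φ' i (g + (P : ℤ) • v) = φ' i g) := by
  classical
  -- the window radius
  obtain ⟨r, hr⟩ : ∃ r : ℕ, ∀ i j, ∀ f ∈ F i, ∀ f' ∈ F i, |ℓ j (f - f')| ≤ r := by
    refine ⟨∑ j, ∑ i, ∑ f ∈ F i, ∑ f' ∈ F i, (ℓ j (f - f')).natAbs, fun i j f hf f' hf' => ?_⟩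
    have a1 : (ℓ j (f - f')).natAbs ≤ ∑ f' ∈ F i, (ℓ j (f - f')).natAbs :=
      Finset.single_le_sum (f := fun f' => (ℓ j (f - f')).natAbs) (fun _ _ => Nat.zero_le _) hf'
    have a2 : ∑ f' ∈ F i, (ℓ j (f - f')).natAbs ≤
        ∑ f ∈ F i, ∑ f' ∈ F i, (ℓ j (f - f')).natAbs :=
      Finset.single_le_sum (f := fun f => ∑ f' ∈ F i, (ℓ j (f - f')).natAbs)
        (fun _ _ => Nat.zero_le _) hf
    have a3 : ∑ f ∈ F i, ∑ f' ∈ F i, (ℓ j (f - f')).natAbs ≤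
        ∑ i, ∑ f ∈ F i, ∑ f' ∈ F i, (ℓ j (f - f')).natAbs :=
      Finset.single_le_sum (f := fun i => ∑ f ∈ F i, ∑ f' ∈ F i, (ℓ j (f - f')).natAbs)
        (fun _ _ => Nat.zero_le _) (Finset.mem_univ i)
    have a4 : ∑ i, ∑ f ∈ F i, ∑ f' ∈ F i, (ℓ j (f - f')).natAbs ≤
        ∑ j, ∑ i, ∑ f ∈ F i, ∑ f' ∈ F i, (ℓ j (f - f')).natAbs :=
      Finset.single_le_sum (f := fun j => ∑ i, ∑ f ∈ F i, ∑ f' ∈ F i, (ℓ j (f - f')).natAbs)
        (fun _ _ => Nat.zero_le _) (Finset.mem_univ j)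
    rw [← Int.natCast_natAbs]
    exact_mod_cast (a1.trans a2).trans (a3.trans a4)
  -- fold every coordinate function
  have hfold : ∀ i, ∃ (P : ℕ) (c' : (Fin d → ℤ) → ↥(F i)), 0 < P ∧
      (∀ x v : Fin d → ℤ, c' (x + (P : ℤ) • v) = c' x) ∧
      (∀ s0 : ℤ, ∃ v : Fin d → ℤ, ∀ z, s0 ≤ ℓ i z → ℓ i z ≤ s0 + r →
        c' z = (⟨φ i (z + (N : ℤ) • v), hφ i _⟩ : ↥(F i))) :=
    fun i => fold_lemma (ℓ i) (w i) (hw i) N hN r (fun x => (⟨φ i x, hφ i x⟩ : ↥(F i)))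
      (fun x h hh => Subtype.ext (hM i x _ (hker i h hh)))
  choose Pf cf hPf hperf hwinf using hfold
  have hwin : ∀ i (s0 : ℤ), ∃ v : Fin d → ℤ, ∀ z, s0 ≤ ℓ i z → ℓ i z ≤ s0 + r →
      (cf i z : Fin d → ℤ) = φ i (z + (N : ℤ) • v) := by
    intro i s0
    obtain ⟨v, hv⟩ := hwinf i s0
    exact ⟨v, fun z a b => congrArg Subtype.val (hv z a b)⟩
  have hmem : ∀ i g, (cf i g : Fin d → ℤ) ∈ F i := fun i g => (cf i g).2
  -- two points whose levels differ by at most `r` lie in a common window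
  have hwin2 : ∀ i (x y : Fin d → ℤ), |ℓ i y - ℓ i x| ≤ r → ∃ v : Fin d → ℤ,
      (cf i x : Fin d → ℤ) = φ i (x + (N : ℤ) • v) ∧
      (cf i y : Fin d → ℤ) = φ i (y + (N : ℤ) • v) := by
    intro i x y hxy
    obtain ⟨v, hv⟩ := hwin i (min (ℓ i x) (ℓ i y))
    have hab := abs_le.mp hxy
    refine ⟨v, hv x (min_le_left _ _) ?_, hv y (min_le_right _ _) ?_⟩
    · rcases le_total (ℓ i x) (ℓ i y) with h | h
      · rw [min_eq_left h]; linarith [Nat.cast_nonneg (α := ℤ) r]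
      · rw [min_eq_right h]; linarith
    · rcases le_total (ℓ i x) (ℓ i y) with h | h
      · rw [min_eq_left h]; linarith
      · rw [min_eq_right h]; linarith [Nat.cast_nonneg (α := ℤ) r]
  refine ⟨fun i g => (cf i g : Fin d → ℤ), ∏ i, Pf i, Finset.prod_pos (fun i _ => hPf i),
    hmem, ?_, ?_, ?_⟩
  · -- (Φ1)
    intro i g f hf
    obtain ⟨v, e1, e2⟩ := hwin2 i g (g - (cf i g : Fin d → ℤ) + f) (by
      have : ℓ i (g - (cf i g : Fin d → ℤ) + f) - ℓ i g = ℓ i (f - (cf i g : Fin d → ℤ)) := by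
        simp only [map_add, map_sub]
        ring
      rw [this]
      exact hr i i f hf _ (hmem i g))
    show (cf i (g - (cf i g : Fin d → ℤ) + f) : Fin d → ℤ) = f
    rw [e2]
    have h := h1 i (g + (N : ℤ) • v) f hf
    rw [← e1] at h
    have e : g - (cf i g : Fin d → ℤ) + f + (N : ℤ) • v =
        g + (N : ℤ) • v - (cf i g : Fin d → ℤ) + f := by abel
    rw [e]
    exact h
  · -- (Φ2)
    intro i j hij g f hf
    obtain ⟨vi, e0, -⟩ := hwin2 i g g (by simp)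
    obtain ⟨vj, e1, e2⟩ := hwin2 j g (g - (cf i g : Fin d → ℤ) + f) (by
      have : ℓ j (g - (cf i g : Fin d → ℤ) + f) - ℓ j g = ℓ j (f - (cf i g : Fin d → ℤ)) := by
        simp only [map_add, map_sub]
        ring
      rw [this]
      exact hr i j f hf _ (hmem i g))
    obtain ⟨a, ha, b, hb, hab⟩ := hpair i j hij (vj - vi)
    show (cf j (g - (cf i g : Fin d → ℤ) + f) : Fin d → ℤ) = (cf j g : Fin d → ℤ)
    rw [e2, e1]
    have hstar : φ i (g + (N : ℤ) • vi + a) = (cf i g : Fin d → ℤ) :=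
      (hM i _ a ha).trans e0.symm
    have key := h2 i j hij (g + (N : ℤ) • vi + a) f hf
    rw [hstar] at key
    have hsum : (N : ℤ) • vj = (N : ℤ) • vi + (a + b) := by
      rw [← hab, smul_sub]
      abel
    have e3 : g - (cf i g : Fin d → ℤ) + f + (N : ℤ) • vj =
        (g + (N : ℤ) • vi + a - (cf i g : Fin d → ℤ) + f) + b := by
      rw [hsum]
      abel
    have e4 : g + (N : ℤ) • vj = (g + (N : ℤ) • vi + a) + b := by
      rw [hsum]
      abel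
    rw [e3, e4, hM j _ b hb, hM j _ b hb]
    exact key
  · -- periodicity
    intro i g v
    obtain ⟨q, hq⟩ := Finset.dvd_prod_of_mem Pf (Finset.mem_univ i)
    have e : ((∏ i, Pf i : ℕ) : ℤ) • v = (Pf i : ℤ) • ((q : ℤ) • v) := by
      rw [hq, smul_smul]
      push_cast
      rfl
    rw [e]
    exact congrArg Subtype.val (hperf i g ((q : ℤ) • v))

/-- **Periodization of coordinate systems, with classes.**  As `periodize`, but two factors may
share the same pair `ℓ`, `w` (they span the same hyperplane); such factors are folded by one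
common fold, and the condition `N • ℤ^d ⊆ M i + M j` is only needed for factors with different
pairs. -/
theorem periodize_cls {d k : ℕ} (F : Fin k → Finset (Fin d → ℤ))
    (φ : Fin k → (Fin d → ℤ) → (Fin d → ℤ))
    (hφ : ∀ i g, φ i g ∈ F i)
    (h1 : ∀ i g, ∀ f ∈ F i, φ i (g - φ i g + f) = f)
    (h2 : ∀ i j, i ≠ j → ∀ g, ∀ f ∈ F i, φ j (g - φ i g + f) = φ j g)
    (M : Fin k → AddSubgroup (Fin d → ℤ))
    (hM : ∀ i g, ∀ m ∈ M i, φ i (g + m) = φ i g)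
    (N : ℕ) (hN : 0 < N)
    (ℓ : Fin k → ((Fin d → ℤ) →+ ℤ)) (w : Fin k → (Fin d → ℤ)) (hw : ∀ i, ℓ i (w i) = 1)
    (hker : ∀ i h, ℓ i h = 0 → (N : ℤ) • h ∈ M i)
    (hpair : ∀ i j, i ≠ j → (ℓ i = ℓ j ∧ w i = w j) ∨
      ∀ v : Fin d → ℤ, ∃ a ∈ M i, ∃ b ∈ M j, (N : ℤ) • v = a + b) :
    ∃ (φ' : Fin k → (Fin d → ℤ) → (Fin d → ℤ)) (P : ℕ), 0 < P ∧
      (∀ i g, φ' i g ∈ F i) ∧
      (∀ i g, ∀ f ∈ F i, φ' i (g - φ' i g + f) = f) ∧
      (∀ i j, i ≠ j → ∀ g, ∀ f ∈ F i, φ' j (g - φ' i g + f) = φ' j g) ∧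
      (∀ i g (v : Fin d → ℤ), φ' i (g + (P : ℤ) • v) = φ' i g) := by
  classical
  -- the window radius
  obtain ⟨r, hr⟩ : ∃ r : ℕ, ∀ i j, ∀ f ∈ F i, ∀ f' ∈ F i, |ℓ j (f - f')| ≤ r := by
    refine ⟨∑ j, ∑ i, ∑ f ∈ F i, ∑ f' ∈ F i, (ℓ j (f - f')).natAbs, fun i j f hf f' hf' => ?_⟩
    have a1 : (ℓ j (f - f')).natAbs ≤ ∑ f' ∈ F i, (ℓ j (f - f')).natAbs :=
      Finset.single_le_sum (f := fun f' => (ℓ j (f - f')).natAbs) (fun _ _ => Nat.zero_le _) hf'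
    have a2 : ∑ f' ∈ F i, (ℓ j (f - f')).natAbs ≤
        ∑ f ∈ F i, ∑ f' ∈ F i, (ℓ j (f - f')).natAbs :=
      Finset.single_le_sum (f := fun f => ∑ f' ∈ F i, (ℓ j (f - f')).natAbs)
        (fun _ _ => Nat.zero_le _) hf
    have a3 : ∑ f ∈ F i, ∑ f' ∈ F i, (ℓ j (f - f')).natAbs ≤
        ∑ i, ∑ f ∈ F i, ∑ f' ∈ F i, (ℓ j (f - f')).natAbs :=
      Finset.single_le_sum (f := fun i => ∑ f ∈ F i, ∑ f' ∈ F i, (ℓ j (f - f')).natAbs)
        (fun _ _ => Nat.zero_le _) (Finset.mem_univ i)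
    have a4 : ∑ i, ∑ f ∈ F i, ∑ f' ∈ F i, (ℓ j (f - f')).natAbs ≤
        ∑ j, ∑ i, ∑ f ∈ F i, ∑ f' ∈ F i, (ℓ j (f - f')).natAbs :=
      Finset.single_le_sum (f := fun j => ∑ i, ∑ f ∈ F i, ∑ f' ∈ F i, (ℓ j (f - f')).natAbs)
        (fun _ _ => Nat.zero_le _) (Finset.mem_univ j)
    rw [← Int.natCast_natAbs]
    exact_mod_cast (a1.trans a2).trans (a3.trans a4)
  -- the joint colouring of the class of `i`
  obtain ⟨C, hC⟩ : ∃ C : Fin k → (Fin d → ℤ) → (∀ j : Fin k, ↥(F j)), ∀ i x j,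
      C i x j = if ℓ j = ℓ i ∧ w j = w i then (⟨φ j x, hφ j x⟩ : ↥(F j))
        else ⟨φ j 0, hφ j 0⟩ :=
    ⟨fun i x j => if ℓ j = ℓ i ∧ w j = w i then (⟨φ j x, hφ j x⟩ : ↥(F j))
      else ⟨φ j 0, hφ j 0⟩, fun _ _ _ => rfl⟩
  have hCinv : ∀ i x h, ℓ i h = 0 → C i (x + (N : ℤ) • h) = C i x := by
    intro i x h hh
    funext j
    rw [hC, hC]
    by_cases hc : ℓ j = ℓ i ∧ w j = w i
    · rw [if_pos hc, if_pos hc]
      exact Subtype.ext (hM j x _ (hker j h (by rw [hc.1]; exact hh)))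
    · rw [if_neg hc, if_neg hc]
  -- a fold for every possible datum (so that equal data give equal folds)
  have total : ∀ (ℓ' : (Fin d → ℤ) →+ ℤ) (w' : Fin d → ℤ)
      (c : (Fin d → ℤ) → (∀ j : Fin k, ↥(F j))),
      ∃ (P : ℕ) (c' : (Fin d → ℤ) → (∀ j : Fin k, ↥(F j))), 0 < P ∧
        (ℓ' w' = 1 → (∀ x h, ℓ' h = 0 → c (x + (N : ℤ) • h) = c x) →
          (∀ x v : Fin d → ℤ, c' (x + (P : ℤ) • v) = c' x) ∧
          (∀ s0 : ℤ, ∃ v : Fin d → ℤ, ∀ z, s0 ≤ ℓ' z → ℓ' z ≤ s0 + r →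
            c' z = c (z + (N : ℤ) • v))) := by
    intro ℓ' w' c
    by_cases hyp : ℓ' w' = 1 ∧ ∀ x h, ℓ' h = 0 → c (x + (N : ℤ) • h) = c x
    · obtain ⟨P, c', hP, hper, hwin⟩ := fold_lemma ℓ' w' hyp.1 N hN r c hyp.2
      exact ⟨P, c', hP, fun _ _ => ⟨hper, hwin⟩⟩
    · exact ⟨1, c, Nat.one_pos, fun a b => absurd ⟨a, b⟩ hyp⟩
  choose Pf cf hPf hcf using total
  have hper : ∀ i (x v : Fin d → ℤ),
      cf (ℓ i) (w i) (C i) (x + (Pf (ℓ i) (w i) (C i) : ℤ) • v) = cf (ℓ i) (w i) (C i) x :=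
    fun i => (hcf (ℓ i) (w i) (C i) (hw i) (hCinv i)).1
  have hwinC : ∀ i (s0 : ℤ), ∃ v : Fin d → ℤ, ∀ z, s0 ≤ ℓ i z → ℓ i z ≤ s0 + r →
      cf (ℓ i) (w i) (C i) z = C i (z + (N : ℤ) • v) :=
    fun i => (hcf (ℓ i) (w i) (C i) (hw i) (hCinv i)).2
  -- factors of one class use the same fold
  have hcls : ∀ i j, ℓ j = ℓ i ∧ w j = w i →
      cf (ℓ j) (w j) (C j) = cf (ℓ i) (w i) (C i) := by
    intro i j hc
    have hCe : C j = C i := by
      funext x j'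
      rw [hC, hC, hc.1, hc.2]
    rw [hc.1, hc.2, hCe]
  have hmem : ∀ i g, ((cf (ℓ i) (w i) (C i) g i : ↥(F i)) : Fin d → ℤ) ∈ F i :=
    fun i g => (cf (ℓ i) (w i) (C i) g i).2
  -- two points whose levels differ by at most `r` lie in a common window, for the whole class
  have hwin2 : ∀ i (x y : Fin d → ℤ), |ℓ i y - ℓ i x| ≤ r → ∃ v : Fin d → ℤ,
      ∀ j, ℓ j = ℓ i ∧ w j = w i →
        ((cf (ℓ j) (w j) (C j) x j : ↥(F j)) : Fin d → ℤ) = φ j (x + (N : ℤ) • v) ∧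
        ((cf (ℓ j) (w j) (C j) y j : ↥(F j)) : Fin d → ℤ) = φ j (y + (N : ℤ) • v) := by
    intro i x y hxy
    obtain ⟨v, hv⟩ := hwinC i (min (ℓ i x) (ℓ i y))
    have hab := abs_le.mp hxy
    have hx := hv x (min_le_left _ _) (by
      rcases le_total (ℓ i x) (ℓ i y) with h | h
      · rw [min_eq_left h]; linarith [Nat.cast_nonneg (α := ℤ) r]
      · rw [min_eq_right h]; linarith)
    have hy := hv y (min_le_right _ _) (by
      rcases le_total (ℓ i x) (ℓ i y) with h | h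
      · rw [min_eq_left h]; linarith
      · rw [min_eq_right h]; linarith [Nat.cast_nonneg (α := ℤ) r])
    refine ⟨v, fun j hc => ?_⟩
    rw [hcls i j hc, hx, hy, hC, hC, if_pos hc, if_pos hc]
    exact ⟨rfl, rfl⟩
  refine ⟨fun i g => ((cf (ℓ i) (w i) (C i) g i : ↥(F i)) : Fin d → ℤ),
    ∏ i, Pf (ℓ i) (w i) (C i), Finset.prod_pos (fun i _ => hPf _ _ _), hmem, ?_, ?_, ?_⟩
  · -- (Φ1)
    intro i g f hf
    obtain ⟨v, hv⟩ := hwin2 i g
      (g - ((cf (ℓ i) (w i) (C i) g i : ↥(F i)) : Fin d → ℤ) + f) (by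
      have : ℓ i (g - ((cf (ℓ i) (w i) (C i) g i : ↥(F i)) : Fin d → ℤ) + f) - ℓ i g =
          ℓ i (f - ((cf (ℓ i) (w i) (C i) g i : ↥(F i)) : Fin d → ℤ)) := by
        simp only [map_add, map_sub]
        ring
      rw [this]
      exact hr i i f hf _ (hmem i g))
    obtain ⟨e1, e2⟩ := hv i ⟨rfl, rfl⟩
    show ((cf (ℓ i) (w i) (C i)
      (g - ((cf (ℓ i) (w i) (C i) g i : ↥(F i)) : Fin d → ℤ) + f) i : ↥(F i)) : Fin d → ℤ) = f
    rw [e2]
    have h := h1 i (g + (N : ℤ) • v) f hf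
    rw [← e1] at h
    have e : g - ((cf (ℓ i) (w i) (C i) g i : ↥(F i)) : Fin d → ℤ) + f + (N : ℤ) • v =
        g + (N : ℤ) • v - ((cf (ℓ i) (w i) (C i) g i : ↥(F i)) : Fin d → ℤ) + f := by abel
    rw [e]
    exact h
  · -- (Φ2)
    intro i j hij g f hf
    obtain ⟨f0, hf0⟩ : ∃ f0 : Fin d → ℤ,
        f0 = ((cf (ℓ i) (w i) (C i) g i : ↥(F i)) : Fin d → ℤ) := ⟨_, rfl⟩
    have hf0m : f0 ∈ F i := by rw [hf0]; exact hmem i g
    show ((cf (ℓ j) (w j) (C j)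
      (g - ((cf (ℓ i) (w i) (C i) g i : ↥(F i)) : Fin d → ℤ) + f) j : ↥(F j)) : Fin d → ℤ) =
      ((cf (ℓ j) (w j) (C j) g j : ↥(F j)) : Fin d → ℤ)
    rw [← hf0]
    have hlev : |ℓ j (g - f0 + f) - ℓ j g| ≤ r := by
      have : ℓ j (g - f0 + f) - ℓ j g = ℓ j (f - f0) := by
        simp only [map_add, map_sub]
        ring
      rw [this]
      exact hr i j f hf _ hf0m
    obtain ⟨vj, hvj⟩ := hwin2 j g (g - f0 + f) hlev
    obtain ⟨e1, e2⟩ := hvj j ⟨rfl, rfl⟩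
    rw [e2, e1]
    rcases hpair i j hij with hsame | hfin
    · -- same class: one common translate
      obtain ⟨e0, -⟩ := hvj i hsame
      rw [← hf0] at e0
      have key := h2 i j hij (g + (N : ℤ) • vj) f hf
      rw [← e0] at key
      have e : g - f0 + f + (N : ℤ) • vj = g + (N : ℤ) • vj - f0 + f := by abel
      rw [e]
      exact key
    · -- different classes
      obtain ⟨vi, hvi⟩ := hwin2 i g g (by simp)
      obtain ⟨e0, -⟩ := hvi i ⟨rfl, rfl⟩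
      rw [← hf0] at e0
      obtain ⟨a, ha, b, hb, hab⟩ := hfin (vj - vi)
      have hstar : φ i (g + (N : ℤ) • vi + a) = f0 := (hM i _ a ha).trans e0.symm
      have key := h2 i j hij (g + (N : ℤ) • vi + a) f hf
      rw [hstar] at key
      have hsum : (N : ℤ) • vj = (N : ℤ) • vi + (a + b) := by
        rw [← hab, smul_sub]
        abel
      have e3 : g - f0 + f + (N : ℤ) • vj = (g + (N : ℤ) • vi + a - f0 + f) + b := by
        rw [hsum]
        abel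
      have e4 : g + (N : ℤ) • vj = (g + (N : ℤ) • vi + a) + b := by
        rw [hsum]
        abel
      rw [e3, e4, hM j _ b hb, hM j _ b hb]
      exact key
  · -- periodicity
    intro i g v
    obtain ⟨q, hq⟩ := Finset.dvd_prod_of_mem (fun i => Pf (ℓ i) (w i) (C i)) (Finset.mem_univ i)
    have e : ((∏ i, Pf (ℓ i) (w i) (C i) : ℕ) : ℤ) • v =
        (Pf (ℓ i) (w i) (C i) : ℤ) • ((q : ℤ) • v) := by
      rw [hq, smul_smul]
      push_cast
      rfl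
    rw [e]
    show ((cf (ℓ i) (w i) (C i) (g + (Pf (ℓ i) (w i) (C i) : ℤ) • (q : ℤ) • v) i : ↥(F i)) :
      Fin d → ℤ) = ((cf (ℓ i) (w i) (C i) g i : ↥(F i)) : Fin d → ℤ)
    rw [hper i g ((q : ℤ) • v)]

/-- Changing the coordinates of a point one at a time. -/
theorem coords_update {d k : ℕ} (F : Fin k → Finset (Fin d → ℤ))
    (φ : Fin k → (Fin d → ℤ) → (Fin d → ℤ))
    (h1 : ∀ i g, ∀ f ∈ F i, φ i (g - φ i g + f) = f)
    (h2 : ∀ i j, i ≠ j → ∀ g, ∀ f ∈ F i, φ j (g - φ i g + f) = φ j g)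
    (g0 : Fin d → ℤ) (f : Fin k → Fin d → ℤ) (hf : ∀ i, f i ∈ F i) (S : Finset (Fin k)) :
    (∀ i ∈ S, φ i (g0 - ∑ j ∈ S, φ j g0 + ∑ j ∈ S, f j) = f i) ∧
    (∀ i, i ∉ S → φ i (g0 - ∑ j ∈ S, φ j g0 + ∑ j ∈ S, f j) = φ i g0) := by
  classical
  induction S using Finset.induction_on with
  | empty => simp
  | insert a S' ha ih =>
    obtain ⟨ih1, ih2⟩ := ih
    have e : g0 - ∑ j ∈ insert a S', φ j g0 + ∑ j ∈ insert a S', f j =
        (g0 - ∑ j ∈ S', φ j g0 + ∑ j ∈ S', f j) -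
          φ a (g0 - ∑ j ∈ S', φ j g0 + ∑ j ∈ S', f j) + f a := by
      rw [Finset.sum_insert ha, Finset.sum_insert ha, ih2 a ha]
      abel
    rw [e]
    refine ⟨fun i hi => ?_, fun i hi => ?_⟩
    · rcases Finset.mem_insert.mp hi with rfl | hi'
      · exact h1 i _ _ (hf i)
      · have hne : a ≠ i := fun h => ha (h ▸ hi')
        rw [h2 a i hne _ _ (hf a)]
        exact ih1 i hi'
    · have hne : a ≠ i := fun h => hi (h ▸ Finset.mem_insert_self a S')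
      have hi' : i ∉ S' := fun h => hi (Finset.mem_insert_of_mem h)
      rw [h2 a i hne _ _ (hf a)]
      exact ih2 i hi'

/-- Coordinate functions with the two exchange properties come from a tiling: the set of all
`g - ∑ i, φ i g` is a complement of `F 0 ⊕ ⋯ ⊕ F (k-1)`. -/
theorem tiling_of_coords {d k : ℕ} (F : Fin k → Finset (Fin d → ℤ))
    (φ : Fin k → (Fin d → ℤ) → (Fin d → ℤ))
    (hφ : ∀ i g, φ i g ∈ F i)
    (h1 : ∀ i g, ∀ f ∈ F i, φ i (g - φ i g + f) = f)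
    (h2 : ∀ i j, i ≠ j → ∀ g, ∀ f ∈ F i, φ j (g - φ i g + f) = φ j g) :
    ∀ g : Fin d → ℤ, ∃! q : (Fin d → ℤ) × (Fin k → Fin d → ℤ),
      q.1 ∈ {a : Fin d → ℤ | ∃ g0, a = g0 - ∑ i, φ i g0} ∧ (∀ i, q.2 i ∈ F i) ∧
        q.1 + ∑ i, q.2 i = g := by
  intro g
  refine ⟨(g - ∑ i, φ i g, fun i => φ i g), ⟨⟨g, rfl⟩, fun i => hφ i g, by simp⟩, ?_⟩
  rintro ⟨a, f⟩ ⟨⟨g0, rfl⟩, hf, hsum⟩
  simp only at hf hsum
  have key := (coords_update F φ h1 h2 g0 f hf Finset.univ).1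
  have hfi : ∀ i, φ i g = f i := fun i => by
    rw [← hsum]
    exact key i (Finset.mem_univ i)
  have hf' : (fun i => φ i g) = f := funext hfi
  refine Prod.ext ?_ hf'.symm
  show g0 - ∑ i, φ i g0 = g - ∑ i, φ i g
  have : ∑ i, φ i g = ∑ i, f i := Finset.sum_congr rfl (fun i _ => hfi i)
  rw [this, ← hsum]
  abel

/-- The coordinate functions of a tiling. -/
theorem coords_of_tiling {d k : ℕ} (F : Fin k → Finset (Fin d → ℤ)) (A : Set (Fin d → ℤ))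
    (hA : ∀ g : Fin d → ℤ, ∃! q : (Fin d → ℤ) × (Fin k → Fin d → ℤ),
      q.1 ∈ A ∧ (∀ i, q.2 i ∈ F i) ∧ q.1 + ∑ i, q.2 i = g) :
    ∃ φ : Fin k → (Fin d → ℤ) → (Fin d → ℤ), (∀ i g, φ i g ∈ F i) ∧
      (∀ i g, ∀ f ∈ F i, φ i (g - φ i g + f) = f) ∧
      (∀ i j, i ≠ j → ∀ g, ∀ f ∈ F i, φ j (g - φ i g + f) = φ j g) ∧
      (∀ g, g - ∑ i, φ i g ∈ A) := by
  classical
  choose Q hQ hQu using fun g => (hA g)
  have hupd : ∀ (g : Fin d → ℤ) (i : Fin k) (f : Fin d → ℤ), f ∈ F i →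
      Q (g - (Q g).2 i + f) = ((Q g).1, Function.update (Q g).2 i f) := by
    intro g i f hf
    refine (hQu (g - (Q g).2 i + f) ((Q g).1, Function.update (Q g).2 i f)
      ⟨(hQ g).1, fun j => ?_, ?_⟩).symm
    · show Function.update (Q g).2 i f j ∈ F j
      by_cases hj : j = i
      · subst hj
        rw [Function.update_self]
        exact hf
      · rw [Function.update_of_ne hj]
        exact (hQ g).2.1 j
    · show (Q g).1 + ∑ j, Function.update (Q g).2 i f j = g - (Q g).2 i + f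
      have h3 : (Q g).1 + ∑ j, (Q g).2 j = g := (hQ g).2.2
      obtain ⟨a, ha⟩ : ∃ a, a = (Q g).1 := ⟨_, rfl⟩
      obtain ⟨c, hc⟩ : ∃ c, c = (Q g).2 := ⟨_, rfl⟩
      rw [← ha, ← hc] at h3 ⊢
      rw [Finset.sum_update_of_mem (Finset.mem_univ i)]
      rw [Finset.sum_eq_add_sum_sdiff_singleton_of_mem (Finset.mem_univ i)] at h3
      rw [← h3]
      abel
  refine ⟨fun i g => (Q g).2 i, fun i g => (hQ g).2.1 i, fun i g f hf => ?_,
    fun i j hij g f hf => ?_, fun g => ?_⟩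
  · show (Q (g - (Q g).2 i + f)).2 i = f
    rw [hupd g i f hf]
    exact Function.update_self ..
  · show (Q (g - (Q g).2 i + f)).2 j = (Q g).2 j
    rw [hupd g i f hf]
    exact Function.update_of_ne (Ne.symm hij) ..
  · have h3 := (hQ g).2.2
    have : g - ∑ i, (Q g).2 i = (Q g).1 := sub_eq_of_eq_add h3.symm
    show g - ∑ i, (Q g).2 i ∈ A
    rw [this]
    exact (hQ g).1

/-- A coordinate function is invariant under every subgroup under which all complements of its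
factor are invariant. -/
theorem coord_inv {d k : ℕ} (F : Fin k → Finset (Fin d → ℤ))
    (φ : Fin k → (Fin d → ℤ) → (Fin d → ℤ))
    (hφ : ∀ i g, φ i g ∈ F i)
    (h1 : ∀ i g, ∀ f ∈ F i, φ i (g - φ i g + f) = f)
    (i : Fin k) (L : AddSubgroup (Fin d → ℤ))
    (hr : ∀ B : Set (Fin d → ℤ), (∀ g, ∃! b, b ∈ B ∧ g - b ∈ F i) →
      ∀ l ∈ L, ∀ b ∈ B, b + l ∈ B) :
    ∀ g, ∀ l ∈ L, φ i (g + l) = φ i g := by
  intro g l hl
  have hB : ∀ g, ∃! b, b ∈ {b : Fin d → ℤ | ∃ g1, b = g1 - φ i g1} ∧ g - b ∈ F i := by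
    intro g
    refine ⟨g - φ i g, ⟨⟨g, rfl⟩, ?_⟩, ?_⟩
    · have : g - (g - φ i g) = φ i g := by abel
      rw [this]
      exact hφ i g
    · rintro b' ⟨⟨g1, rfl⟩, hb'⟩
      have h := h1 i g1 _ hb'
      have e : g1 - φ i g1 + (g - (g1 - φ i g1)) = g := by abel
      rw [e] at h
      rw [h]
      abel
  obtain ⟨g1, hg1⟩ := hr _ hB l hl (g - φ i g) ⟨g, rfl⟩
  have h := h1 i g1 (φ i g) (hφ i g)
  have e : g1 - φ i g1 + φ i g = g + l := by
    rw [← hg1]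
    abel
  rw [e] at h
  exact h

end Vale.Agent.H78.Fold
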