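import Vale.Agent.H78.FramedDefs

namespace Vale.Agent.H78.Framed

open MvPolynomial AddMonoidAlgebra

/-- torus parameters (proof-side abbreviations) -/
abbrev Par (g w : ℕ) : Type := MvPolynomial (Bool ⊕ (Fin g ⊕ Fin w)) ℂ

noncomputable abbrev phi0 (g w : ℕ) : Par g w := X (Sum.inl false)
noncomputable abbrev phi1 (g w : ℕ) : Par g w := X (Sum.inl true)
noncomputable abbrev eps (g w : ℕ) (i : Fin g) : Par g w := X (Sum.inr (Sum.inl i))
noncomputable abbrev ms (g w : ℕ) (j : Fin w) : Par g w := X (Sum.inr (Sum.inr j))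
noncomputable abbrev rootD (g w : ℕ) : Par g w := X (Sum.inl false) - X (Sum.inl true)

abbrev Coef (g w : ℕ) : Type := Localization.Away (rootD g w)
abbrev Lau (g w : ℕ) : Type := AddMonoidAlgebra (Coef g w) (ℤ × ℤ)
abbrev Bas (g w : ℕ) : Type := MvPolynomial (Fin g ⊕ Fin w) ℂ

variable (g w : ℕ)

theorem rootD_mul_dinv : algebraMap (Par g w) (Coef g w) (rootD g w) * dinv g w = 1 :=
  IsLocalization.Away.mul_invSelf (rootD g w)

/-- Chern classes in terms of Chern roots -/
noncomputable def chern : Par g w →ₐ[ℂ] Par g w :=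
  aeval (Sum.elim
    (fun b => cond b (X (Sum.inl false) * X (Sum.inl true))
      (X (Sum.inl false) + X (Sum.inl true)))
    (fun k => X (Sum.inr k)))

theorem incl_apply (f : Par g w) :
    incl g w f = AddMonoidAlgebra.single 0 (algebraMap (Par g w) (Coef g w) (chern g w f)) := by
  simp [incl, chern]

noncomputable def Pn0 : Par g w := ∏ j : Fin w, (ms g w j - phi0 g w)
noncomputable def Pn1 : Par g w := ∏ j : Fin w, (ms g w j - phi1 g w)
noncomputable def pPlus : Par g w := ∏ i : Fin g, (phi0 g w - phi1 g w + eps g w i)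
noncomputable def pMinus : Par g w := ∏ i : Fin g, (phi1 g w - phi0 g w + eps g w i)

theorem cocyc_10 : cocyc g w (1, 0) = Pn0 g w * pMinus g w := by
  simp [cocyc, Pn0, pMinus]

theorem cocyc_01 : cocyc g w (0, 1) = Pn1 g w * pPlus g w := by
  simp [cocyc, Pn1, pPlus]

theorem cocyc_m10 : cocyc g w (-1, 0) = pPlus g w := by
  simp [cocyc, pPlus]

theorem cocyc_0m1 : cocyc g w (0, -1) = pMinus g w := by
  simp [cocyc, pMinus]

theorem cocyc_11 : cocyc g w (1, 1) = Pn0 g w * Pn1 g w := by
  simp [cocyc, Pn0, Pn1, Finset.prod_mul_distrib]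

theorem cocyc_m1m1 : cocyc g w (-1, -1) = 1 := by
  simp [cocyc]

theorem cocyc_zero : cocyc g w 0 = 1 := by
  simp [cocyc]

/-- auxiliary: constants -/
noncomputable def cst (u : Par g w) : Lau g w := single 0 (algebraMap (Par g w) (Coef g w) u)

noncomputable def xE1 : Lau g w :=
  single (1, 0) (algebraMap (Par g w) (Coef g w) (cocyc g w (1, 0)) * dinv g w)
noncomputable def xE2 : Lau g w :=
  single (0, 1) (algebraMap (Par g w) (Coef g w) (cocyc g w (0, 1)) * dinv g w)
noncomputable def xF1 : Lau g w :=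
  single (-1, 0) (algebraMap (Par g w) (Coef g w) (cocyc g w (-1, 0)) * dinv g w)
noncomputable def xF2 : Lau g w :=
  single (0, -1) (algebraMap (Par g w) (Coef g w) (cocyc g w (0, -1)) * dinv g w)

theorem cst_mul (u v : Par g w) : cst g w (u * v) = cst g w u * cst g w v := by
  simp [cst, single_mul_single]

theorem cst_add (u v : Par g w) : cst g w (u + v) = cst g w u + cst g w v := by
  simp [cst, single_add]

theorem cst_sub (u v : Par g w) : cst g w (u - v) = cst g w u - cst g w v := by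
  simp [cst, single_sub]

theorem cst_pow (u : Par g w) (n : ℕ) : cst g w (u ^ n) = cst g w u ^ n := by
  simp [cst, single_pow]

theorem opE_eq (n : ℕ) :
    opE g w n = cst g w (phi0 g w) ^ n * xE1 g w - cst g w (phi1 g w) ^ n * xE2 g w := by
  simp only [opE, xE1, xE2, cst, single_pow, single_mul_single, map_mul, map_pow]
  simp [mul_assoc]

theorem opF_eq (n : ℕ) :
    opF g w n = cst g w (phi1 g w) ^ n * xF2 g w - cst g w (phi0 g w) ^ n * xF1 g w := by
  simp only [opF, xF1, xF2, cst, single_pow, single_mul_single, map_mul, map_pow]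
  simp [mul_assoc]

theorem xE1_mul_xF1 : xE1 g w * xF1 g w =
    cst g w (Pn0 g w * (pPlus g w * pMinus g w)) * single 0 (dinv g w * dinv g w) := by
  simp only [xE1, xF1, cst, single_mul_single, cocyc_10, cocyc_m10, map_mul]
  congr 1
  ring

theorem xE2_mul_xF2 : xE2 g w * xF2 g w =
    cst g w (Pn1 g w * (pPlus g w * pMinus g w)) * single 0 (dinv g w * dinv g w) := by
  simp only [xE2, xF2, cst, single_mul_single, cocyc_01, cocyc_0m1, map_mul]
  congr 1
  ring

theorem cst_rootD_mul : cst g w (rootD g w) * single 0 (dinv g w) = 1 := by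
  simp only [cst, single_mul_single, rootD_mul_dinv]
  simp [AddMonoidAlgebra.one_def]

theorem dinv_sq : (single 0 (dinv g w * dinv g w) : Lau g w)
    = single 0 (dinv g w) * single 0 (dinv g w) := by
  simp [single_mul_single]

/-- first relation: c1 E0 F0 - E1 F0 - E0 F1 is the constant G * P+ * P- -/
theorem key2 (Gn : Par g w) (hG : rootD g w * Gn = Pn0 g w - Pn1 g w) :
    cst g w (phi0 g w + phi1 g w) * (opE g w 0 * opF g w 0) - opE g w 1 * opF g w 0
        - opE g w 0 * opF g w 1
      = cst g w (Gn * (pPlus g w * pMinus g w)) := by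
  rw [opE_eq, opE_eq, opF_eq, opF_eq, cst_add]
  have h2 : (cst g w (phi0 g w) + cst g w (phi1 g w)) *
        ((cst g w (phi0 g w) ^ 0 * xE1 g w - cst g w (phi1 g w) ^ 0 * xE2 g w) *
          (cst g w (phi1 g w) ^ 0 * xF2 g w - cst g w (phi0 g w) ^ 0 * xF1 g w)) -
      (cst g w (phi0 g w) ^ 1 * xE1 g w - cst g w (phi1 g w) ^ 1 * xE2 g w) *
        (cst g w (phi1 g w) ^ 0 * xF2 g w - cst g w (phi0 g w) ^ 0 * xF1 g w) -
      (cst g w (phi0 g w) ^ 0 * xE1 g w - cst g w (phi1 g w) ^ 0 * xE2 g w) *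
        (cst g w (phi1 g w) ^ 1 * xF2 g w - cst g w (phi0 g w) ^ 1 * xF1 g w)
      = (cst g w (phi0 g w) - cst g w (phi1 g w)) * (xE1 g w * xF1 g w - xE2 g w * xF2 g w) := by
    ring
  have hrd := cst_rootD_mul g w
  have e : cst g w (phi0 g w) - cst g w (phi1 g w) = cst g w (rootD g w) := (cst_sub g w _ _).symm
  rw [h2, xE1_mul_xF1, xE2_mul_xF2, dinv_sq, e]
  have h3 : cst g w (Pn0 g w * (pPlus g w * pMinus g w)) - cst g w (Pn1 g w * (pPlus g w * pMinus g w))
      = cst g w (rootD g w) * cst g w (Gn * (pPlus g w * pMinus g w)) := by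
    rw [← cst_sub, ← cst_mul]
    congr 1
    linear_combination (-(pPlus g w * pMinus g w)) * hG
  linear_combination (cst g w (rootD g w) * single 0 (dinv g w) * single 0 (dinv g w)) * h3
    + cst g w (Gn * (pPlus g w * pMinus g w)) * (cst g w (rootD g w) * single 0 (dinv g w) + 1) * hrd

/-- second relation: c2 E0 F0 - E1 F1 is the constant (Pn0 + phi1 G) * P+ * P- -/
theorem key3 (Gn : Par g w) (hG : rootD g w * Gn = Pn0 g w - Pn1 g w) :
    cst g w (phi0 g w * phi1 g w) * (opE g w 0 * opF g w 0) - opE g w 1 * opF g w 1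
      = cst g w ((Pn0 g w + phi1 g w * Gn) * (pPlus g w * pMinus g w)) := by
  rw [opE_eq, opE_eq, opF_eq, opF_eq, cst_mul]
  have h2 : cst g w (phi0 g w) * cst g w (phi1 g w) *
        ((cst g w (phi0 g w) ^ 0 * xE1 g w - cst g w (phi1 g w) ^ 0 * xE2 g w) *
          (cst g w (phi1 g w) ^ 0 * xF2 g w - cst g w (phi0 g w) ^ 0 * xF1 g w)) -
      (cst g w (phi0 g w) ^ 1 * xE1 g w - cst g w (phi1 g w) ^ 1 * xE2 g w) *
        (cst g w (phi1 g w) ^ 1 * xF2 g w - cst g w (phi0 g w) ^ 1 * xF1 g w)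
      = (cst g w (phi0 g w) - cst g w (phi1 g w)) *
          (cst g w (phi0 g w) * (xE1 g w * xF1 g w) - cst g w (phi1 g w) * (xE2 g w * xF2 g w)) := by
    ring
  have hrd := cst_rootD_mul g w
  have e : cst g w (phi0 g w) - cst g w (phi1 g w) = cst g w (rootD g w) := (cst_sub g w _ _).symm
  rw [h2, xE1_mul_xF1, xE2_mul_xF2, dinv_sq, e]
  have h3 : cst g w (phi0 g w) * cst g w (Pn0 g w * (pPlus g w * pMinus g w))
        - cst g w (phi1 g w) * cst g w (Pn1 g w * (pPlus g w * pMinus g w))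
      = cst g w (rootD g w) * cst g w ((Pn0 g w + phi1 g w * Gn) * (pPlus g w * pMinus g w)) := by
    rw [← cst_mul, ← cst_mul, ← cst_sub, ← cst_mul]
    congr 1
    linear_combination (-(phi1 g w * (pPlus g w * pMinus g w))) * hG
  linear_combination (cst g w (rootD g w) * single 0 (dinv g w) * single 0 (dinv g w)) * h3
    + cst g w ((Pn0 g w + phi1 g w * Gn) * (pPlus g w * pMinus g w))
      * (cst g w (rootD g w) * single 0 (dinv g w) + 1) * hrd

theorem incl_eq_cst (f : Par g w) : incl g w f = cst g w (chern g w f) := incl_apply g w f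

theorem mono_mul_mono : mono g w (1, 1) * mono g w (-1, -1) = cst g w (Pn0 g w * Pn1 g w) := by
  simp [mono, cst, single_mul_single, cocyc_11, cocyc_m1m1]
  rfl

theorem chern_c1 : chern g w (X (Sum.inl false)) = phi0 g w + phi1 g w := by
  simp [chern]

theorem chern_c2 : chern g w (X (Sum.inl true)) = phi0 g w * phi1 g w := by
  simp [chern]

theorem chern_inr (k : Fin g ⊕ Fin w) : chern g w (X (Sum.inr k)) = X (Sum.inr k) := by
  simp [chern]

theorem opE_mem0 : opE g w 0 ∈ coulomb g w := Algebra.subset_adjoin (Or.inr (by simp))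
theorem opE_mem1 : opE g w 1 ∈ coulomb g w := Algebra.subset_adjoin (Or.inr (by simp))
theorem opF_mem0 : opF g w 0 ∈ coulomb g w := Algebra.subset_adjoin (Or.inr (by simp))
theorem opF_mem1 : opF g w 1 ∈ coulomb g w := Algebra.subset_adjoin (Or.inr (by simp))
theorem mono_mem11 : mono g w (1, 1) ∈ coulomb g w := Algebra.subset_adjoin (Or.inr (by simp))
theorem mono_memm1m1 : mono g w (-1, -1) ∈ coulomb g w :=
  Algebra.subset_adjoin (Or.inr (by simp))

theorem supp_single (l : ℤ × ℤ) (r : Coef g w) (l' : ℤ × ℤ)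
    (h : l' ∈ (single l r : Lau g w).coeff.support) : l' = l := by
  rw [coeff_single] at h
  exact Finset.mem_singleton.mp (Finsupp.support_single_subset h)

theorem supp_single_sub (l1 l2 : ℤ × ℤ) (r1 r2 : Coef g w) (l' : ℤ × ℤ)
    (h : l' ∈ (single l1 r1 - single l2 r2 : Lau g w).coeff.support) : l' = l1 ∨ l' = l2 := by
  rw [AddMonoidAlgebra.coeff_sub] at h
  have h2 := Finsupp.support_sub h
  rcases Finset.mem_union.mp h2 with h3 | h3
  · exact Or.inl (supp_single g w _ _ _ h3)
  · exact Or.inr (supp_single g w _ _ _ h3)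

theorem opE_charge (n : ℕ) (l : ℤ × ℤ) (h : l ∈ (opE g w n).coeff.support) : l.1 + l.2 = 1 := by
  rcases supp_single_sub g w _ _ _ _ l h with h | h <;> simp [h]

theorem opF_charge (n : ℕ) (l : ℤ × ℤ) (h : l ∈ (opF g w n).coeff.support) : l.1 + l.2 = -1 := by
  rcases supp_single_sub g w _ _ _ _ l h with h | h <;> simp [h]

theorem mono_charge (m : ℤ × ℤ) (l : ℤ × ℤ) (h : l ∈ (mono g w m).coeff.support) :
    l.1 + l.2 = m.1 + m.2 := by
  rw [supp_single g w _ _ _ h]

theorem gen_mem (x : Lau g w) (hx : x ∈ coulomb g w) (k : ℤ) (hk : k ≠ 0)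
    (h : ∀ l ∈ x.coeff.support, l.1 + l.2 = k) : (⟨x, hx⟩ : coulomb g w) ∈ charged g w :=
  Ideal.subset_span ⟨k, hk, h⟩

theorem inclC_zero : inclC g w 0 = 0 := by
  apply Subtype.ext
  simp [inclC]

theorem inclC_add (f h : Par g w) : inclC g w (f + h) = inclC g w f + inclC g w h := by
  apply Subtype.ext
  simp [inclC]

theorem inclC_mul (f h : Par g w) : inclC g w (f * h) = inclC g w f * inclC g w h := by
  apply Subtype.ext
  simp [inclC]

theorem surj_aux (x : Lau g w) (hx : x ∈ coulomb g w) :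
    ∃ f : Par g w, (⟨x, hx⟩ : coulomb g w) - inclC g w f ∈ charged g w := by
  induction hx using Algebra.adjoin_induction with
  | mem x hx =>
    rcases hx with ⟨f, rfl⟩ | hx
    · refine ⟨f, ?_⟩
      have h0 : (⟨incl g w f, Algebra.subset_adjoin (Or.inl ⟨f, rfl⟩)⟩ : coulomb g w)
          - inclC g w f = 0 :=
        Subtype.ext (sub_self (incl g w f))
      rw [h0]
      exact Ideal.zero_mem _
    · refine ⟨0, ?_⟩
      have h0 : (⟨x, Algebra.subset_adjoin (Or.inr hx)⟩ : coulomb g w) - inclC g w 0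
          = ⟨x, Algebra.subset_adjoin (Or.inr hx)⟩ := by
        rw [inclC_zero]
        exact Subtype.ext (sub_zero x)
      rw [h0]
      simp only [Set.mem_insert_iff, Set.mem_singleton_iff] at hx
      rcases hx with rfl | rfl | rfl | rfl | rfl | rfl
      · exact gen_mem g w _ _ 1 (by norm_num) (opE_charge g w 0)
      · exact gen_mem g w _ _ 1 (by norm_num) (opE_charge g w 1)
      · exact gen_mem g w _ _ (-1) (by norm_num) (opF_charge g w 0)
      · exact gen_mem g w _ _ (-1) (by norm_num) (opF_charge g w 1)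
      · exact gen_mem g w _ _ 2 (by norm_num) (fun l h => by rw [mono_charge g w _ l h]; norm_num)
      · exact gen_mem g w _ _ (-2) (by norm_num)
          (fun l h => by rw [mono_charge g w _ l h]; norm_num)
  | algebraMap r =>
    refine ⟨C r, ?_⟩
    have : (⟨algebraMap ℂ (Lau g w) r, Subalgebra.algebraMap_mem _ r⟩ : coulomb g w)
        = inclC g w (C r) := by
      apply Subtype.ext
      simp only [inclC]
      rw [← MvPolynomial.algebraMap_eq, AlgHom.commutes]
    rw [this]
    have h0 : inclC g w (C r) - inclC g w (C r) = 0 := Subtype.ext (sub_self (incl g w (C r)))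
    rw [h0]
    exact Ideal.zero_mem _
  | add x y hx hy ihx ihy =>
    obtain ⟨f, hf⟩ := ihx
    obtain ⟨h, hh⟩ := ihy
    refine ⟨f + h, ?_⟩
    have : (⟨x + y, Subalgebra.add_mem _ hx hy⟩ : coulomb g w) - inclC g w (f + h)
        = ((⟨x, hx⟩ : coulomb g w) - inclC g w f) + ((⟨y, hy⟩ : coulomb g w) - inclC g w h) := by
      rw [inclC_add]
      apply Subtype.ext
      simp only [Subalgebra.coe_sub, Subalgebra.coe_add]
      ring
    rw [this]
    exact Ideal.add_mem _ hf hh
  | mul x y hx hy ihx ihy =>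
    obtain ⟨f, hf⟩ := ihx
    obtain ⟨h, hh⟩ := ihy
    refine ⟨f * h, ?_⟩
    have : (⟨x * y, Subalgebra.mul_mem _ hx hy⟩ : coulomb g w) - inclC g w (f * h)
        = (⟨x, hx⟩ : coulomb g w) * ((⟨y, hy⟩ : coulomb g w) - inclC g w h)
          + inclC g w h * ((⟨x, hx⟩ : coulomb g w) - inclC g w f) := by
      rw [inclC_mul]
      apply Subtype.ext
      simp only [Subalgebra.coe_sub, Subalgebra.coe_add, Subalgebra.coe_mul]
      ring
    rw [this]
    exact Ideal.add_mem _ (Ideal.mul_mem_left _ _ hh) (Ideal.mul_mem_left _ _ hf)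

theorem surj (a : coulomb g w) : ∃ f : Par g w, a - inclC g w f ∈ charged g w :=
  surj_aux g w a.1 a.2

/-- x lies in the Coulomb algebra and in its charged ideal -/
def InI (x : Lau g w) : Prop := ∃ hx : x ∈ coulomb g w, (⟨x, hx⟩ : coulomb g w) ∈ charged g w

theorem InI_add {x y : Lau g w} (hx : InI g w x) (hy : InI g w y) : InI g w (x + y) := by
  obtain ⟨hx1, hx2⟩ := hx
  obtain ⟨hy1, hy2⟩ := hy
  refine ⟨Subalgebra.add_mem _ hx1 hy1, ?_⟩
  have : (⟨x + y, Subalgebra.add_mem _ hx1 hy1⟩ : coulomb g w) = ⟨x, hx1⟩ + ⟨y, hy1⟩ := rfl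
  rw [this]
  exact Ideal.add_mem _ hx2 hy2

theorem InI_neg {x : Lau g w} (hx : InI g w x) : InI g w (-x) := by
  obtain ⟨hx1, hx2⟩ := hx
  refine ⟨Subalgebra.neg_mem _ hx1, ?_⟩
  have : (⟨-x, Subalgebra.neg_mem _ hx1⟩ : coulomb g w) = (-1 : coulomb g w) * ⟨x, hx1⟩ := by
    apply Subtype.ext
    simp only [Subalgebra.coe_mul, Subalgebra.coe_neg, Subalgebra.coe_one]
    ring
  rw [this]
  exact Ideal.mul_mem_left _ _ hx2

theorem InI_sub {x y : Lau g w} (hx : InI g w x) (hy : InI g w y) : InI g w (x - y) := by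
  rw [sub_eq_add_neg]
  exact InI_add g w hx (InI_neg g w hy)

theorem InI_mul_left {a x : Lau g w} (ha : a ∈ coulomb g w) (hx : InI g w x) :
    InI g w (a * x) := by
  obtain ⟨hx1, hx2⟩ := hx
  refine ⟨Subalgebra.mul_mem _ ha hx1, ?_⟩
  have : (⟨a * x, Subalgebra.mul_mem _ ha hx1⟩ : coulomb g w) = ⟨a, ha⟩ * ⟨x, hx1⟩ := rfl
  rw [this]
  exact Ideal.mul_mem_left _ _ hx2

theorem InI_mul_right {a x : Lau g w} (ha : a ∈ coulomb g w) (hx : InI g w x) :
    InI g w (x * a) := by
  rw [mul_comm]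
  exact InI_mul_left g w ha hx

theorem InI_gen (x : Lau g w) (hx : x ∈ coulomb g w) (k : ℤ) (hk : k ≠ 0)
    (h : ∀ l ∈ x.coeff.support, l.1 + l.2 = k) : InI g w x :=
  ⟨hx, gen_mem g w x hx k hk h⟩

theorem InI_T1 : InI g w (cst g w (Pn0 g w * Pn1 g w)) := by
  rw [← mono_mul_mono]
  exact InI_mul_right g w (mono_memm1m1 g w)
    (InI_gen g w _ (mono_mem11 g w) 2 (by norm_num)
      (fun l h => by rw [mono_charge g w _ l h]; norm_num))

theorem InI_E0 : InI g w (opE g w 0) :=
  InI_gen g w _ (opE_mem0 g w) 1 (by norm_num) (opE_charge g w 0)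

theorem InI_E1 : InI g w (opE g w 1) :=
  InI_gen g w _ (opE_mem1 g w) 1 (by norm_num) (opE_charge g w 1)

theorem InI_T2 (Gn : Par g w) (hG : rootD g w * Gn = Pn0 g w - Pn1 g w) :
    InI g w (cst g w (Gn * (pPlus g w * pMinus g w))) := by
  rw [← key2 g w Gn hG]
  have hc : cst g w (phi0 g w + phi1 g w) ∈ coulomb g w := by
    rw [← chern_c1, ← incl_eq_cst]
    exact incl_mem g w _
  exact InI_sub g w (InI_sub g w
    (InI_mul_left g w hc (InI_mul_right g w (opF_mem0 g w) (InI_E0 g w)))
    (InI_mul_right g w (opF_mem0 g w) (InI_E1 g w)))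
    (InI_mul_right g w (opF_mem1 g w) (InI_E0 g w))

theorem InI_T3 (Gn : Par g w) (hG : rootD g w * Gn = Pn0 g w - Pn1 g w) :
    InI g w (cst g w ((Pn0 g w + phi1 g w * Gn) * (pPlus g w * pMinus g w))) := by
  rw [← key3 g w Gn hG]
  have hc : cst g w (phi0 g w * phi1 g w) ∈ coulomb g w := by
    rw [← chern_c2, ← incl_eq_cst]
    exact incl_mem g w _
  exact InI_sub g w
    (InI_mul_left g w hc (InI_mul_right g w (opF_mem0 g w) (InI_E0 g w)))
    (InI_mul_right g w (opF_mem1 g w) (InI_E1 g w))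

/-- every torus parameter polynomial is A + A' * phi0 with A, A' symmetric -/
theorem decomp (b : Par g w) : ∃ a a' : Par g w, b = chern g w a + chern g w a' * phi0 g w := by
  induction b using MvPolynomial.induction_on with
  | C r =>
    refine ⟨C r, 0, ?_⟩
    rw [map_zero, zero_mul, add_zero, ← MvPolynomial.algebraMap_eq, AlgHom.commutes]
  | add p q hp hq =>
    obtain ⟨a, a', ha⟩ := hp
    obtain ⟨c, c', hc⟩ := hq
    refine ⟨a + c, a' + c', ?_⟩
    rw [ha, hc, map_add, map_add]
    ring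
  | mul_X p n hp =>
    obtain ⟨a, a', ha⟩ := hp
    rcases n with n | k
    · cases n
      · refine ⟨-(a' * X (Sum.inl true)), a + a' * X (Sum.inl false), ?_⟩
        rw [ha, map_neg, map_add, map_mul, map_mul, chern_c1, chern_c2]
        ring
      · refine ⟨a * X (Sum.inl false) + a' * X (Sum.inl true), -a, ?_⟩
        rw [ha, map_neg, map_add, map_mul, map_mul, chern_c1, chern_c2]
        ring
    · refine ⟨a * X (Sum.inr k), a' * X (Sum.inr k), ?_⟩
      rw [ha, map_mul, map_mul, chern_inr]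
      ring

/-- the Weyl group element exchanging the two Chern roots -/
noncomputable def swp : Par g w →ₐ[ℂ] Par g w := rename (Sum.map not id)

theorem swp_phi0 : swp g w (X (Sum.inl false)) = X (Sum.inl true) := by
  simp [swp]

theorem swp_phi1 : swp g w (X (Sum.inl true)) = X (Sum.inl false) := by
  simp [swp]

theorem swp_inr (k : Fin g ⊕ Fin w) : swp g w (X (Sum.inr k)) = X (Sum.inr k) := by
  simp [swp]

theorem swp_chern (a : Par g w) : swp g w (chern g w a) = chern g w a := by
  have : (swp g w).comp (chern g w) = chern g w := by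
    apply MvPolynomial.algHom_ext
    intro n
    rcases n with n | k
    · cases n
      · rw [AlgHom.comp_apply, chern_c1, map_add, swp_phi0, swp_phi1, add_comm]
      · rw [AlgHom.comp_apply, chern_c2, map_mul, swp_phi0, swp_phi1, mul_comm]
    · rw [AlgHom.comp_apply, chern_inr, swp_inr]
  exact congrArg (fun φ => φ a) this

theorem swp_Pn0 : swp g w (Pn0 g w) = Pn1 g w := by
  simp only [Pn0, Pn1, map_prod, map_sub, swp_phi0, swp_inr]

theorem swp_Pn1 : swp g w (Pn1 g w) = Pn0 g w := by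
  simp only [Pn0, Pn1, map_prod, map_sub, swp_phi1, swp_inr]

theorem swp_pPlus : swp g w (pPlus g w) = pMinus g w := by
  simp only [pPlus, pMinus, map_prod, map_sub, map_add, swp_phi0, swp_phi1, swp_inr]

theorem swp_pMinus : swp g w (pMinus g w) = pPlus g w := by
  simp only [pPlus, pMinus, map_prod, map_sub, map_add, swp_phi0, swp_phi1, swp_inr]

theorem rootD_ne_zero : rootD g w ≠ 0 := by
  intro h
  have h2 : (X (Sum.inl false) : Par g w) = X (Sum.inl true) := sub_eq_zero.mp h
  have h3 := X_injective h2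
  simp at h3

theorem swp_Gn (Gn : Par g w) (hG : rootD g w * Gn = Pn0 g w - Pn1 g w) : swp g w Gn = Gn := by
  have h1 := congrArg (swp g w) hG
  rw [map_mul, map_sub, map_sub, swp_phi0, swp_phi1, swp_Pn0, swp_Pn1] at h1
  have h2 : rootD g w * swp g w Gn = rootD g w * Gn := by
    linear_combination (-1 : Par g w) * h1 - hG
  exact mul_left_cancel₀ (rootD_ne_zero g w) h2

theorem swp_comb (A1 A2 A3 T1 T2 T3 : Par g w) (h1 : swp g w T1 = T1) (h2 : swp g w T2 = T2)
    (h3 : swp g w T3 = T3) :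
    swp g w (chern g w A1 * T1 + chern g w A2 * T2 + chern g w A3 * T3)
      = chern g w A1 * T1 + chern g w A2 * T2 + chern g w A3 * T3 := by
  rw [map_add, map_add, map_mul, map_mul, map_mul, swp_chern, swp_chern, swp_chern, h1, h2, h3]

theorem cst_comb (A1 A2 A3 T1 T2 T3 : Par g w) :
    cst g w (A1 * T1 + A2 * T2 + A3 * T3)
      = cst g w A1 * cst g w T1 + cst g w A2 * cst g w T2 + cst g w A3 * cst g w T3 := by
  rw [cst_add, cst_add, cst_mul, cst_mul, cst_mul]

/-- if chern h lies in the ideal generated by the three relations then h is charged -/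
theorem mem_of_span (Gn : Par g w) (hG : rootD g w * Gn = Pn0 g w - Pn1 g w) (h : Par g w)
    (hh : chern g w h ∈ Ideal.span ({Pn0 g w * Pn1 g w, Gn * (pPlus g w * pMinus g w),
      (Pn0 g w + phi1 g w * Gn) * (pPlus g w * pMinus g w)} : Set (Par g w))) :
    inclC g w h ∈ charged g w := by
  rw [Ideal.mem_span_insert] at hh
  obtain ⟨b1, z, hz, hb⟩ := hh
  rw [Ideal.mem_span_pair] at hz
  obtain ⟨b2, b3, rfl⟩ := hz
  obtain ⟨a1, a1', h1⟩ := decomp g w b1
  obtain ⟨a2, a2', h2⟩ := decomp g w b2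
  obtain ⟨a3, a3', h3⟩ := decomp g w b3
  have sT1 : swp g w (Pn0 g w * Pn1 g w) = Pn0 g w * Pn1 g w := by
    rw [map_mul, swp_Pn0, swp_Pn1, mul_comm]
  have sPP : swp g w (pPlus g w * pMinus g w) = pPlus g w * pMinus g w := by
    rw [map_mul, swp_pPlus, swp_pMinus, mul_comm]
  have sG := swp_Gn g w Gn hG
  have sT2 : swp g w (Gn * (pPlus g w * pMinus g w)) = Gn * (pPlus g w * pMinus g w) := by
    rw [map_mul, sPP, sG]
  have sT3 : swp g w ((Pn0 g w + phi1 g w * Gn) * (pPlus g w * pMinus g w))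
      = (Pn0 g w + phi1 g w * Gn) * (pPlus g w * pMinus g w) := by
    rw [map_mul, sPP, map_add, map_mul, sG, swp_Pn0, swp_phi1]
    linear_combination (pPlus g w * pMinus g w) * hG
  have sU := swp_comb g w a1 a2 a3 _ _ _ sT1 sT2 sT3
  have sV := swp_comb g w a1' a2' a3' _ _ _ sT1 sT2 sT3
  -- the phi0-part vanishes
  have hV : (chern g w a1' * (Pn0 g w * Pn1 g w)
      + chern g w a2' * (Gn * (pPlus g w * pMinus g w))
      + chern g w a3' * ((Pn0 g w + phi1 g w * Gn) * (pPlus g w * pMinus g w))) = 0 := by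
    have e1 : chern g w h = (chern g w a1 * (Pn0 g w * Pn1 g w)
        + chern g w a2 * (Gn * (pPlus g w * pMinus g w))
        + chern g w a3 * ((Pn0 g w + phi1 g w * Gn) * (pPlus g w * pMinus g w)))
        + (chern g w a1' * (Pn0 g w * Pn1 g w)
        + chern g w a2' * (Gn * (pPlus g w * pMinus g w))
        + chern g w a3' * ((Pn0 g w + phi1 g w * Gn) * (pPlus g w * pMinus g w))) * phi0 g w := by
      rw [hb, h1, h2, h3]
      ring
    have e2 := congrArg (swp g w) e1
    rw [swp_chern, map_add, sU, map_mul (swp g w), sV, swp_phi0] at e2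
    have e3 : rootD g w * (chern g w a1' * (Pn0 g w * Pn1 g w)
        + chern g w a2' * (Gn * (pPlus g w * pMinus g w))
        + chern g w a3' * ((Pn0 g w + phi1 g w * Gn) * (pPlus g w * pMinus g w))) = 0 := by
      linear_combination e2 - e1
    rcases mul_eq_zero.mp e3 with e4 | e4
    · exact absurd e4 (rootD_ne_zero g w)
    · exact e4
  have e5 : chern g w h = chern g w a1 * (Pn0 g w * Pn1 g w)
        + chern g w a2 * (Gn * (pPlus g w * pMinus g w))
        + chern g w a3 * ((Pn0 g w + phi1 g w * Gn) * (pPlus g w * pMinus g w)) := by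
    rw [hb, h1, h2, h3]
    linear_combination (phi0 g w) * hV
  have e6 : incl g w h = incl g w a1 * cst g w (Pn0 g w * Pn1 g w)
      + incl g w a2 * cst g w (Gn * (pPlus g w * pMinus g w))
      + incl g w a3 * cst g w ((Pn0 g w + phi1 g w * Gn) * (pPlus g w * pMinus g w)) := by
    rw [incl_eq_cst g w h, e5, cst_comb, incl_eq_cst g w a1, incl_eq_cst g w a2, incl_eq_cst g w a3]
  have e7 : InI g w (incl g w h) := by
    rw [e6]
    exact InI_add g w (InI_add g w (InI_mul_left g w (incl_mem g w a1) (InI_T1 g w))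
      (InI_mul_left g w (incl_mem g w a2) (InI_T2 g w Gn hG)))
      (InI_mul_left g w (incl_mem g w a3) (InI_T3 g w Gn hG))
  obtain ⟨_, h8⟩ := e7
  exact h8

/-- coefficientwise divisibility by the cocycle -/
def Good (x : Lau g w) : Prop := ∀ l, algebraMap (Par g w) (Coef g w) (cocyc g w l) ∣ x.coeff l

theorem pow_toNat_dvd (x : Par g w) (a b : ℤ) :
    x ^ (a + b).toNat ∣ x ^ a.toNat * x ^ b.toNat := by
  rw [← pow_add]
  exact pow_dvd_pow x (by omega)

theorem cocyc_dvd (l m : ℤ × ℤ) : cocyc g w (l + m) ∣ cocyc g w l * cocyc g w m := by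
  unfold cocyc
  rw [mul_mul_mul_comm, ← Finset.prod_mul_distrib, ← Finset.prod_mul_distrib]
  refine mul_dvd_mul (Finset.prod_dvd_prod_of_dvd _ _ (fun j _ => ?_))
    (Finset.prod_dvd_prod_of_dvd _ _ (fun i _ => ?_))
  · rw [mul_mul_mul_comm]
    exact mul_dvd_mul (pow_toNat_dvd g w _ _ _) (pow_toNat_dvd g w _ _ _)
  · rw [mul_mul_mul_comm]
    refine mul_dvd_mul ?_ ?_
    · have := pow_toNat_dvd g w (X (Sum.inl false) - X (Sum.inl true) + X (Sum.inr (Sum.inl i)))
        (l.2 - l.1) (m.2 - m.1)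
      have e : (l + m).2 - (l + m).1 = (l.2 - l.1) + (m.2 - m.1) := by
        simp only [Prod.fst_add, Prod.snd_add]; ring
      rw [e]; exact this
    · have := pow_toNat_dvd g w (X (Sum.inl true) - X (Sum.inl false) + X (Sum.inr (Sum.inl i)))
        (l.1 - l.2) (m.1 - m.2)
      have e : (l + m).1 - (l + m).2 = (l.1 - l.2) + (m.1 - m.2) := by
        simp only [Prod.fst_add, Prod.snd_add]; ring
      rw [e]; exact this

theorem good_add {x y : Lau g w} (hx : Good g w x) (hy : Good g w y) : Good g w (x + y) := by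
  intro l
  rw [AddMonoidAlgebra.coeff_add, Finsupp.add_apply]
  exact dvd_add (hx l) (hy l)

theorem good_sub {x y : Lau g w} (hx : Good g w x) (hy : Good g w y) : Good g w (x - y) := by
  intro l
  rw [AddMonoidAlgebra.coeff_sub, Finsupp.sub_apply]
  exact dvd_sub (hx l) (hy l)

theorem good_single (m : ℤ × ℤ) (b : Coef g w)
    (hb : algebraMap (Par g w) (Coef g w) (cocyc g w m) ∣ b) : Good g w (single m b) := by
  intro l
  rw [AddMonoidAlgebra.coeff_single, Finsupp.single_apply]
  split_ifs with h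
  · rw [← h]; exact hb
  · exact dvd_zero _

theorem good_mul {x y : Lau g w} (hx : Good g w x) (hy : Good g w y) : Good g w (x * y) := by
  intro l
  rw [AddMonoidAlgebra.coeff_mul_apply_left, Finsupp.sum]
  refine Finset.dvd_sum (fun h _ => ?_)
  have h1 := hx h
  have h2 := hy (-h + l)
  have h3 : algebraMap (Par g w) (Coef g w) (cocyc g w l) ∣
      algebraMap (Par g w) (Coef g w) (cocyc g w h)
        * algebraMap (Par g w) (Coef g w) (cocyc g w (-h + l)) := by
    rw [← map_mul]
    have := cocyc_dvd g w h (-h + l)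
    rw [show h + (-h + l) = l by abel] at this
    exact map_dvd _ this
  exact dvd_trans h3 (mul_dvd_mul h1 h2)

theorem dvd_aux (u c : Par g w) (d : Coef g w) :
    algebraMap (Par g w) (Coef g w) c ∣ algebraMap (Par g w) (Coef g w) (u * c) * d :=
  ⟨algebraMap (Par g w) (Coef g w) u * d, by rw [map_mul]; ring⟩

theorem good_opE (n : ℕ) : Good g w (opE g w n) := by
  unfold opE
  exact good_sub g w (good_single g w _ _ (dvd_aux g w _ _ _))
    (good_single g w _ _ (dvd_aux g w _ _ _))

theorem good_opF (n : ℕ) : Good g w (opF g w n) := by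
  unfold opF
  exact good_sub g w (good_single g w _ _ (dvd_aux g w _ _ _))
    (good_single g w _ _ (dvd_aux g w _ _ _))

theorem good_mono (m : ℤ × ℤ) : Good g w (mono g w m) := by
  unfold mono
  exact good_single g w _ _ (dvd_refl _)

theorem good_cst (u : Par g w) : Good g w (cst g w u) := by
  unfold cst
  exact good_single g w 0 _ (by rw [cocyc_zero, map_one]; exact one_dvd _)

theorem good_of_mem {x : Lau g w} (hx : x ∈ coulomb g w) : Good g w x := by
  induction hx using Algebra.adjoin_induction with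
  | mem x hx =>
    rcases hx with ⟨f, rfl⟩ | hx
    · rw [incl_eq_cst]
      exact good_cst g w _
    · simp only [Set.mem_insert_iff, Set.mem_singleton_iff] at hx
      rcases hx with rfl | rfl | rfl | rfl | rfl | rfl
      · exact good_opE g w 0
      · exact good_opE g w 1
      · exact good_opF g w 0
      · exact good_opF g w 1
      · exact good_mono g w _
      · exact good_mono g w _
  | algebraMap r =>
    have : algebraMap ℂ (Lau g w) r = incl g w (C r) := by
      rw [← MvPolynomial.algebraMap_eq, AlgHom.commutes]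
    rw [this, incl_eq_cst]
    exact good_cst g w _
  | add x y _ _ ihx ihy => exact good_add g w ihx ihy
  | mul x y _ _ ihx ihy => exact good_mul g w ihx ihy

/-- the field of rational functions in the flavour parameters -/
abbrev KF (g w : ℕ) : Type := FractionRing (MvPolynomial (Fin g ⊕ Fin w) ℂ)

/-- evaluation of torus parameters at the point (phi0, phi1) = (a, b) -/
noncomputable def pt (a b : Bas g w) : Par g w →ₐ[ℂ] Bas g w :=
  aeval (Sum.elim (fun c => cond c b a) X)

theorem pt_phi0 (a b : Bas g w) : pt g w a b (X (Sum.inl false)) = a := by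
  simp [pt]

theorem pt_phi1 (a b : Bas g w) : pt g w a b (X (Sum.inl true)) = b := by
  simp [pt]

theorem pt_inr (a b : Bas g w) (k : Fin g ⊕ Fin w) : pt g w a b (X (Sum.inr k)) = X k := by
  simp [pt]

theorem pt_cocyc (a b : Bas g w) (l : ℤ × ℤ) :
    pt g w a b (cocyc g w l) =
      (∏ j : Fin w, ((X (Sum.inr j) - a) ^ l.1.toNat * (X (Sum.inr j) - b) ^ l.2.toNat)) *
        ∏ i : Fin g, ((a - b + X (Sum.inl i)) ^ (l.2 - l.1).toNat *
          (b - a + X (Sum.inl i)) ^ (l.1 - l.2).toNat) := by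
  simp only [cocyc, map_mul, map_pow, map_prod, map_add, map_sub, pt_phi0, pt_phi1, pt_inr]

theorem pt_cocyc_zero (a b : Bas g w) (l : ℤ × ℤ)
    (h : (0 < l.1 ∧ ∃ j : Fin w, a = X (Sum.inr j)) ∨ (0 < l.2 ∧ ∃ k : Fin w, b = X (Sum.inr k)) ∨
      (0 < l.2 - l.1 ∧ ∃ i : Fin g, b = a + X (Sum.inl i)) ∨
      (0 < l.1 - l.2 ∧ ∃ i : Fin g, b = a - X (Sum.inl i))) :
    pt g w a b (cocyc g w l) = 0 := by
  rw [pt_cocyc]
  rcases h with ⟨h, j, rfl⟩ | ⟨h, k, rfl⟩ | ⟨h, i, rfl⟩ | ⟨h, i, rfl⟩
  · have hn : l.1.toNat ≠ 0 := by omega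
    have : ∏ j' : Fin w, (((X (Sum.inr j') : Bas g w) - X (Sum.inr j)) ^ l.1.toNat
        * (X (Sum.inr j') - b) ^ l.2.toNat) = 0 := by
      apply Finset.prod_eq_zero (Finset.mem_univ j)
      simp [hn]
    rw [this, zero_mul]
  · have hn : l.2.toNat ≠ 0 := by omega
    have : ∏ j' : Fin w, (((X (Sum.inr j') : Bas g w) - a) ^ l.1.toNat
        * (X (Sum.inr j') - X (Sum.inr k)) ^ l.2.toNat) = 0 := by
      apply Finset.prod_eq_zero (Finset.mem_univ k)
      simp [hn]
    rw [this, zero_mul]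
  · have hn : (l.2 - l.1).toNat ≠ 0 := by omega
    have : ∏ i' : Fin g, ((a - (a + X (Sum.inl i)) + X (Sum.inl i')) ^ (l.2 - l.1).toNat *
        (a + X (Sum.inl i) - a + X (Sum.inl i')) ^ (l.1 - l.2).toNat) = 0 := by
      apply Finset.prod_eq_zero (Finset.mem_univ i)
      simp [hn]
    rw [this, mul_zero]
  · have hn : (l.1 - l.2).toNat ≠ 0 := by omega
    have : ∏ i' : Fin g, ((a - (a - X (Sum.inl i)) + X (Sum.inl i')) ^ (l.2 - l.1).toNat *
        (a - X (Sum.inl i) - a + X (Sum.inl i')) ^ (l.1 - l.2).toNat) = 0 := by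
      apply Finset.prod_eq_zero (Finset.mem_univ i)
      simp [hn]
    rw [this, mul_zero]

theorem pt_cocyc_mul_neg (a b : Bas g w) (ha : ∃ j : Fin w, a = X (Sum.inr j))
    (hb : (∃ k : Fin w, b = X (Sum.inr k)) ∨ (∃ i : Fin g, b = a + X (Sum.inl i)) ∨
      (∃ i : Fin g, b = a - X (Sum.inl i)))
    (l : ℤ × ℤ) (hl : l ≠ 0) :
    pt g w a b (cocyc g w l * cocyc g w (-l)) = 0 := by
  rw [map_mul]
  have hl' : l.1 ≠ 0 ∨ l.2 ≠ 0 := by
    by_contra hcon
    rw [not_or, not_not, not_not] at hcon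
    exact hl (Prod.ext hcon.1 hcon.2)
  by_cases h1 : 0 < l.1
  · rw [pt_cocyc_zero g w a b l (Or.inl ⟨h1, ha⟩), zero_mul]
  by_cases h2 : l.1 < 0
  · rw [pt_cocyc_zero g w a b (-l) (Or.inl ⟨by simp; exact h2, ha⟩), mul_zero]
  have h3 : l.1 = 0 := by omega
  have h4 : l.2 ≠ 0 := by
    rcases hl' with h | h
    · exact absurd h3 h
    · exact h
  rcases hb with hb | hb | hb
  · by_cases h5 : 0 < l.2
    · rw [pt_cocyc_zero g w a b l (Or.inr (Or.inl ⟨h5, hb⟩)), zero_mul]
    · rw [pt_cocyc_zero g w a b (-l) (Or.inr (Or.inl ⟨by simp; omega, hb⟩)), mul_zero]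
  · by_cases h5 : 0 < l.2
    · rw [pt_cocyc_zero g w a b l (Or.inr (Or.inr (Or.inl ⟨by omega, hb⟩))), zero_mul]
    · rw [pt_cocyc_zero g w a b (-l) (Or.inr (Or.inr (Or.inl ⟨by simp; omega, hb⟩))), mul_zero]
  · by_cases h5 : 0 < l.2
    · rw [pt_cocyc_zero g w a b (-l) (Or.inr (Or.inr (Or.inr ⟨by simp; omega, hb⟩))), mul_zero]
    · rw [pt_cocyc_zero g w a b l (Or.inr (Or.inr (Or.inr ⟨by omega, hb⟩))), zero_mul]

theorem pt_rootD_unit (a b : Bas g w) (hab : a ≠ b) :
    IsUnit (((algebraMap (Bas g w) (KF g w)).comp (pt g w a b).toRingHom) (rootD g w)) := by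
  apply IsUnit.mk0
  simp only [RingHom.coe_comp, Function.comp_apply, AlgHom.toRingHom_eq_coe, RingHom.coe_coe]
  rw [map_sub, pt_phi0, pt_phi1]
  intro h
  have h2 : a - b = 0 := (IsFractionRing.injective (Bas g w) (KF g w)) (by rw [h, map_zero])
  exact hab (sub_eq_zero.mp h2)

/-- evaluation of coefficients at the point -/
noncomputable def evK (a b : Bas g w) (hab : a ≠ b) : Coef g w →+* KF g w :=
  IsLocalization.Away.lift (rootD g w) (pt_rootD_unit g w a b hab)

theorem evK_algebraMap (a b : Bas g w) (hab : a ≠ b) (u : Par g w) :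
    evK g w a b hab (algebraMap (Par g w) (Coef g w) u)
      = algebraMap (Bas g w) (KF g w) (pt g w a b u) := by
  unfold evK
  rw [IsLocalization.Away.lift_eq]
  rfl

theorem chi_mul (a b : Bas g w) (hab : a ≠ b)
    (hz : ∀ l : ℤ × ℤ, l ≠ 0 → pt g w a b (cocyc g w l * cocyc g w (-l)) = 0)
    (x y : Lau g w) (hx : Good g w x) (hy : Good g w y) :
    evK g w a b hab ((x * y).coeff 0)
      = evK g w a b hab (x.coeff 0) * evK g w a b hab (y.coeff 0) := by
  rw [AddMonoidAlgebra.coeff_mul_apply_left, Finsupp.sum, map_sum]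
  rw [Finset.sum_eq_single 0]
  · rw [map_mul]; simp
  · intro h _ hne
    obtain ⟨u, hu⟩ := hx h
    obtain ⟨v, hv⟩ := hy (-h + 0)
    rw [hu, hv, add_zero]
    have e : algebraMap (Par g w) (Coef g w) (cocyc g w h) * u
          * (algebraMap (Par g w) (Coef g w) (cocyc g w (-h)) * v)
        = algebraMap (Par g w) (Coef g w) (cocyc g w h * cocyc g w (-h)) * (u * v) := by
      rw [map_mul]; ring
    rw [e, map_mul, evK_algebraMap, hz h hne, map_zero, zero_mul]
  · intro h0
    rw [Finsupp.notMem_support_iff] at h0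
    rw [h0, zero_mul, map_zero]

theorem pt_chern (a b : Bas g w) (f : Par g w) :
    pt g w a b (chern g w f) = fixedPt g w a b f := by
  have : (pt g w a b).comp (chern g w) = fixedPt g w a b := by
    apply MvPolynomial.algHom_ext
    intro n
    rcases n with n | k
    · cases n
      · rw [AlgHom.comp_apply, chern_c1, map_add, pt_phi0, pt_phi1]
        simp [fixedPt]
      · rw [AlgHom.comp_apply, chern_c2, map_mul, pt_phi0, pt_phi1]
        simp [fixedPt]
    · rw [AlgHom.comp_apply, chern_inr, pt_inr]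
      simp [fixedPt]
  rw [← this]
  rfl

theorem ker_sub (a b : Bas g w) (hab : a ≠ b)
    (hz : ∀ l : ℤ × ℤ, l ≠ 0 → pt g w a b (cocyc g w l * cocyc g w (-l)) = 0)
    (f : Par g w) (hf : inclC g w f ∈ charged g w) : fixedPt g w a b f = 0 := by
  have key : ∀ x : coulomb g w, x ∈ charged g w →
      evK g w a b hab ((x : Lau g w).coeff 0) = 0 := by
    intro x hx
    unfold charged at hx
    induction hx using Submodule.span_induction with
    | mem x hx =>
      obtain ⟨k, hk, hx⟩ := hx
      have : (x : Lau g w).coeff 0 = 0 := by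
        by_contra hne
        have := hx 0 (Finsupp.mem_support_iff.mpr hne)
        simp at this
        exact hk this.symm
      rw [this, map_zero]
    | zero =>
      have : ((0 : coulomb g w) : Lau g w) = 0 := rfl
      rw [this]
      simp
    | add x y _ _ ihx ihy =>
      have : ((x + y : coulomb g w) : Lau g w) = (x : Lau g w) + (y : Lau g w) := rfl
      rw [this, AddMonoidAlgebra.coeff_add, Finsupp.add_apply, map_add, ihx, ihy, add_zero]
    | smul c x _ ih =>
      have : ((c • x : coulomb g w) : Lau g w) = (c : Lau g w) * (x : Lau g w) := rfl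
      rw [this, chi_mul g w a b hab hz _ _ (good_of_mem g w c.2) (good_of_mem g w x.2), ih,
        mul_zero]
  have h1 := key _ hf
  have h2 : ((inclC g w f : coulomb g w) : Lau g w) = incl g w f := rfl
  rw [h2, incl_apply, AddMonoidAlgebra.coeff_single, Finsupp.single_eq_same, evK_algebraMap,
    pt_chern] at h1
  exact (IsFractionRing.injective (Bas g w) (KF g w)) (by rw [h1, map_zero])

end Vale.Agent.H78.Framed
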