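import Mathlib

namespace Vale.Agent.H78.FramedComm

open Polynomial

section abstract

set_option linter.unusedSectionVars false
set_option linter.unusedVariables false

variable {B : Type*} [CommRing B] [IsDomain B] {J I : Type*} [Fintype J] [DecidableEq J]
  [Fintype I] [DecidableEq I] (m : J → B) (e : I → B)

/-- the node polynomial in the inner variable -/
noncomputable def PXm : B[X] := ∏ j : J, (X - C (m j))

/-- node polynomial in the inner variable, as a constant of the outer ring -/
noncomputable def P0 : Polynomial (Polynomial B) := C (PXm m)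

/-- node polynomial in the outer variable -/
noncomputable def P1 : Polynomial (Polynomial B) := (PXm m).map C

/-- outer variable minus inner variable -/
noncomputable def YX (B : Type*) [CommRing B] : Polynomial (Polynomial B) := X - C X

/-- the loop polynomial -/
noncomputable def Qloop : Polynomial (Polynomial B) :=
  ∏ i : I, ((X - C (X + C (e i))) * (X - C (X - C (e i))))

/-- the points over the node j -/
def rho (j : J) : J ⊕ (I ⊕ I) → B :=
  Sum.elim m (Sum.elim (fun i => m j + e i) (fun i => m j - e i))

theorem eval_P1 : (P1 m).eval X = PXm m := by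
  rw [P1, eval_map, eval₂_C_X]

theorem eval_P0 : (P0 m).eval X = PXm m := by
  rw [P0, eval_C]

theorem exists_G : ∃ G : Polynomial (Polynomial B), YX B * G = P1 m - P0 m := by
  have h : (X - C X : Polynomial (Polynomial B)) ∣ P1 m - P0 m := by
    rw [dvd_iff_isRoot, IsRoot, eval_sub, eval_P1, eval_P0, sub_self]
  obtain ⟨G, hG⟩ := h
  exact ⟨G, hG.symm⟩

theorem monic_PXm : (PXm m).Monic :=
  monic_prod_of_monic _ _ (fun j _ => monic_X_sub_C _)

theorem monic_P1 : (P1 m).Monic := (monic_PXm m).map C

theorem monic_YX : (YX B).Monic := monic_X_sub_C _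

theorem YX_ne_zero : YX B ≠ 0 := (monic_YX (B := B)).ne_zero

theorem monic_Qloop : (Qloop e).Monic :=
  monic_prod_of_monic _ _ (fun i _ => (monic_X_sub_C _).mul (monic_X_sub_C _))

theorem natDegree_P1 : (P1 m).natDegree = Fintype.card J := by
  rw [P1, (monic_PXm m).natDegree_map, PXm, natDegree_finsetProd_X_sub_C_eq_card, Finset.card_univ]

theorem monic_G [Nonempty J] (G : Polynomial (Polynomial B)) (hG : YX B * G = P1 m - P0 m) :
    G.Monic := by
  have h1 : (P1 m - P0 m).Monic := by
    apply (monic_P1 m).sub_of_left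
    have h2 : (P1 m).degree = (Fintype.card J : WithBot ℕ) := by
      rw [degree_eq_natDegree (monic_P1 m).ne_zero, natDegree_P1]
    rw [h2]
    refine lt_of_le_of_lt degree_C_le ?_
    exact_mod_cast Fintype.card_pos
  rw [← hG] at h1
  exact (monic_YX (B := B)).of_mul_monic_left h1

theorem map_P0 (j : J) : (P0 m).map (evalRingHom (m j)) = 0 := by
  rw [P0, map_C, coe_evalRingHom, PXm, eval_prod]
  rw [Finset.prod_eq_zero (Finset.mem_univ j) (by simp), map_zero]

theorem map_P1 (a : B) : (P1 m).map (evalRingHom a) = PXm m := by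
  rw [P1, Polynomial.map_map]
  have : (evalRingHom a).comp (C : B →+* B[X]) = RingHom.id B := by
    ext x
    simp
  rw [this, Polynomial.map_id]

theorem map_YX (a : B) : (YX B).map (evalRingHom a) = X - C a := by
  simp [YX]

theorem map_Qloop (a : B) : (Qloop e).map (evalRingHom a)
    = (∏ i : I, (X - C (a + e i))) * ∏ i : I, (X - C (a - e i)) := by
  rw [← Finset.prod_mul_distrib]
  simp [Qloop, Polynomial.map_prod]

theorem key_prod (j : J) (G : Polynomial (Polynomial B)) (hG : YX B * G = P1 m - P0 m) :
    (X - C (m j)) * (Qloop e * G).map (evalRingHom (m j))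
      = ∏ t : J ⊕ (I ⊕ I), (X - C (rho m e j t)) := by
  have h1 := congrArg (Polynomial.map (evalRingHom (m j))) hG
  rw [Polynomial.map_mul, Polynomial.map_sub, map_P0, map_P1, map_YX, sub_zero] at h1
  rw [Polynomial.map_mul, map_Qloop, Fintype.prod_sum_type, Fintype.prod_sum_type]
  simp only [rho, Sum.elim_inl, Sum.elim_inr]
  have hP : ∏ k : J, (X - C (m k)) = PXm m := rfl
  rw [hP, ← h1]
  ring

theorem natDegree_U (j : J) (G : Polynomial (Polynomial B)) (hG : YX B * G = P1 m - P0 m)
    (hU : (Qloop e * G).Monic) :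
    (Qloop e * G).natDegree + 1 = Fintype.card (J ⊕ (I ⊕ I)) := by
  have h := congrArg natDegree (key_prod m e j G hG)
  rw [natDegree_finsetProd_X_sub_C_eq_card, Finset.card_univ,
    (monic_X_sub_C (m j)).natDegree_mul (hU.map _), natDegree_X_sub_C, hU.natDegree_map] at h
  omega

/-- first vanishing lemma: vanishing on the points over each node, inner variable at the node -/
theorem F1 (hρ : ∀ j, Function.Injective (rho m e j)) (G : Polynomial (Polynomial B))
    (hG : YX B * G = P1 m - P0 m) (F : Polynomial (Polynomial B))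
    (hF : ∀ j t, t ≠ Sum.inl j → F.evalEval (m j) (rho m e j t) = 0) :
    F ∈ Ideal.span ({P0 m, Qloop e * G} : Set (Polynomial (Polynomial B))) := by
  classical
  rcases isEmpty_or_nonempty J with hJ | hJ
  · have h1 : P0 m = 1 := by
      simp [P0, PXm]
    rw [h1, Ideal.mem_span_pair]
    exact ⟨F, 0, by ring⟩
  · have hU : (Qloop e * G).Monic := (monic_Qloop e).mul (monic_G m G hG)
    have hdiv := modByMonic_add_div F (Qloop e * G)
    have hr : ∀ j, (F %ₘ (Qloop e * G)).map (evalRingHom (m j)) = 0 := by
      intro j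
      have hcard : ((Finset.univ.erase (Sum.inl j)).image (rho m e j)).card
          = (Qloop e * G).natDegree := by
        rw [Finset.card_image_of_injective _ (hρ j),
          Finset.card_erase_of_mem (Finset.mem_univ _), Finset.card_univ]
        have := natDegree_U m e j G hG hU
        omega
      apply eq_zero_of_degree_lt_of_eval_finset_eq_zero
        ((Finset.univ.erase (Sum.inl j)).image (rho m e j))
      · calc ((F %ₘ (Qloop e * G)).map (evalRingHom (m j))).degree
            ≤ (F %ₘ (Qloop e * G)).degree := degree_map_le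
          _ < (Qloop e * G).degree := degree_modByMonic_lt F hU
          _ = ((Qloop e * G).natDegree : WithBot ℕ) := degree_eq_natDegree hU.ne_zero
          _ = _ := by rw [hcard]
      · intro x hx
        obtain ⟨t, ht, rfl⟩ := Finset.mem_image.mp hx
        have htne : t ≠ Sum.inl j := Finset.ne_of_mem_erase ht
        have e1 : F.map (evalRingHom (m j)) = (F %ₘ (Qloop e * G)).map (evalRingHom (m j))
            + (Qloop e * G).map (evalRingHom (m j)) * (F /ₘ (Qloop e * G)).map (evalRingHom (m j)) := by
          rw [← Polynomial.map_mul, ← Polynomial.map_add, hdiv]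
        have e2 : eval (rho m e j t) (F.map (evalRingHom (m j))) = 0 := by
          rw [map_evalRingHom_eval]
          exact hF j t htne
        have e3 : eval (rho m e j t) ((Qloop e * G).map (evalRingHom (m j))) = 0 := by
          have h := congrArg (eval (rho m e j t)) (key_prod m e j G hG)
          rw [eval_mul, eval_sub, eval_X, eval_C, eval_prod,
            Finset.prod_eq_zero (Finset.mem_univ t) (by simp)] at h
          rcases mul_eq_zero.mp h with h | h
          · exfalso
            have h' : rho m e j t = rho m e j (Sum.inl j) := by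
              rw [sub_eq_zero] at h
              rw [h]
              rfl
            exact htne (hρ j h')
          · exact h
        have e4 := congrArg (eval (rho m e j t)) e1
        rw [e2, eval_add, eval_mul, e3, zero_mul, add_zero] at e4
        exact e4.symm
    have hminj : Function.Injective m := by
      intro a b hab
      have h : rho m e a (Sum.inl a) = rho m e a (Sum.inl b) := hab
      exact Sum.inl_injective (hρ a h)
    have hc : ∀ n, PXm m ∣ (F %ₘ (Qloop e * G)).coeff n := by
      intro n
      have hroot : ∀ j, ((F %ₘ (Qloop e * G)).coeff n).eval (m j) = 0 := by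
        intro j
        have h := congrArg (fun p => p.coeff n) (hr j)
        simpa [coeff_map] using h
      by_cases h0 : (F %ₘ (Qloop e * G)).coeff n = 0
      · rw [h0]
        exact dvd_zero _
      have hle : (Finset.univ.val.map m) ≤ ((F %ₘ (Qloop e * G)).coeff n).roots := by
        rw [Multiset.le_iff_subset (Finset.univ.nodup.map hminj)]
        intro a ha
        obtain ⟨j, _, rfl⟩ := Multiset.mem_map.mp ha
        exact (mem_roots h0).mpr (hroot j)
      have hd := (Multiset.prod_X_sub_C_dvd_iff_le_roots h0 _).mpr hle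
      rw [Multiset.map_map] at hd
      exact hd
    obtain ⟨r', hr'⟩ := (C_dvd_iff_dvd_coeff _ _).mpr hc
    rw [Ideal.mem_span_pair]
    refine ⟨r', F /ₘ (Qloop e * G), ?_⟩
    have h2 : P0 m = C (PXm m) := rfl
    rw [h2]
    linear_combination hdiv - hr'

theorem evalEval_swap (x y : B) (p : Polynomial (Polynomial B)) :
    (Polynomial.Bivariate.swap p).evalEval x y = p.evalEval y x := by
  have h := Polynomial.Bivariate.aevalAeval_swap (R := B) (A := B) x y p
  rw [coe_aevalAeval_eq_evalEval, coe_aevalAeval_eq_evalEval] at h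
  exact h

theorem swap_P0 : Polynomial.Bivariate.swap (P0 m) = P1 m := by
  rw [P0, P1, Polynomial.Bivariate.swap_C]

theorem swap_P1 : Polynomial.Bivariate.swap (P1 m) = P0 m := by
  rw [P0, P1, Polynomial.Bivariate.swap_map_C]

theorem swap_YX : Polynomial.Bivariate.swap (YX B) = - YX B := by
  rw [YX, map_sub, Polynomial.Bivariate.swap_Y, Polynomial.Bivariate.swap_X]
  ring

theorem swap_Qloop : Polynomial.Bivariate.swap (Qloop e) = Qloop e := by
  rw [Qloop, map_prod]
  refine Finset.prod_congr rfl (fun i _ => ?_)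
  have h1 : (C (X + C (e i)) : Polynomial (Polynomial B)) = C X + C (C (e i)) := by
    rw [C_add]
  have h2 : (C (X - C (e i)) : Polynomial (Polynomial B)) = C X - C (C (e i)) := by
    rw [C_sub]
  rw [map_mul, h1, h2, map_sub, map_sub, map_add, map_sub, Polynomial.Bivariate.swap_Y,
    Polynomial.Bivariate.swap_X, Polynomial.Bivariate.swap_C_C]
  ring

theorem swap_G (G : Polynomial (Polynomial B)) (hG : YX B * G = P1 m - P0 m) :
    Polynomial.Bivariate.swap G = G := by
  have h1 := congrArg (Polynomial.Bivariate.swap (R := B)) hG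
  rw [map_mul, map_sub, swap_P0, swap_P1, swap_YX] at h1
  have h2 : YX B * Polynomial.Bivariate.swap G = YX B * G := by
    linear_combination (-1 : Polynomial (Polynomial B)) * h1 - hG
  exact mul_left_cancel₀ YX_ne_zero h2

/-- second vanishing lemma: outer variable at the node -/
theorem F1' (hρ : ∀ j, Function.Injective (rho m e j)) (G : Polynomial (Polynomial B))
    (hG : YX B * G = P1 m - P0 m) (F : Polynomial (Polynomial B))
    (hF : ∀ j t, t ≠ Sum.inl j → F.evalEval (rho m e j t) (m j) = 0) :
    F ∈ Ideal.span ({P1 m, Qloop e * G} : Set (Polynomial (Polynomial B))) := by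
  have h := F1 m e hρ G hG (Polynomial.Bivariate.swap F) (by
    intro j t ht
    rw [evalEval_swap]
    exact hF j t ht)
  rw [Ideal.mem_span_pair] at h ⊢
  obtain ⟨a, b, hab⟩ := h
  refine ⟨Polynomial.Bivariate.swap a, Polynomial.Bivariate.swap b, ?_⟩
  have h2 := congrArg (Polynomial.Bivariate.swap (R := B)) hab
  rw [map_add, map_mul, map_mul, map_mul, swap_P0, swap_Qloop, swap_G m G hG,
    Polynomial.Bivariate.swap_swap_apply] at h2
  exact h2

theorem C_dvd_of_mul_monic (c : B) (p q : B[X]) (hq : q.Monic) (h : C c ∣ p * q) : C c ∣ p := by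
  have key : ∀ f : B[X], (C c ∣ f) ↔ f.map (Ideal.Quotient.mk (Ideal.span {c})) = 0 := by
    intro f
    rw [C_dvd_iff_dvd_coeff]
    constructor
    · intro hf
      ext n
      rw [coeff_map, coeff_zero, Ideal.Quotient.eq_zero_iff_mem, Ideal.mem_span_singleton]
      exact hf n
    · intro hf n
      have h1 := congrArg (fun p => p.coeff n) hf
      simp only [coeff_map, coeff_zero] at h1
      rw [Ideal.Quotient.eq_zero_iff_mem, Ideal.mem_span_singleton] at h1
      exact h1
  rw [key] at h ⊢
  rw [Polynomial.map_mul] at h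
  exact (hq.map _).mul_left_eq_zero_iff.mp h

theorem coprime_aux (p : B[X]) (hp : p ≠ 0) (q : Polynomial (Polynomial B)) (hq : q.Monic)
    (A A' : Polynomial (Polynomial B)) (h : C p * A = q * A') :
    ∃ d, A = d * q ∧ A' = d * C p := by
  have hdiv := modByMonic_add_div A q
  have hCp : (C p : Polynomial (Polynomial B)) ≠ 0 := by
    rwa [Ne, C_eq_zero]
  have h1 : q ∣ C p * (A %ₘ q) := by
    refine ⟨A' - C p * (A /ₘ q), ?_⟩
    linear_combination h + C p * hdiv
  have h2 : C p * (A %ₘ q) = 0 := by
    by_contra hne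
    exact hq.not_dvd_of_degree_lt hne (by
      rw [degree_C_mul hp]
      exact degree_modByMonic_lt A hq) h1
  have hr0 : A %ₘ q = 0 := by
    rcases mul_eq_zero.mp h2 with h3 | h3
    · exact absurd h3 hCp
    · exact h3
  have hA : A = (A /ₘ q) * q := by
    rw [hr0] at hdiv
    linear_combination -hdiv
  refine ⟨A /ₘ q, hA, ?_⟩
  have h4 : q * A' = q * ((A /ₘ q) * C p) := by
    rw [← h]
    linear_combination C p * hA
  exact mul_left_cancel₀ hq.ne_zero h4

theorem eval_YX : (YX B).eval X = 0 := by
  simp [YX]

theorem eval_Qloop : (Qloop e).eval X = C (∏ i : I, -(e i * e i)) := by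
  rw [Qloop, eval_prod, map_prod]
  refine Finset.prod_congr rfl (fun i _ => ?_)
  simp only [eval_mul, eval_sub, eval_X, eval_C, map_neg, map_mul]
  ring

/-- intersection lemma -/
theorem F2 (he : ∀ i, e i ≠ 0) (G : Polynomial (Polynomial B)) (hG : YX B * G = P1 m - P0 m)
    (x : Polynomial (Polynomial B))
    (h1 : x ∈ Ideal.span ({P0 m, Qloop e * G} : Set (Polynomial (Polynomial B))))
    (h2 : x ∈ Ideal.span ({P1 m, Qloop e * G} : Set (Polynomial (Polynomial B)))) :
    x ∈ Ideal.span ({P0 m * P1 m, Qloop e * G, Qloop e * P0 m} :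
      Set (Polynomial (Polynomial B))) := by
  obtain ⟨α, β, h1⟩ := Ideal.mem_span_pair.mp h1
  obtain ⟨γ, δ, h2⟩ := Ideal.mem_span_pair.mp h2
  have hP0 : P0 m = C (PXm m) := rfl
  have s1 : C (PXm m) * (YX B * α + (δ - β) * Qloop e)
      = P1 m * (YX B * γ + (δ - β) * Qloop e) := by
    rw [← hP0]
    linear_combination YX B * (h1 - h2) + (δ - β) * Qloop e * hG
  obtain ⟨ee, hA, hA'⟩ := coprime_aux (PXm m) (monic_PXm m).ne_zero (P1 m) (monic_P1 m) _ _ s1
  have hκ : (∏ i : I, -(e i * e i)) ≠ 0 :=
    Finset.prod_ne_zero_iff.mpr (fun i _ => neg_ne_zero.mpr (mul_ne_zero (he i) (he i)))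
  have t1 := congrArg (eval X) hA
  rw [eval_add, eval_mul, eval_mul, eval_mul, eval_sub, eval_YX, eval_Qloop, eval_P1, zero_mul,
    zero_add] at t1
  obtain ⟨e1, he1⟩ := C_dvd_of_mul_monic (∏ i : I, -(e i * e i)) (eval X ee) (PXm m)
    (monic_PXm m) ⟨eval X δ - eval X β, by rw [← t1]; ring⟩
  have t2 : eval X δ - eval X β = e1 * PXm m := by
    have h3 : C (∏ i : I, -(e i * e i)) * (eval X δ - eval X β)
        = C (∏ i : I, -(e i * e i)) * (e1 * PXm m) := by
      rw [mul_comm, t1, he1]
      ring
    exact mul_left_cancel₀ (C_ne_zero.mpr hκ) h3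
  have t3 : (X - C X : Polynomial (Polynomial B)) ∣ δ - β - C e1 * P1 m := by
    rw [dvd_iff_isRoot, IsRoot, eval_sub, eval_sub, eval_mul, eval_C, eval_P1, t2]
    ring
  obtain ⟨d2, hd2⟩ := t3
  have t4 : (X - C X : Polynomial (Polynomial B)) ∣ ee - C e1 * Qloop e := by
    rw [dvd_iff_isRoot, IsRoot, eval_sub, eval_mul, eval_C, eval_Qloop, he1]
    ring
  obtain ⟨e2, he2⟩ := t4
  have hYX : (X - C X : Polynomial (Polynomial B)) = YX B := rfl
  rw [hYX] at hd2 he2
  have t5 : YX B * (α + d2 * Qloop e) = YX B * (P1 m * e2) := by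
    linear_combination hA - Qloop e * hd2 + P1 m * he2
  have t6 := mul_left_cancel₀ YX_ne_zero t5
  rw [Ideal.mem_span_insert]
  refine ⟨e2, β * (Qloop e * G) + (-d2) * (Qloop e * P0 m), ?_, ?_⟩
  · exact Ideal.mem_span_pair.mpr ⟨β, -d2, rfl⟩
  · rw [← h1]
    linear_combination (P0 m) * t6

/-- the vanishing ideal of the fixed points -/
theorem main_abs (hρ : ∀ j, Function.Injective (rho m e j)) (he : ∀ i, e i ≠ 0)
    (G : Polynomial (Polynomial B)) (hG : YX B * G = P1 m - P0 m)
    (F : Polynomial (Polynomial B))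
    (hF : ∀ j t, t ≠ Sum.inl j → F.evalEval (m j) (rho m e j t) = 0)
    (hF' : ∀ j t, t ≠ Sum.inl j → F.evalEval (rho m e j t) (m j) = 0) :
    F ∈ Ideal.span ({P0 m * P1 m, Qloop e * G, Qloop e * P0 m} :
      Set (Polynomial (Polynomial B))) :=
  F2 m e he G hG F (F1 m e hρ G hG F hF) (F1' m e hρ G hG F hF')

end abstract

end Vale.Agent.H78.FramedComm
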