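import Mathlib

namespace Vale.Agent.H78.Framed

open MvPolynomial

/-- The inverse of the root phi0 - phi1 of GL_2, in the ring of torus parameters
C[phi0, phi1, eps_1, .., eps_g, m_1, .., m_w] localized at the root
(variables: inl false = phi0, inl true = phi1, inr (inl i) = eps_i, inr (inr j) = m_j). -/
noncomputable def dinv (g w : ℕ) :
    Localization.Away (X (Sum.inl false) - X (Sum.inl true) :
      MvPolynomial (Bool ⊕ (Fin g ⊕ Fin w)) ℂ) :=
  IsLocalization.Away.invSelf (X (Sum.inl false) - X (Sum.inl true) :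
    MvPolynomial (Bool ⊕ (Fin g ⊕ Fin w)) ℂ)

/-- Cocycle factor of the abelian monopole operator of charge l:
the product over the weights xi of N = gl_2^g + Hom(C^2, C^w) of xi ^ max(0, -<xi, l>);
the weights are m_j - phi0, m_j - phi1 and phi_a - phi_b + eps_i. -/
noncomputable def cocyc (g w : ℕ) (l : ℤ × ℤ) : MvPolynomial (Bool ⊕ (Fin g ⊕ Fin w)) ℂ :=
  (∏ j : Fin w, ((X (Sum.inr (Sum.inr j)) - X (Sum.inl false)) ^ l.1.toNat *
      (X (Sum.inr (Sum.inr j)) - X (Sum.inl true)) ^ l.2.toNat)) *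
    ∏ i : Fin g,
      ((X (Sum.inl false) - X (Sum.inl true) + X (Sum.inr (Sum.inl i))) ^ (l.2 - l.1).toNat *
        (X (Sum.inl true) - X (Sum.inl false) + X (Sum.inr (Sum.inl i))) ^ (l.1 - l.2).toNat)

/-- The abelian monopole operator r^l, in the group algebra of the coweight lattice Z x Z. -/
noncomputable def mono (g w : ℕ) (l : ℤ × ℤ) :
    AddMonoidAlgebra
      (Localization.Away (X (Sum.inl false) - X (Sum.inl true) :
        MvPolynomial (Bool ⊕ (Fin g ⊕ Fin w)) ℂ))
      (ℤ × ℤ) :=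
  AddMonoidAlgebra.single l (algebraMap _ _ (cocyc g w l))

/-- Dressed minuscule monopole operator of coweight (1,0) with dressing phi^n. -/
noncomputable def opE (g w : ℕ) (n : ℕ) :
    AddMonoidAlgebra
      (Localization.Away (X (Sum.inl false) - X (Sum.inl true) :
        MvPolynomial (Bool ⊕ (Fin g ⊕ Fin w)) ℂ))
      (ℤ × ℤ) :=
  AddMonoidAlgebra.single (1, 0)
      (algebraMap _ _ (X (Sum.inl false) ^ n * cocyc g w (1, 0)) * dinv g w)
    - AddMonoidAlgebra.single (0, 1)
      (algebraMap _ _ (X (Sum.inl true) ^ n * cocyc g w (0, 1)) * dinv g w)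

/-- Dressed minuscule monopole operator of coweight (0,-1) with dressing phi^n. -/
noncomputable def opF (g w : ℕ) (n : ℕ) :
    AddMonoidAlgebra
      (Localization.Away (X (Sum.inl false) - X (Sum.inl true) :
        MvPolynomial (Bool ⊕ (Fin g ⊕ Fin w)) ℂ))
      (ℤ × ℤ) :=
  AddMonoidAlgebra.single (0, -1)
      (algebraMap _ _ (X (Sum.inl true) ^ n * cocyc g w (0, -1)) * dinv g w)
    - AddMonoidAlgebra.single (-1, 0)
      (algebraMap _ _ (X (Sum.inl false) ^ n * cocyc g w (-1, 0)) * dinv g w)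

/-- The structure map from R = H^*_{G x F}(pt) = C[c1, c2, eps_1, .., eps_g, m_1, .., m_w]
(variables: inl false = c1, inl true = c2, inr (inl i) = eps_i, inr (inr j) = m_j):
c1 goes to phi0 + phi1, c2 to phi0 * phi1, and the result is placed in degree 0
of the group algebra. -/
noncomputable def incl (g w : ℕ) : MvPolynomial (Bool ⊕ (Fin g ⊕ Fin w)) ℂ →ₐ[ℂ]
    AddMonoidAlgebra
      (Localization.Away (X (Sum.inl false) - X (Sum.inl true) :
        MvPolynomial (Bool ⊕ (Fin g ⊕ Fin w)) ℂ))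
      (ℤ × ℤ) :=
  AddMonoidAlgebra.singleZeroAlgHom.comp
    ((IsScalarTower.toAlgHom ℂ (MvPolynomial (Bool ⊕ (Fin g ⊕ Fin w)) ℂ) _).comp
      (aeval (Sum.elim
        (fun b => cond b (X (Sum.inl false) * X (Sum.inl true))
          (X (Sum.inl false) + X (Sum.inl true)))
        (fun k => X (Sum.inr k)))))

/-- The (abelianized model of the) Coulomb branch algebra. -/
noncomputable def coulomb (g w : ℕ) : Subalgebra ℂ
    (AddMonoidAlgebra
      (Localization.Away (X (Sum.inl false) - X (Sum.inl true) :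
        MvPolynomial (Bool ⊕ (Fin g ⊕ Fin w)) ℂ))
      (ℤ × ℤ)) :=
  Algebra.adjoin ℂ (Set.range (incl g w) ∪
    {opE g w 0, opE g w 1, opF g w 0, opF g w 1, mono g w (1, 1), mono g w (-1, -1)})

/-- The ideal generated by the elements of nonzero topological charge. -/
noncomputable def charged (g w : ℕ) : Ideal (coulomb g w) :=
  Ideal.span {a | ∃ k : ℤ, k ≠ 0 ∧ ∀ l ∈ a.1.coeff.support, l.1 + l.2 = k}

/-- Restriction to a torus fixed point with Chern roots (a, b):
c1 goes to a + b and c2 to a * b. -/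
noncomputable def fixedPt (g w : ℕ) (a b : MvPolynomial (Fin g ⊕ Fin w) ℂ) :
    MvPolynomial (Bool ⊕ (Fin g ⊕ Fin w)) ℂ →ₐ[ℂ] MvPolynomial (Fin g ⊕ Fin w) ℂ :=
  aeval (Sum.elim (fun c => cond c (a * b) (a + b)) X)

theorem incl_mem (g w : ℕ) (f : MvPolynomial (Bool ⊕ (Fin g ⊕ Fin w)) ℂ) :
    incl g w f ∈ coulomb g w :=
  Algebra.subset_adjoin (Or.inl ⟨f, rfl⟩)

/-- The image of f : R in the Coulomb branch algebra. -/
noncomputable def inclC (g w : ℕ) (f : MvPolynomial (Bool ⊕ (Fin g ⊕ Fin w)) ℂ) : coulomb g w :=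
  ⟨incl g w f, incl_mem g w f⟩

end Vale.Agent.H78.Framed
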