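import Vale.Agent.H78.FramedAlg
import Vale.Agent.H78.FramedComm

namespace Vale.Agent.H78.Framed

open MvPolynomial

variable (g w : ℕ)

/-- the nodes m_j in the base ring -/
noncomputable def mB : Fin w → Bas g w := fun j => X (Sum.inr j)

/-- the loop weights eps_i in the base ring -/
noncomputable def eB : Fin g → Bas g w := fun i => X (Sum.inl i)

/-- torus parameters as bivariate polynomials: phi0 is the inner, phi1 the outer variable -/
noncomputable def toBi : Par g w →ₐ[ℂ] Polynomial (Polynomial (Bas g w)) :=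
  aeval (Sum.elim (fun c => cond c Polynomial.X (Polynomial.C Polynomial.X))
    (fun k => Polynomial.C (Polynomial.C (X k))))

/-- back from bivariate polynomials -/
noncomputable def ofBi : Polynomial (Polynomial (Bas g w)) →+* Par g w :=
  Polynomial.eval₂RingHom
    (Polynomial.eval₂RingHom (rename Sum.inr : Bas g w →ₐ[ℂ] Par g w).toRingHom
      (X (Sum.inl false)))
    (X (Sum.inl true))

theorem ofBi_toBi (f : Par g w) : ofBi g w (toBi g w f) = f := by
  have h : (ofBi g w).comp (toBi g w).toRingHom = RingHom.id (Par g w) := by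
    apply MvPolynomial.ringHom_ext
    · intro r
      simp [ofBi, toBi]
    · intro n
      rcases n with n | k
      · cases n
        · simp [ofBi, toBi]
        · simp [ofBi, toBi]
      · simp [ofBi, toBi]
  exact congrArg (fun φ => φ f) h

theorem pt_eq (a b : Bas g w) (f : Par g w) :
    pt g w a b f = (toBi g w f).evalEval a b := by
  have h : (Polynomial.evalEvalRingHom a b).comp (toBi g w).toRingHom
      = (pt g w a b).toRingHom := by
    apply MvPolynomial.ringHom_ext
    · intro r
      simp [toBi, pt]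
    · intro n
      rcases n with n | k
      · cases n
        · simp [toBi, pt]
        · simp [toBi, pt]
      · simp [toBi, pt]
  exact (congrArg (fun φ => φ f) h).symm

noncomputable def PA : Par g w := ∏ j : Fin w, (X (Sum.inl false) - X (Sum.inr (Sum.inr j)))
noncomputable def PB : Par g w := ∏ j : Fin w, (X (Sum.inl true) - X (Sum.inr (Sum.inr j)))
noncomputable def Qm : Par g w := ∏ i : Fin g,
  ((X (Sum.inl true) - (X (Sum.inl false) + X (Sum.inr (Sum.inl i)))) *
    (X (Sum.inl true) - (X (Sum.inl false) - X (Sum.inr (Sum.inl i)))))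

theorem ofBi_P0 : ofBi g w (FramedComm.P0 (mB g w)) = PA g w := by
  simp [ofBi, FramedComm.P0, FramedComm.PXm, PA, mB]

theorem ofBi_P1 : ofBi g w (FramedComm.P1 (mB g w)) = PB g w := by
  simp [ofBi, FramedComm.P1, FramedComm.PXm, PB, mB, Polynomial.map_prod]

theorem ofBi_Qloop : ofBi g w (FramedComm.Qloop (eB g w)) = Qm g w := by
  simp [ofBi, FramedComm.Qloop, Qm, eB]

theorem ofBi_YX : ofBi g w (FramedComm.YX (Bas g w)) = X (Sum.inl true) - X (Sum.inl false) := by
  simp [ofBi, FramedComm.YX]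

theorem rho_inj (j : Fin w) : Function.Injective (FramedComm.rho (mB g w) (eB g w) j) := by
  intro t t' h
  have hev := congrArg (aeval (Sum.elim (fun _ => (1 : ℂ)) (fun _ => (0 : ℂ))) :
    Bas g w →ₐ[ℂ] ℂ) h
  rcases t with k | i | i <;> rcases t' with k' | i' | i'
  · simp only [FramedComm.rho, Sum.elim_inl, mB] at h
    have h2 := X_injective h
    rw [Sum.inr.injEq] at h2
    rw [h2]
  · exfalso
    simp [FramedComm.rho, mB, eB] at hev
  · exfalso
    simp [FramedComm.rho, mB, eB] at hev
  · exfalso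
    simp [FramedComm.rho, mB, eB] at hev
  · simp only [FramedComm.rho, Sum.elim_inr, mB, eB] at h
    have h2 := X_injective (add_left_cancel h)
    rw [Sum.inl.injEq] at h2
    rw [h2]
  · exfalso
    simp [FramedComm.rho, mB, eB] at hev
    norm_num at hev
  · exfalso
    simp [FramedComm.rho, mB, eB] at hev
  · exfalso
    simp [FramedComm.rho, mB, eB] at hev
    norm_num at hev
  · simp only [FramedComm.rho, Sum.elim_inr, mB, eB] at h
    have h2 := X_injective (sub_right_injective h)
    rw [Sum.inl.injEq] at h2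
    rw [h2]

theorem fixedPt_comm (a b : Bas g w) (f : Par g w) : fixedPt g w a b f = fixedPt g w b a f := by
  unfold fixedPt
  rw [add_comm a b, mul_comm a b]

theorem span3 {R : Type*} [CommRing R] (a b c x : R) :
    x ∈ Ideal.span ({a, b, c} : Set R) ↔ ∃ u v z, x = u * a + v * b + z * c := by
  rw [Ideal.mem_span_insert]
  constructor
  · rintro ⟨u, y, hy, rfl⟩
    obtain ⟨v, z, rfl⟩ := Ideal.mem_span_pair.mp hy
    exact ⟨u, v, z, by ring⟩
  · rintro ⟨u, v, z, rfl⟩
    exact ⟨u, v * b + z * c, Ideal.mem_span_pair.mpr ⟨v, z, rfl⟩, by ring⟩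

theorem Pn0_eq : Pn0 g w = (-1) ^ w * PA g w := by
  have h : Pn0 g w = ∏ j : Fin w, -(X (Sum.inl false) - X (Sum.inr (Sum.inr j)) : Par g w) := by
    unfold Pn0
    refine Finset.prod_congr rfl (fun j _ => ?_)
    ring
  rw [h, Finset.prod_neg, Finset.card_univ, Fintype.card_fin, PA]

theorem Pn1_eq : Pn1 g w = (-1) ^ w * PB g w := by
  have h : Pn1 g w = ∏ j : Fin w, -(X (Sum.inl true) - X (Sum.inr (Sum.inr j)) : Par g w) := by
    unfold Pn1
    refine Finset.prod_congr rfl (fun j _ => ?_)
    ring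
  rw [h, Finset.prod_neg, Finset.card_univ, Fintype.card_fin, PB]

theorem PP_eq : pPlus g w * pMinus g w = (-1) ^ g * Qm g w := by
  have h : pPlus g w * pMinus g w = ∏ i : Fin g,
      -((X (Sum.inl true) - (X (Sum.inl false) + X (Sum.inr (Sum.inl i)))) *
        (X (Sum.inl true) - (X (Sum.inl false) - X (Sum.inr (Sum.inl i)))) : Par g w) := by
    unfold pPlus pMinus
    rw [← Finset.prod_mul_distrib]
    refine Finset.prod_congr rfl (fun i _ => ?_)
    ring
  rw [h, Finset.prod_neg, Finset.card_univ, Fintype.card_fin, Qm]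

/-- convert the ideal of the commutative algebra lemma into the ideal of the three relations -/
theorem span_convert (Gp : Par g w)
    (hGp : (X (Sum.inl true) - X (Sum.inl false)) * Gp = PB g w - PA g w) (F : Par g w)
    (hF : F ∈ Ideal.span ({PA g w * PB g w, Qm g w * Gp, Qm g w * PA g w} : Set (Par g w))) :
    ∃ Gn : Par g w, rootD g w * Gn = Pn0 g w - Pn1 g w ∧
      F ∈ Ideal.span ({Pn0 g w * Pn1 g w, Gn * (pPlus g w * pMinus g w),
        (Pn0 g w + phi1 g w * Gn) * (pPlus g w * pMinus g w)} : Set (Par g w)) := by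
  rw [span3] at hF
  obtain ⟨c1, c2, c3, rfl⟩ := hF
  refine ⟨(-1) ^ w * Gp, ?_, ?_⟩
  · rw [Pn0_eq, Pn1_eq]
    linear_combination (-((-1 : Par g w) ^ w)) * hGp
  · rw [span3, Pn0_eq, Pn1_eq, PP_eq]
    rcases neg_one_pow_eq_or (Par g w) w with hu | hu <;>
      rcases neg_one_pow_eq_or (Par g w) g with hv | hv
    · rw [hu, hv]
      exact ⟨c1, c2 - c3 * X (Sum.inl true), c3, by ring⟩
    · rw [hu, hv]
      exact ⟨c1, -(c2 - c3 * X (Sum.inl true)), -c3, by ring⟩
    · rw [hu, hv]
      exact ⟨c1, -(c2 - c3 * X (Sum.inl true)), -c3, by ring⟩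
    · rw [hu, hv]
      exact ⟨c1, c2 - c3 * X (Sum.inl true), c3, by ring⟩

/-- the vanishing ideal of the fixed points is generated by the three relations -/
theorem span_of_vanish (F : Par g w)
    (hF : ∀ (j : Fin w) (t : Fin w ⊕ (Fin g ⊕ Fin g)), t ≠ Sum.inl j →
      pt g w (mB g w j) (FramedComm.rho (mB g w) (eB g w) j t) F = 0)
    (hF' : ∀ (j : Fin w) (t : Fin w ⊕ (Fin g ⊕ Fin g)), t ≠ Sum.inl j →
      pt g w (FramedComm.rho (mB g w) (eB g w) j t) (mB g w j) F = 0) :
    ∃ Gn : Par g w, rootD g w * Gn = Pn0 g w - Pn1 g w ∧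
      F ∈ Ideal.span ({Pn0 g w * Pn1 g w, Gn * (pPlus g w * pMinus g w),
        (Pn0 g w + phi1 g w * Gn) * (pPlus g w * pMinus g w)} : Set (Par g w)) := by
  obtain ⟨G, hG⟩ := FramedComm.exists_G (mB g w)
  have he : ∀ i, eB g w i ≠ 0 := fun i => X_ne_zero _
  have h := FramedComm.main_abs (mB g w) (eB g w) (rho_inj g w) he G hG (toBi g w F)
    (fun j t ht => by rw [← pt_eq]; exact hF j t ht)
    (fun j t ht => by rw [← pt_eq]; exact hF' j t ht)
  rw [span3] at h
  obtain ⟨u, v, z, huvz⟩ := h
  have h2 := congrArg (ofBi g w) huvz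
  rw [ofBi_toBi, map_add, map_add, map_mul, map_mul, map_mul, map_mul, map_mul, map_mul,
    ofBi_P0, ofBi_P1, ofBi_Qloop] at h2
  have h3 : (X (Sum.inl true) - X (Sum.inl false)) * ofBi g w G = PB g w - PA g w := by
    have h4 := congrArg (ofBi g w) hG
    rw [map_mul, ofBi_YX] at h4
    rw [h4, ← ofBi_P0, ← ofBi_P1]
    exact map_sub (ofBi g w) _ _
  exact span_convert g w (ofBi g w G) h3 F ((span3 _ _ _ _).mpr ⟨_, _, _, h2⟩)

/-- the model-level equivariant Hikita statement for the quiver with one vertex, g loops,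
gauge rank 2 and framing rank w -/
theorem hikita_framed :
    (∀ a : coulomb g w, ∃ f : Par g w, a - inclC g w f ∈ charged g w) ∧
    (∀ f : Par g w, inclC g w f ∈ charged g w ↔
      (∀ j k : Fin w, j ≠ k → fixedPt g w (X (Sum.inr j)) (X (Sum.inr k)) f = 0) ∧
      (∀ (j : Fin w) (i : Fin g),
        fixedPt g w (X (Sum.inr j)) (X (Sum.inr j) + X (Sum.inl i)) f = 0 ∧
        fixedPt g w (X (Sum.inr j)) (X (Sum.inr j) - X (Sum.inl i)) f = 0)) := by
  refine ⟨surj g w, fun f => ⟨fun hf => ⟨?_, ?_⟩, fun hf => ?_⟩⟩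
  · intro j k hjk
    refine ker_sub g w _ _ ?_ (pt_cocyc_mul_neg g w _ _ ⟨j, rfl⟩ (Or.inl ⟨k, rfl⟩)) f hf
    intro h
    have h2 := X_injective h
    rw [Sum.inr.injEq] at h2
    exact hjk h2
  · intro j i
    constructor
    · refine ker_sub g w _ _ ?_
        (pt_cocyc_mul_neg g w _ _ ⟨j, rfl⟩ (Or.inr (Or.inl ⟨i, rfl⟩))) f hf
      intro h
      have h2 : (X (Sum.inl i) : Bas g w) = 0 := by
        have h3 : (X (Sum.inr j) : Bas g w) + 0 = X (Sum.inr j) + X (Sum.inl i) := by
          rw [add_zero]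
          exact h
        exact (add_left_cancel h3).symm
      exact X_ne_zero _ h2
    · refine ker_sub g w _ _ ?_
        (pt_cocyc_mul_neg g w _ _ ⟨j, rfl⟩ (Or.inr (Or.inr ⟨i, rfl⟩))) f hf
      intro h
      have h2 : (X (Sum.inl i) : Bas g w) = 0 := by
        have h3 : (X (Sum.inr j) : Bas g w) - 0 = X (Sum.inr j) - X (Sum.inl i) := by
          rw [sub_zero]
          exact h
        exact (sub_right_injective h3).symm
      exact X_ne_zero _ h2
  · obtain ⟨h1, h2⟩ := hf
    have key : ∀ (j : Fin w) (t : Fin w ⊕ (Fin g ⊕ Fin g)), t ≠ Sum.inl j →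
        fixedPt g w (mB g w j) (FramedComm.rho (mB g w) (eB g w) j t) f = 0 := by
      intro j t ht
      rcases t with k | i | i
      · have hjk : j ≠ k := by
          intro hjk
          exact ht (by rw [hjk])
        exact h1 j k hjk
      · exact (h2 j i).1
      · exact (h2 j i).2
    obtain ⟨Gn, hGn, hspan⟩ := span_of_vanish g w (chern g w f)
      (fun j t ht => by rw [pt_chern]; exact key j t ht)
      (fun j t ht => by rw [pt_chern, fixedPt_comm]; exact key j t ht)
    exact mem_of_span g w Gn hGn f hspan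

end Vale.Agent.H78.Framed
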