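import Vale.Agent.H78.HikitaDefs

namespace Vale.Agent.H78.Hikita

open MvPolynomial AddMonoidAlgebra

variable (g : ℕ)

/-- Chern classes in terms of Chern roots -/
noncomputable def chern (g : ℕ) : MvPolynomial (Bool ⊕ Fin g) ℂ →ₐ[ℂ] MvPolynomial (Bool ⊕ Fin g) ℂ :=
  aeval (Sum.elim
    (fun b => cond b (X (Sum.inl false) * X (Sum.inl true))
      (X (Sum.inl false) + X (Sum.inl true)))
    (fun i => X (Sum.inr i)))

theorem rootD_mul_dinv : algebraMap (MvPolynomial (Bool ⊕ Fin g) ℂ) (Localization.Away (X (Sum.inl false) - X (Sum.inl true) : MvPolynomial (Bool ⊕ Fin g) ℂ)) (X (Sum.inl false) - X (Sum.inl true) : MvPolynomial (Bool ⊕ Fin g) ℂ) * dinv g = 1 :=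
  IsLocalization.Away.mul_invSelf (X (Sum.inl false) - X (Sum.inl true) : MvPolynomial (Bool ⊕ Fin g) ℂ)

theorem incl_apply (f : (MvPolynomial (Bool ⊕ Fin g) ℂ)) :
    incl g f = AddMonoidAlgebra.single 0 (algebraMap (MvPolynomial (Bool ⊕ Fin g) ℂ) (Localization.Away (X (Sum.inl false) - X (Sum.inl true) : MvPolynomial (Bool ⊕ Fin g) ℂ)) (chern g f)) := by
  rfl

/-- P⁺ = ∏ (phi0 - phi1 + eps_i) -/
noncomputable def pPlus : (MvPolynomial (Bool ⊕ Fin g) ℂ) := ∏ i : Fin g, ((X (Sum.inl false) : MvPolynomial (Bool ⊕ Fin g) ℂ) - (X (Sum.inl true) : MvPolynomial (Bool ⊕ Fin g) ℂ) + (X (Sum.inr i) : MvPolynomial (Bool ⊕ Fin g) ℂ))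

/-- P⁻ = ∏ (phi1 - phi0 + eps_i) -/
noncomputable def pMinus : (MvPolynomial (Bool ⊕ Fin g) ℂ) := ∏ i : Fin g, ((X (Sum.inl true) : MvPolynomial (Bool ⊕ Fin g) ℂ) - (X (Sum.inl false) : MvPolynomial (Bool ⊕ Fin g) ℂ) + (X (Sum.inr i) : MvPolynomial (Bool ⊕ Fin g) ℂ))

theorem cocyc_10 : cocyc g (1, 0) = -(X (Sum.inl false) : MvPolynomial (Bool ⊕ Fin g) ℂ) * pMinus g := by
  simp [cocyc, pMinus]

theorem cocyc_01 : cocyc g (0, 1) = -(X (Sum.inl true) : MvPolynomial (Bool ⊕ Fin g) ℂ) * pPlus g := by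
  simp [cocyc, pPlus]

theorem cocyc_m10 : cocyc g (-1, 0) = pPlus g := by
  simp [cocyc, pPlus]

theorem cocyc_0m1 : cocyc g (0, -1) = pMinus g := by
  simp [cocyc, pMinus]

theorem cocyc_11 : cocyc g (1, 1) = (X (Sum.inl false) : MvPolynomial (Bool ⊕ Fin g) ℂ) * (X (Sum.inl true) : MvPolynomial (Bool ⊕ Fin g) ℂ) := by
  simp [cocyc]

theorem cocyc_m1m1 : cocyc g (-1, -1) = 1 := by
  simp [cocyc]

theorem cocyc_zero : cocyc g 0 = 1 := by
  simp [cocyc]

/-- auxiliary: constants -/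
noncomputable def cst (u : (MvPolynomial (Bool ⊕ Fin g) ℂ)) : (AddMonoidAlgebra (Localization.Away (X (Sum.inl false) - X (Sum.inl true) : MvPolynomial (Bool ⊕ Fin g) ℂ)) (ℤ × ℤ)) := single 0 (algebraMap (MvPolynomial (Bool ⊕ Fin g) ℂ) (Localization.Away (X (Sum.inl false) - X (Sum.inl true) : MvPolynomial (Bool ⊕ Fin g) ℂ)) u)

noncomputable def xE1 : (AddMonoidAlgebra (Localization.Away (X (Sum.inl false) - X (Sum.inl true) : MvPolynomial (Bool ⊕ Fin g) ℂ)) (ℤ × ℤ)) := single (1, 0) (algebraMap (MvPolynomial (Bool ⊕ Fin g) ℂ) (Localization.Away (X (Sum.inl false) - X (Sum.inl true) : MvPolynomial (Bool ⊕ Fin g) ℂ)) (cocyc g (1, 0)) * dinv g)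
noncomputable def xE2 : (AddMonoidAlgebra (Localization.Away (X (Sum.inl false) - X (Sum.inl true) : MvPolynomial (Bool ⊕ Fin g) ℂ)) (ℤ × ℤ)) := single (0, 1) (algebraMap (MvPolynomial (Bool ⊕ Fin g) ℂ) (Localization.Away (X (Sum.inl false) - X (Sum.inl true) : MvPolynomial (Bool ⊕ Fin g) ℂ)) (cocyc g (0, 1)) * dinv g)
noncomputable def xF1 : (AddMonoidAlgebra (Localization.Away (X (Sum.inl false) - X (Sum.inl true) : MvPolynomial (Bool ⊕ Fin g) ℂ)) (ℤ × ℤ)) := single (-1, 0) (algebraMap (MvPolynomial (Bool ⊕ Fin g) ℂ) (Localization.Away (X (Sum.inl false) - X (Sum.inl true) : MvPolynomial (Bool ⊕ Fin g) ℂ)) (cocyc g (-1, 0)) * dinv g)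
noncomputable def xF2 : (AddMonoidAlgebra (Localization.Away (X (Sum.inl false) - X (Sum.inl true) : MvPolynomial (Bool ⊕ Fin g) ℂ)) (ℤ × ℤ)) := single (0, -1) (algebraMap (MvPolynomial (Bool ⊕ Fin g) ℂ) (Localization.Away (X (Sum.inl false) - X (Sum.inl true) : MvPolynomial (Bool ⊕ Fin g) ℂ)) (cocyc g (0, -1)) * dinv g)

theorem cst_mul (u v : (MvPolynomial (Bool ⊕ Fin g) ℂ)) : cst g (u * v) = cst g u * cst g v := by
  simp [cst, single_mul_single]

theorem cst_pow (u : (MvPolynomial (Bool ⊕ Fin g) ℂ)) (n : ℕ) : cst g (u ^ n) = cst g u ^ n := by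
  simp [cst, single_pow]

theorem opE_eq (n : ℕ) : opE g n = cst g ((X (Sum.inl false) : MvPolynomial (Bool ⊕ Fin g) ℂ)) ^ n * xE1 g - cst g ((X (Sum.inl true) : MvPolynomial (Bool ⊕ Fin g) ℂ)) ^ n * xE2 g := by
  simp only [opE, xE1, xE2, cst, single_pow, single_mul_single, map_mul, map_pow]
  simp [mul_assoc]

theorem opF_eq (n : ℕ) : opF g n = cst g ((X (Sum.inl true) : MvPolynomial (Bool ⊕ Fin g) ℂ)) ^ n * xF2 g - cst g ((X (Sum.inl false) : MvPolynomial (Bool ⊕ Fin g) ℂ)) ^ n * xF1 g := by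
  simp only [opF, xF1, xF2, cst, single_pow, single_mul_single, map_mul, map_pow]
  simp [mul_assoc]

theorem xE1_mul_xF1 : xE1 g * xF1 g = cst g (-(X (Sum.inl false) : MvPolynomial (Bool ⊕ Fin g) ℂ) * (pPlus g * pMinus g)) * single 0 (dinv g * dinv g) := by
  simp only [xE1, xF1, cst, single_mul_single, cocyc_10, cocyc_m10, map_mul, map_neg]
  congr 1
  ring

theorem xE2_mul_xF2 : xE2 g * xF2 g = cst g (-(X (Sum.inl true) : MvPolynomial (Bool ⊕ Fin g) ℂ) * (pPlus g * pMinus g)) * single 0 (dinv g * dinv g) := by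
  simp only [xE2, xF2, cst, single_mul_single, cocyc_01, cocyc_0m1, map_mul, map_neg]
  congr 1
  ring

theorem key_identity :
    cst g ((X (Sum.inl false) : MvPolynomial (Bool ⊕ Fin g) ℂ) + (X (Sum.inl true) : MvPolynomial (Bool ⊕ Fin g) ℂ)) * (opE g 0 * opF g 0) - opE g 1 * opF g 0 - opE g 0 * opF g 1
      = - cst g (pPlus g * pMinus g) := by
  have h1 : cst g ((X (Sum.inl false) : MvPolynomial (Bool ⊕ Fin g) ℂ) + (X (Sum.inl true) : MvPolynomial (Bool ⊕ Fin g) ℂ)) = cst g ((X (Sum.inl false) : MvPolynomial (Bool ⊕ Fin g) ℂ)) + cst g ((X (Sum.inl true) : MvPolynomial (Bool ⊕ Fin g) ℂ)) := by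
    simp [cst, single_add]
  rw [opE_eq, opE_eq, opF_eq, opF_eq, h1]
  have h2 : (cst g ((X (Sum.inl false) : MvPolynomial (Bool ⊕ Fin g) ℂ)) + cst g ((X (Sum.inl true) : MvPolynomial (Bool ⊕ Fin g) ℂ))) *
        ((cst g ((X (Sum.inl false) : MvPolynomial (Bool ⊕ Fin g) ℂ)) ^ 0 * xE1 g - cst g ((X (Sum.inl true) : MvPolynomial (Bool ⊕ Fin g) ℂ)) ^ 0 * xE2 g) *
          (cst g ((X (Sum.inl true) : MvPolynomial (Bool ⊕ Fin g) ℂ)) ^ 0 * xF2 g - cst g ((X (Sum.inl false) : MvPolynomial (Bool ⊕ Fin g) ℂ)) ^ 0 * xF1 g)) -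
      (cst g ((X (Sum.inl false) : MvPolynomial (Bool ⊕ Fin g) ℂ)) ^ 1 * xE1 g - cst g ((X (Sum.inl true) : MvPolynomial (Bool ⊕ Fin g) ℂ)) ^ 1 * xE2 g) *
        (cst g ((X (Sum.inl true) : MvPolynomial (Bool ⊕ Fin g) ℂ)) ^ 0 * xF2 g - cst g ((X (Sum.inl false) : MvPolynomial (Bool ⊕ Fin g) ℂ)) ^ 0 * xF1 g) -
      (cst g ((X (Sum.inl false) : MvPolynomial (Bool ⊕ Fin g) ℂ)) ^ 0 * xE1 g - cst g ((X (Sum.inl true) : MvPolynomial (Bool ⊕ Fin g) ℂ)) ^ 0 * xE2 g) *
        (cst g ((X (Sum.inl true) : MvPolynomial (Bool ⊕ Fin g) ℂ)) ^ 1 * xF2 g - cst g ((X (Sum.inl false) : MvPolynomial (Bool ⊕ Fin g) ℂ)) ^ 1 * xF1 g)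
      = (cst g ((X (Sum.inl false) : MvPolynomial (Bool ⊕ Fin g) ℂ)) - cst g ((X (Sum.inl true) : MvPolynomial (Bool ⊕ Fin g) ℂ))) * (xE1 g * xF1 g - xE2 g * xF2 g) := by ring
  rw [h2, xE1_mul_xF1, xE2_mul_xF2]
  have h3 : cst g ((X (Sum.inl false) : MvPolynomial (Bool ⊕ Fin g) ℂ)) - cst g ((X (Sum.inl true) : MvPolynomial (Bool ⊕ Fin g) ℂ)) = cst g (X (Sum.inl false) - X (Sum.inl true) : MvPolynomial (Bool ⊕ Fin g) ℂ) := by
    simp [cst, single_sub]
  have h4 : cst g (-(X (Sum.inl false) : MvPolynomial (Bool ⊕ Fin g) ℂ) * (pPlus g * pMinus g)) * single 0 (dinv g * dinv g) -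
      cst g (-(X (Sum.inl true) : MvPolynomial (Bool ⊕ Fin g) ℂ) * (pPlus g * pMinus g)) * single 0 (dinv g * dinv g)
      = - (cst g (X (Sum.inl false) - X (Sum.inl true) : MvPolynomial (Bool ⊕ Fin g) ℂ) * cst g (pPlus g * pMinus g) * single 0 (dinv g * dinv g)) := by
    simp only [cst, single_mul_single, map_mul, map_neg, map_sub, ← single_sub, ← single_neg]
    congr 1
    ring
  rw [h3, h4]
  have h5 : cst g (X (Sum.inl false) - X (Sum.inl true) : MvPolynomial (Bool ⊕ Fin g) ℂ) * single 0 (dinv g) = 1 := by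
    simp only [cst, single_mul_single, rootD_mul_dinv]
    simp [AddMonoidAlgebra.one_def]
  have h6 : (single 0 (dinv g * dinv g) : (AddMonoidAlgebra (Localization.Away (X (Sum.inl false) - X (Sum.inl true) : MvPolynomial (Bool ⊕ Fin g) ℂ)) (ℤ × ℤ))) = single 0 (dinv g) * single 0 (dinv g) := by
    simp [single_mul_single]
  rw [h6]
  calc cst g (X (Sum.inl false) - X (Sum.inl true) : MvPolynomial (Bool ⊕ Fin g) ℂ) * -(cst g (X (Sum.inl false) - X (Sum.inl true) : MvPolynomial (Bool ⊕ Fin g) ℂ) * cst g (pPlus g * pMinus g) * (single 0 (dinv g) * single 0 (dinv g)))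
      = - ((cst g (X (Sum.inl false) - X (Sum.inl true) : MvPolynomial (Bool ⊕ Fin g) ℂ) * single 0 (dinv g)) * (cst g (X (Sum.inl false) - X (Sum.inl true) : MvPolynomial (Bool ⊕ Fin g) ℂ) * single 0 (dinv g)) * cst g (pPlus g * pMinus g)) := by ring
    _ = - cst g (pPlus g * pMinus g) := by rw [h5]; ring

theorem incl_eq_cst (f : (MvPolynomial (Bool ⊕ Fin g) ℂ)) : incl g f = cst g (chern g f) := incl_apply g f

theorem mono_mul_mono : mono g (1, 1) * mono g (-1, -1) = cst g ((X (Sum.inl false) : MvPolynomial (Bool ⊕ Fin g) ℂ) * (X (Sum.inl true) : MvPolynomial (Bool ⊕ Fin g) ℂ)) := by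
  simp [mono, cst, single_mul_single, cocyc_11, cocyc_m1m1]
  rfl

/-- The polynomial Q = ∏ (eps_i^2 - c1^2 + 4 c2) in R. -/
noncomputable def qPoly : (MvPolynomial (Bool ⊕ Fin g) ℂ) := ∏ i : Fin g, (X (Sum.inr i) ^ 2 - X (Sum.inl false) ^ 2 + 4 * X (Sum.inl true))

theorem chern_c1 : chern g (X (Sum.inl false)) = (X (Sum.inl false) : MvPolynomial (Bool ⊕ Fin g) ℂ) + (X (Sum.inl true) : MvPolynomial (Bool ⊕ Fin g) ℂ) := by
  simp [chern]

theorem chern_c2 : chern g (X (Sum.inl true)) = (X (Sum.inl false) : MvPolynomial (Bool ⊕ Fin g) ℂ) * (X (Sum.inl true) : MvPolynomial (Bool ⊕ Fin g) ℂ) := by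
  simp [chern]

theorem chern_eps (i : Fin g) : chern g (X (Sum.inr i)) = (X (Sum.inr i) : MvPolynomial (Bool ⊕ Fin g) ℂ) := by
  simp [chern]

theorem chern_qPoly : chern g (qPoly g) = pPlus g * pMinus g := by
  simp only [qPoly, map_prod, map_add, map_sub, map_mul, map_pow, chern_c1, chern_c2, chern_eps,
    pPlus, pMinus, ← Finset.prod_mul_distrib]
  refine Finset.prod_congr rfl (fun i _ => ?_)
  have : chern g 4 = 4 := map_ofNat (chern g) 4
  rw [this]
  ring

theorem incl_c2 : incl g (X (Sum.inl true)) = mono g (1, 1) * mono g (-1, -1) := by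
  rw [incl_eq_cst, chern_c2, mono_mul_mono]

theorem incl_qPoly : incl g (qPoly g) =
    opE g 1 * opF g 0 + opE g 0 * opF g 1 - incl g (X (Sum.inl false)) * (opE g 0 * opF g 0) := by
  have h := key_identity g
  rw [incl_eq_cst, incl_eq_cst, chern_qPoly, chern_c1]
  have : cst g (pPlus g * pMinus g) = - (- cst g (pPlus g * pMinus g)) := by ring
  rw [this, ← h]
  ring

theorem opE_mem0 : opE g 0 ∈ coulomb g := Algebra.subset_adjoin (Or.inr (by simp))
theorem opE_mem1 : opE g 1 ∈ coulomb g := Algebra.subset_adjoin (Or.inr (by simp))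
theorem opF_mem0 : opF g 0 ∈ coulomb g := Algebra.subset_adjoin (Or.inr (by simp))
theorem opF_mem1 : opF g 1 ∈ coulomb g := Algebra.subset_adjoin (Or.inr (by simp))
theorem mono_mem11 : mono g (1, 1) ∈ coulomb g := Algebra.subset_adjoin (Or.inr (by simp))
theorem mono_memm1m1 : mono g (-1, -1) ∈ coulomb g := Algebra.subset_adjoin (Or.inr (by simp))

theorem supp_single (l : ℤ × ℤ) (r : (Localization.Away (X (Sum.inl false) - X (Sum.inl true) : MvPolynomial (Bool ⊕ Fin g) ℂ))) (l' : ℤ × ℤ)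
    (h : l' ∈ (single l r : (AddMonoidAlgebra (Localization.Away (X (Sum.inl false) - X (Sum.inl true) : MvPolynomial (Bool ⊕ Fin g) ℂ)) (ℤ × ℤ))).coeff.support) : l' = l := by
  rw [coeff_single] at h
  exact Finset.mem_singleton.mp (Finsupp.support_single_subset h)

theorem supp_single_sub (l1 l2 : ℤ × ℤ) (r1 r2 : (Localization.Away (X (Sum.inl false) - X (Sum.inl true) : MvPolynomial (Bool ⊕ Fin g) ℂ))) (l' : ℤ × ℤ)
    (h : l' ∈ (single l1 r1 - single l2 r2 : (AddMonoidAlgebra (Localization.Away (X (Sum.inl false) - X (Sum.inl true) : MvPolynomial (Bool ⊕ Fin g) ℂ)) (ℤ × ℤ))).coeff.support) : l' = l1 ∨ l' = l2 := by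
  rw [AddMonoidAlgebra.coeff_sub] at h
  have h2 := Finsupp.support_sub h
  rcases Finset.mem_union.mp h2 with h3 | h3
  · exact Or.inl (supp_single g _ _ _ h3)
  · exact Or.inr (supp_single g _ _ _ h3)

theorem opE_charge (n : ℕ) (l : ℤ × ℤ) (h : l ∈ (opE g n).coeff.support) : l.1 + l.2 = 1 := by
  rcases supp_single_sub g _ _ _ _ l h with h | h <;> simp [h]

theorem opF_charge (n : ℕ) (l : ℤ × ℤ) (h : l ∈ (opF g n).coeff.support) : l.1 + l.2 = -1 := by
  rcases supp_single_sub g _ _ _ _ l h with h | h <;> simp [h]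

theorem mono_charge (m : ℤ × ℤ) (l : ℤ × ℤ) (h : l ∈ (mono g m).coeff.support) :
    l.1 + l.2 = m.1 + m.2 := by
  rw [supp_single g _ _ _ h]

theorem gen_mem (x : (AddMonoidAlgebra (Localization.Away (X (Sum.inl false) - X (Sum.inl true) : MvPolynomial (Bool ⊕ Fin g) ℂ)) (ℤ × ℤ))) (hx : x ∈ coulomb g) (k : ℤ) (hk : k ≠ 0)
    (h : ∀ l ∈ x.coeff.support, l.1 + l.2 = k) : (⟨x, hx⟩ : coulomb g) ∈ charged g :=
  Ideal.subset_span ⟨k, hk, h⟩

theorem inclC_zero : inclC g 0 = 0 := by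
  apply Subtype.ext
  simp [inclC]

theorem inclC_add (f h : (MvPolynomial (Bool ⊕ Fin g) ℂ)) : inclC g (f + h) = inclC g f + inclC g h := by
  apply Subtype.ext
  simp [inclC]

theorem inclC_mul (f h : (MvPolynomial (Bool ⊕ Fin g) ℂ)) : inclC g (f * h) = inclC g f * inclC g h := by
  apply Subtype.ext
  simp [inclC]

theorem surj_aux (x : (AddMonoidAlgebra (Localization.Away (X (Sum.inl false) - X (Sum.inl true) : MvPolynomial (Bool ⊕ Fin g) ℂ)) (ℤ × ℤ))) (hx : x ∈ coulomb g) :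
    ∃ f : (MvPolynomial (Bool ⊕ Fin g) ℂ), (⟨x, hx⟩ : coulomb g) - inclC g f ∈ charged g := by
  induction hx using Algebra.adjoin_induction with
  | mem x hx =>
    rcases hx with ⟨f, rfl⟩ | hx
    · refine ⟨f, ?_⟩
      have h0 : (⟨incl g f, Algebra.subset_adjoin (Or.inl ⟨f, rfl⟩)⟩ : coulomb g) - inclC g f = 0 :=
        Subtype.ext (sub_self (incl g f))
      rw [h0]
      exact Ideal.zero_mem _
    · refine ⟨0, ?_⟩
      have h0 : (⟨x, Algebra.subset_adjoin (Or.inr hx)⟩ : coulomb g) - inclC g 0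
          = ⟨x, Algebra.subset_adjoin (Or.inr hx)⟩ := by
        rw [inclC_zero]
        exact Subtype.ext (sub_zero x)
      rw [h0]
      simp only [Set.mem_insert_iff, Set.mem_singleton_iff] at hx
      rcases hx with rfl | rfl | rfl | rfl | rfl | rfl
      · exact gen_mem g _ _ 1 (by norm_num) (opE_charge g 0)
      · exact gen_mem g _ _ 1 (by norm_num) (opE_charge g 1)
      · exact gen_mem g _ _ (-1) (by norm_num) (opF_charge g 0)
      · exact gen_mem g _ _ (-1) (by norm_num) (opF_charge g 1)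
      · exact gen_mem g _ _ 2 (by norm_num) (fun l h => by rw [mono_charge g _ l h]; norm_num)
      · exact gen_mem g _ _ (-2) (by norm_num) (fun l h => by rw [mono_charge g _ l h]; norm_num)
  | algebraMap r =>
    refine ⟨C r, ?_⟩
    have : (⟨algebraMap ℂ (AddMonoidAlgebra (Localization.Away (X (Sum.inl false) - X (Sum.inl true) : MvPolynomial (Bool ⊕ Fin g) ℂ)) (ℤ × ℤ)) r, Subalgebra.algebraMap_mem _ r⟩ : coulomb g) = inclC g (C r) := by
      apply Subtype.ext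
      simp only [inclC]
      rw [← MvPolynomial.algebraMap_eq, AlgHom.commutes]
    rw [this]
    have h0 : inclC g (C r) - inclC g (C r) = 0 := Subtype.ext (sub_self (incl g (C r)))
    rw [h0]
    exact Ideal.zero_mem _
  | add x y hx hy ihx ihy =>
    obtain ⟨f, hf⟩ := ihx
    obtain ⟨h, hh⟩ := ihy
    refine ⟨f + h, ?_⟩
    have : (⟨x + y, Subalgebra.add_mem _ hx hy⟩ : coulomb g) - inclC g (f + h)
        = ((⟨x, hx⟩ : coulomb g) - inclC g f) + ((⟨y, hy⟩ : coulomb g) - inclC g h) := by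
      rw [inclC_add]
      apply Subtype.ext
      simp only [Subalgebra.coe_sub, Subalgebra.coe_add]
      ring
    rw [this]
    exact Ideal.add_mem _ hf hh
  | mul x y hx hy ihx ihy =>
    obtain ⟨f, hf⟩ := ihx
    obtain ⟨h, hh⟩ := ihy
    refine ⟨f * h, ?_⟩
    have : (⟨x * y, Subalgebra.mul_mem _ hx hy⟩ : coulomb g) - inclC g (f * h)
        = (⟨x, hx⟩ : coulomb g) * ((⟨y, hy⟩ : coulomb g) - inclC g h)
          + inclC g h * ((⟨x, hx⟩ : coulomb g) - inclC g f) := by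
      rw [inclC_mul]
      apply Subtype.ext
      simp only [Subalgebra.coe_sub, Subalgebra.coe_add, Subalgebra.coe_mul]
      ring
    rw [this]
    exact Ideal.add_mem _ (Ideal.mul_mem_left _ _ hh) (Ideal.mul_mem_left _ _ hf)

theorem surj (a : coulomb g) : ∃ f : (MvPolynomial (Bool ⊕ Fin g) ℂ), a - inclC g f ∈ charged g :=
  surj_aux g a.1 a.2

theorem c2_mem : inclC g (X (Sum.inl true)) ∈ charged g := by
  have h : inclC g (X (Sum.inl true)) =
      (⟨mono g (1, 1), mono_mem11 g⟩ : coulomb g) * ⟨mono g (-1, -1), mono_memm1m1 g⟩ :=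
    Subtype.ext (incl_c2 g)
  rw [h]
  exact Ideal.mul_mem_right _ _
    (gen_mem g _ _ 2 (by norm_num) (fun l h => by rw [mono_charge g _ l h]; norm_num))

theorem q_mem : inclC g (qPoly g) ∈ charged g := by
  have h : inclC g (qPoly g) =
      (⟨opE g 1, opE_mem1 g⟩ : coulomb g) * ⟨opF g 0, opF_mem0 g⟩
        + (⟨opE g 0, opE_mem0 g⟩ : coulomb g) * ⟨opF g 1, opF_mem1 g⟩
        + inclC g (-X (Sum.inl false)) * ((⟨opE g 0, opE_mem0 g⟩ : coulomb g) * ⟨opF g 0, opF_mem0 g⟩) := by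
    apply Subtype.ext
    simp only [Subalgebra.coe_add, Subalgebra.coe_mul]
    have h1 : ((inclC g (-X (Sum.inl false)) : coulomb g) : (AddMonoidAlgebra (Localization.Away (X (Sum.inl false) - X (Sum.inl true) : MvPolynomial (Bool ⊕ Fin g) ℂ)) (ℤ × ℤ))) = - incl g (X (Sum.inl false)) := by
      simp [inclC]
    have h2 : ((inclC g (qPoly g) : coulomb g) : (AddMonoidAlgebra (Localization.Away (X (Sum.inl false) - X (Sum.inl true) : MvPolynomial (Bool ⊕ Fin g) ℂ)) (ℤ × ℤ))) = incl g (qPoly g) := rfl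
    rw [h1, h2, incl_qPoly]
    ring
  rw [h]
  have hE0 : (⟨opE g 0, opE_mem0 g⟩ : coulomb g) ∈ charged g :=
    gen_mem g _ _ 1 (by norm_num) (opE_charge g 0)
  have hE1 : (⟨opE g 1, opE_mem1 g⟩ : coulomb g) ∈ charged g :=
    gen_mem g _ _ 1 (by norm_num) (opE_charge g 1)
  exact Ideal.add_mem _ (Ideal.add_mem _ (Ideal.mul_mem_right _ _ hE1) (Ideal.mul_mem_right _ _ hE0))
    (Ideal.mul_mem_left _ _ (Ideal.mul_mem_right _ _ hE0))

/-- every element of the ideal (c2, Q) of R maps into the charged ideal -/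
theorem span_mem (f : (MvPolynomial (Bool ⊕ Fin g) ℂ)) (hf : f ∈ Ideal.span ({X (Sum.inl true), qPoly g} : Set (MvPolynomial (Bool ⊕ Fin g) ℂ))) :
    inclC g f ∈ charged g := by
  rw [Ideal.mem_span_pair] at hf
  obtain ⟨a, b, rfl⟩ := hf
  rw [inclC_add, inclC_mul, inclC_mul]
  exact Ideal.add_mem _ (Ideal.mul_mem_left _ _ (c2_mem g)) (Ideal.mul_mem_left _ _ (q_mem g))

/-- coefficientwise divisibility by the cocycle -/
def Good (x : (AddMonoidAlgebra (Localization.Away (X (Sum.inl false) - X (Sum.inl true) : MvPolynomial (Bool ⊕ Fin g) ℂ)) (ℤ × ℤ))) : Prop := ∀ l, algebraMap (MvPolynomial (Bool ⊕ Fin g) ℂ) (Localization.Away (X (Sum.inl false) - X (Sum.inl true) : MvPolynomial (Bool ⊕ Fin g) ℂ)) (cocyc g l) ∣ x.coeff l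

theorem cocyc_dvd (l m : ℤ × ℤ) : cocyc g (l + m) ∣ cocyc g l * cocyc g m := by
  have key : ∀ (x : (MvPolynomial (Bool ⊕ Fin g) ℂ)) (a b : ℤ), x ^ (a + b).toNat ∣ x ^ a.toNat * x ^ b.toNat := by
    intro x a b
    rw [← pow_add]
    exact pow_dvd_pow x (by omega)
  unfold cocyc
  have e1 : (-(X (Sum.inl false) : MvPolynomial (Bool ⊕ Fin g) ℂ)) ^ l.1.toNat * (-(X (Sum.inl true) : MvPolynomial (Bool ⊕ Fin g) ℂ)) ^ l.2.toNat *
        (∏ i : Fin g, (((X (Sum.inl false) : MvPolynomial (Bool ⊕ Fin g) ℂ) - (X (Sum.inl true) : MvPolynomial (Bool ⊕ Fin g) ℂ) + (X (Sum.inr i) : MvPolynomial (Bool ⊕ Fin g) ℂ)) ^ (l.2 - l.1).toNat *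
          ((X (Sum.inl true) : MvPolynomial (Bool ⊕ Fin g) ℂ) - (X (Sum.inl false) : MvPolynomial (Bool ⊕ Fin g) ℂ) + (X (Sum.inr i) : MvPolynomial (Bool ⊕ Fin g) ℂ)) ^ (l.1 - l.2).toNat)) *
      ((-(X (Sum.inl false) : MvPolynomial (Bool ⊕ Fin g) ℂ)) ^ m.1.toNat * (-(X (Sum.inl true) : MvPolynomial (Bool ⊕ Fin g) ℂ)) ^ m.2.toNat *
        ∏ i : Fin g, (((X (Sum.inl false) : MvPolynomial (Bool ⊕ Fin g) ℂ) - (X (Sum.inl true) : MvPolynomial (Bool ⊕ Fin g) ℂ) + (X (Sum.inr i) : MvPolynomial (Bool ⊕ Fin g) ℂ)) ^ (m.2 - m.1).toNat *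
          ((X (Sum.inl true) : MvPolynomial (Bool ⊕ Fin g) ℂ) - (X (Sum.inl false) : MvPolynomial (Bool ⊕ Fin g) ℂ) + (X (Sum.inr i) : MvPolynomial (Bool ⊕ Fin g) ℂ)) ^ (m.1 - m.2).toNat))
      = ((-(X (Sum.inl false) : MvPolynomial (Bool ⊕ Fin g) ℂ)) ^ l.1.toNat * (-(X (Sum.inl false) : MvPolynomial (Bool ⊕ Fin g) ℂ)) ^ m.1.toNat) *
        ((-(X (Sum.inl true) : MvPolynomial (Bool ⊕ Fin g) ℂ)) ^ l.2.toNat * (-(X (Sum.inl true) : MvPolynomial (Bool ⊕ Fin g) ℂ)) ^ m.2.toNat) *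
        ∏ i : Fin g, ((((X (Sum.inl false) : MvPolynomial (Bool ⊕ Fin g) ℂ) - (X (Sum.inl true) : MvPolynomial (Bool ⊕ Fin g) ℂ) + (X (Sum.inr i) : MvPolynomial (Bool ⊕ Fin g) ℂ)) ^ (l.2 - l.1).toNat *
            ((X (Sum.inl false) : MvPolynomial (Bool ⊕ Fin g) ℂ) - (X (Sum.inl true) : MvPolynomial (Bool ⊕ Fin g) ℂ) + (X (Sum.inr i) : MvPolynomial (Bool ⊕ Fin g) ℂ)) ^ (m.2 - m.1).toNat) *
          (((X (Sum.inl true) : MvPolynomial (Bool ⊕ Fin g) ℂ) - (X (Sum.inl false) : MvPolynomial (Bool ⊕ Fin g) ℂ) + (X (Sum.inr i) : MvPolynomial (Bool ⊕ Fin g) ℂ)) ^ (l.1 - l.2).toNat *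
            ((X (Sum.inl true) : MvPolynomial (Bool ⊕ Fin g) ℂ) - (X (Sum.inl false) : MvPolynomial (Bool ⊕ Fin g) ℂ) + (X (Sum.inr i) : MvPolynomial (Bool ⊕ Fin g) ℂ)) ^ (m.1 - m.2).toNat)) := by
    rw [Finset.prod_mul_distrib, Finset.prod_mul_distrib, Finset.prod_mul_distrib,
      Finset.prod_mul_distrib, Finset.prod_mul_distrib]
    ring
  rw [e1]
  refine mul_dvd_mul (mul_dvd_mul ?_ ?_) (Finset.prod_dvd_prod_of_dvd _ _ (fun i _ => mul_dvd_mul ?_ ?_))
  · exact key _ _ _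
  · exact key _ _ _
  · have := key ((X (Sum.inl false) : MvPolynomial (Bool ⊕ Fin g) ℂ) - (X (Sum.inl true) : MvPolynomial (Bool ⊕ Fin g) ℂ) + (X (Sum.inr i) : MvPolynomial (Bool ⊕ Fin g) ℂ)) (l.2 - l.1) (m.2 - m.1)
    have e : (l + m).2 - (l + m).1 = (l.2 - l.1) + (m.2 - m.1) := by
      simp only [Prod.fst_add, Prod.snd_add]; ring
    rw [e]; exact this
  · have := key ((X (Sum.inl true) : MvPolynomial (Bool ⊕ Fin g) ℂ) - (X (Sum.inl false) : MvPolynomial (Bool ⊕ Fin g) ℂ) + (X (Sum.inr i) : MvPolynomial (Bool ⊕ Fin g) ℂ)) (l.1 - l.2) (m.1 - m.2)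
    have e : (l + m).1 - (l + m).2 = (l.1 - l.2) + (m.1 - m.2) := by
      simp only [Prod.fst_add, Prod.snd_add]; ring
    rw [e]; exact this

theorem good_add {x y : (AddMonoidAlgebra (Localization.Away (X (Sum.inl false) - X (Sum.inl true) : MvPolynomial (Bool ⊕ Fin g) ℂ)) (ℤ × ℤ))} (hx : Good g x) (hy : Good g y) : Good g (x + y) := by
  intro l
  rw [AddMonoidAlgebra.coeff_add, Finsupp.add_apply]
  exact dvd_add (hx l) (hy l)

theorem good_sub {x y : (AddMonoidAlgebra (Localization.Away (X (Sum.inl false) - X (Sum.inl true) : MvPolynomial (Bool ⊕ Fin g) ℂ)) (ℤ × ℤ))} (hx : Good g x) (hy : Good g y) : Good g (x - y) := by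
  intro l
  rw [AddMonoidAlgebra.coeff_sub, Finsupp.sub_apply]
  exact dvd_sub (hx l) (hy l)

theorem good_single (m : ℤ × ℤ) (b : (Localization.Away (X (Sum.inl false) - X (Sum.inl true) : MvPolynomial (Bool ⊕ Fin g) ℂ)))
    (hb : algebraMap (MvPolynomial (Bool ⊕ Fin g) ℂ) (Localization.Away (X (Sum.inl false) - X (Sum.inl true) : MvPolynomial (Bool ⊕ Fin g) ℂ)) (cocyc g m) ∣ b) : Good g (single m b) := by
  intro l
  rw [AddMonoidAlgebra.coeff_single, Finsupp.single_apply]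
  split_ifs with h
  · rw [← h]; exact hb
  · exact dvd_zero _

theorem good_mul {x y : (AddMonoidAlgebra (Localization.Away (X (Sum.inl false) - X (Sum.inl true) : MvPolynomial (Bool ⊕ Fin g) ℂ)) (ℤ × ℤ))} (hx : Good g x) (hy : Good g y) : Good g (x * y) := by
  intro l
  rw [AddMonoidAlgebra.coeff_mul_apply_left, Finsupp.sum]
  refine Finset.dvd_sum (fun h _ => ?_)
  have h1 := hx h
  have h2 := hy (-h + l)
  have h3 : algebraMap (MvPolynomial (Bool ⊕ Fin g) ℂ) (Localization.Away (X (Sum.inl false) - X (Sum.inl true) : MvPolynomial (Bool ⊕ Fin g) ℂ)) (cocyc g l) ∣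
      algebraMap (MvPolynomial (Bool ⊕ Fin g) ℂ) (Localization.Away (X (Sum.inl false) - X (Sum.inl true) : MvPolynomial (Bool ⊕ Fin g) ℂ)) (cocyc g h) * algebraMap (MvPolynomial (Bool ⊕ Fin g) ℂ) (Localization.Away (X (Sum.inl false) - X (Sum.inl true) : MvPolynomial (Bool ⊕ Fin g) ℂ)) (cocyc g (-h + l)) := by
    rw [← map_mul]
    have := cocyc_dvd g h (-h + l)
    rw [show h + (-h + l) = l by abel] at this
    exact map_dvd _ this
  exact dvd_trans h3 (mul_dvd_mul h1 h2)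

theorem dvd_aux (u c : (MvPolynomial (Bool ⊕ Fin g) ℂ)) (d : (Localization.Away (X (Sum.inl false) - X (Sum.inl true) : MvPolynomial (Bool ⊕ Fin g) ℂ))) :
    algebraMap (MvPolynomial (Bool ⊕ Fin g) ℂ) (Localization.Away (X (Sum.inl false) - X (Sum.inl true) : MvPolynomial (Bool ⊕ Fin g) ℂ)) c ∣ algebraMap (MvPolynomial (Bool ⊕ Fin g) ℂ) (Localization.Away (X (Sum.inl false) - X (Sum.inl true) : MvPolynomial (Bool ⊕ Fin g) ℂ)) (u * c) * d :=
  ⟨algebraMap (MvPolynomial (Bool ⊕ Fin g) ℂ) (Localization.Away (X (Sum.inl false) - X (Sum.inl true) : MvPolynomial (Bool ⊕ Fin g) ℂ)) u * d, by rw [map_mul]; ring⟩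

theorem good_opE (n : ℕ) : Good g (opE g n) := by
  unfold opE
  exact good_sub g (good_single g _ _ (dvd_aux g _ _ _)) (good_single g _ _ (dvd_aux g _ _ _))

theorem good_opF (n : ℕ) : Good g (opF g n) := by
  unfold opF
  exact good_sub g (good_single g _ _ (dvd_aux g _ _ _)) (good_single g _ _ (dvd_aux g _ _ _))

theorem good_mono (m : ℤ × ℤ) : Good g (mono g m) := by
  unfold mono
  exact good_single g _ _ (dvd_refl _)

theorem good_cst (u : (MvPolynomial (Bool ⊕ Fin g) ℂ)) : Good g (cst g u) := by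
  unfold cst
  exact good_single g 0 _ (by rw [cocyc_zero, map_one]; exact one_dvd _)

theorem good_of_mem {x : (AddMonoidAlgebra (Localization.Away (X (Sum.inl false) - X (Sum.inl true) : MvPolynomial (Bool ⊕ Fin g) ℂ)) (ℤ × ℤ))} (hx : x ∈ coulomb g) : Good g x := by
  induction hx using Algebra.adjoin_induction with
  | mem x hx =>
    rcases hx with ⟨f, rfl⟩ | hx
    · rw [incl_eq_cst]
      exact good_cst g _
    · simp only [Set.mem_insert_iff, Set.mem_singleton_iff] at hx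
      rcases hx with rfl | rfl | rfl | rfl | rfl | rfl
      · exact good_opE g 0
      · exact good_opE g 1
      · exact good_opF g 0
      · exact good_opF g 1
      · exact good_mono g _
      · exact good_mono g _
  | algebraMap r =>
    have : algebraMap ℂ (AddMonoidAlgebra (Localization.Away (X (Sum.inl false) - X (Sum.inl true) : MvPolynomial (Bool ⊕ Fin g) ℂ)) (ℤ × ℤ)) r = incl g (C r) := by
      rw [← MvPolynomial.algebraMap_eq, AlgHom.commutes]
    rw [this, incl_eq_cst]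
    exact good_cst g _
  | add x y _ _ ihx ihy => exact good_add g ihx ihy
  | mul x y _ _ ihx ihy => exact good_mul g ihx ihy

/-- the field of rational functions in the flavour parameters -/
abbrev KF (g : ℕ) : Type := FractionRing (MvPolynomial (Fin g) ℂ)

/-- evaluation of torus parameters at the fixed point (phi0, phi1) = (0, s * eps_i) -/
noncomputable def pt0 (i : Fin g) (s : ℂ) : (MvPolynomial (Bool ⊕ Fin g) ℂ) →ₐ[ℂ] MvPolynomial (Fin g) ℂ :=
  aeval (Sum.elim (fun b => cond b (C s * X i) 0) X)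

theorem pt0_phi0 (i : Fin g) (s : ℂ) : pt0 g i s ((X (Sum.inl false) : MvPolynomial (Bool ⊕ Fin g) ℂ)) = 0 := by
  simp [pt0]

theorem pt0_phi1 (i : Fin g) (s : ℂ) : pt0 g i s ((X (Sum.inl true) : MvPolynomial (Bool ⊕ Fin g) ℂ)) = C s * X i := by
  simp [pt0]

theorem pt0_eps (i : Fin g) (s : ℂ) (k : Fin g) : pt0 g i s ((X (Sum.inr k) : MvPolynomial (Bool ⊕ Fin g) ℂ)) = X k := by
  simp [pt0]

theorem pt0_rootD (i : Fin g) (s : ℂ) : pt0 g i s (X (Sum.inl false) - X (Sum.inl true) : MvPolynomial (Bool ⊕ Fin g) ℂ) = - (C s * X i) := by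
  simp [pt0_phi0, pt0_phi1]

theorem pt0_cocyc (i : Fin g) (s : ℂ) (l : ℤ × ℤ) :
    pt0 g i s (cocyc g l) = (-0) ^ l.1.toNat * (-(C s * X i)) ^ l.2.toNat *
      ∏ k : Fin g, ((0 - C s * X i + X k) ^ (l.2 - l.1).toNat *
        (C s * X i - 0 + X k) ^ (l.1 - l.2).toNat) := by
  simp only [cocyc, map_mul, map_pow, map_neg, map_prod, map_add, map_sub, pt0_phi0, pt0_phi1,
    pt0_eps]

theorem pt0_cocyc_zero (i : Fin g) (s : ℂ) (l : ℤ × ℤ)
    (h : 0 < l.1 ∨ (s = 1 ∧ 0 < l.2 - l.1) ∨ (s = -1 ∧ 0 < l.1 - l.2)) :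
    pt0 g i s (cocyc g l) = 0 := by
  rw [pt0_cocyc]
  rcases h with h | ⟨hs, h⟩ | ⟨hs, h⟩
  · have : l.1.toNat ≠ 0 := by omega
    simp [this]
  · have hn : (l.2 - l.1).toNat ≠ 0 := by omega
    have : ∏ k : Fin g, ((0 - C s * X i + X k) ^ (l.2 - l.1).toNat *
        (C s * X i - 0 + X k) ^ (l.1 - l.2).toNat) = 0 := by
      apply Finset.prod_eq_zero (Finset.mem_univ i)
      simp [hs, hn]
    rw [this, mul_zero]
  · have hn : (l.1 - l.2).toNat ≠ 0 := by omega
    have : ∏ k : Fin g, ((0 - C s * X i + X k) ^ (l.2 - l.1).toNat *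
        (C s * X i - 0 + X k) ^ (l.1 - l.2).toNat) = 0 := by
      apply Finset.prod_eq_zero (Finset.mem_univ i)
      simp [hs, hn]
    rw [this, mul_zero]

theorem pt0_cocyc_mul_neg (i : Fin g) (s : ℂ) (hs : s = 1 ∨ s = -1) (l : ℤ × ℤ) (hl : l ≠ 0) :
    pt0 g i s (cocyc g l * cocyc g (-l)) = 0 := by
  rw [map_mul]
  have hl' : l.1 ≠ 0 ∨ l.2 ≠ 0 := by
    by_contra hcon
    rw [not_or, not_not, not_not] at hcon
    exact hl (Prod.ext hcon.1 hcon.2)
  by_cases h1 : 0 < l.1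
  · rw [pt0_cocyc_zero g i s l (Or.inl h1), zero_mul]
  by_cases h2 : l.1 < 0
  · rw [pt0_cocyc_zero g i s (-l) (Or.inl (by simp; exact h2)), mul_zero]
  have h3 : l.1 = 0 := by omega
  have h4 : l.2 ≠ 0 := by
    rcases hl' with h | h
    · exact absurd h3 h
    · exact h
  rcases hs with hs | hs
  · by_cases h5 : 0 < l.2
    · rw [pt0_cocyc_zero g i s l (Or.inr (Or.inl ⟨hs, by omega⟩)), zero_mul]
    · rw [pt0_cocyc_zero g i s (-l) (Or.inr (Or.inl ⟨hs, by simp; omega⟩)), mul_zero]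
  · by_cases h5 : 0 < l.2
    · rw [pt0_cocyc_zero g i s (-l) (Or.inr (Or.inr ⟨hs, by simp; omega⟩)), mul_zero]
    · rw [pt0_cocyc_zero g i s l (Or.inr (Or.inr ⟨hs, by omega⟩)), zero_mul]

theorem pt0_rootD_unit (i : Fin g) (s : ℂ) (hs : s ≠ 0) :
    IsUnit (((algebraMap (MvPolynomial (Fin g) ℂ) (KF g)).comp (pt0 g i s).toRingHom) (X (Sum.inl false) - X (Sum.inl true) : MvPolynomial (Bool ⊕ Fin g) ℂ)) := by
  apply IsUnit.mk0
  simp only [RingHom.coe_comp, Function.comp_apply, AlgHom.toRingHom_eq_coe, RingHom.coe_coe]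
  rw [pt0_rootD]
  intro h
  have h2 : -(C s * X i : MvPolynomial (Fin g) ℂ) = 0 :=
    (IsFractionRing.injective (MvPolynomial (Fin g) ℂ) (KF g)) (by rw [h, map_zero])
  rw [neg_eq_zero, mul_eq_zero] at h2
  rcases h2 with h2 | h2
  · exact hs (by simpa using h2)
  · exact X_ne_zero i h2

/-- evaluation of coefficients at the fixed point -/
noncomputable def evK (i : Fin g) (s : ℂ) (hs : s ≠ 0) : (Localization.Away (X (Sum.inl false) - X (Sum.inl true) : MvPolynomial (Bool ⊕ Fin g) ℂ)) →+* KF g :=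
  IsLocalization.Away.lift (X (Sum.inl false) - X (Sum.inl true) : MvPolynomial (Bool ⊕ Fin g) ℂ) (pt0_rootD_unit g i s hs)

theorem evK_algebraMap (i : Fin g) (s : ℂ) (hs : s ≠ 0) (u : (MvPolynomial (Bool ⊕ Fin g) ℂ)) :
    evK g i s hs (algebraMap (MvPolynomial (Bool ⊕ Fin g) ℂ) (Localization.Away (X (Sum.inl false) - X (Sum.inl true) : MvPolynomial (Bool ⊕ Fin g) ℂ)) u)
      = algebraMap (MvPolynomial (Fin g) ℂ) (KF g) (pt0 g i s u) := by
  unfold evK
  rw [IsLocalization.Away.lift_eq]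
  rfl

theorem chi_mul (i : Fin g) (s : ℂ) (hs : s = 1 ∨ s = -1) (hs0 : s ≠ 0) (x y : (AddMonoidAlgebra (Localization.Away (X (Sum.inl false) - X (Sum.inl true) : MvPolynomial (Bool ⊕ Fin g) ℂ)) (ℤ × ℤ)))
    (hx : Good g x) (hy : Good g y) :
    evK g i s hs0 ((x * y).coeff 0) = evK g i s hs0 (x.coeff 0) * evK g i s hs0 (y.coeff 0) := by
  rw [AddMonoidAlgebra.coeff_mul_apply_left, Finsupp.sum, map_sum]
  rw [Finset.sum_eq_single 0]
  · rw [map_mul]; simp
  · intro h _ hne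
    obtain ⟨u, hu⟩ := hx h
    obtain ⟨v, hv⟩ := hy (-h + 0)
    rw [hu, hv, add_zero]
    have e : algebraMap (MvPolynomial (Bool ⊕ Fin g) ℂ) (Localization.Away (X (Sum.inl false) - X (Sum.inl true) : MvPolynomial (Bool ⊕ Fin g) ℂ)) (cocyc g h) * u * (algebraMap (MvPolynomial (Bool ⊕ Fin g) ℂ) (Localization.Away (X (Sum.inl false) - X (Sum.inl true) : MvPolynomial (Bool ⊕ Fin g) ℂ)) (cocyc g (-h)) * v)
        = algebraMap (MvPolynomial (Bool ⊕ Fin g) ℂ) (Localization.Away (X (Sum.inl false) - X (Sum.inl true) : MvPolynomial (Bool ⊕ Fin g) ℂ)) (cocyc g h * cocyc g (-h)) * (u * v) := by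
      rw [map_mul]; ring
    rw [e, map_mul, evK_algebraMap, pt0_cocyc_mul_neg g i s hs h hne, map_zero, zero_mul]
  · intro h0
    rw [Finsupp.notMem_support_iff] at h0
    rw [h0, zero_mul, map_zero]

theorem pt0_chern (i : Fin g) (s : ℂ) (f : (MvPolynomial (Bool ⊕ Fin g) ℂ)) : pt0 g i s (chern g f) = fixedPt g i s f := by
  have : (pt0 g i s).comp (chern g) = fixedPt g i s := by
    apply MvPolynomial.algHom_ext
    intro j
    rcases j with j | j
    · cases j
      · simp [chern, fixedPt, pt0_phi0, pt0_phi1]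
      · simp [chern, fixedPt, pt0_phi0, pt0_phi1]
    · simp [chern, fixedPt, pt0_eps]
  rw [← this]
  rfl

theorem ker_sub (i : Fin g) (s : ℂ) (hs : s = 1 ∨ s = -1) (f : (MvPolynomial (Bool ⊕ Fin g) ℂ))
    (hf : inclC g f ∈ charged g) : fixedPt g i s f = 0 := by
  have hs0 : s ≠ 0 := by
    rcases hs with rfl | rfl <;> norm_num
  have key : ∀ a : coulomb g, a ∈ charged g → evK g i s hs0 ((a : (AddMonoidAlgebra (Localization.Away (X (Sum.inl false) - X (Sum.inl true) : MvPolynomial (Bool ⊕ Fin g) ℂ)) (ℤ × ℤ))).coeff 0) = 0 := by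
    intro a ha
    unfold charged at ha
    induction ha using Submodule.span_induction with
    | mem x hx =>
      obtain ⟨k, hk, hx⟩ := hx
      have : (x : (AddMonoidAlgebra (Localization.Away (X (Sum.inl false) - X (Sum.inl true) : MvPolynomial (Bool ⊕ Fin g) ℂ)) (ℤ × ℤ))).coeff 0 = 0 := by
        by_contra hne
        have := hx 0 (Finsupp.mem_support_iff.mpr hne)
        simp at this
        exact hk this.symm
      rw [this, map_zero]
    | zero =>
      have : ((0 : coulomb g) : (AddMonoidAlgebra (Localization.Away (X (Sum.inl false) - X (Sum.inl true) : MvPolynomial (Bool ⊕ Fin g) ℂ)) (ℤ × ℤ))) = 0 := rfl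
      rw [this]
      simp
    | add x y _ _ ihx ihy =>
      have : ((x + y : coulomb g) : (AddMonoidAlgebra (Localization.Away (X (Sum.inl false) - X (Sum.inl true) : MvPolynomial (Bool ⊕ Fin g) ℂ)) (ℤ × ℤ))) = (x : (AddMonoidAlgebra (Localization.Away (X (Sum.inl false) - X (Sum.inl true) : MvPolynomial (Bool ⊕ Fin g) ℂ)) (ℤ × ℤ))) + (y : (AddMonoidAlgebra (Localization.Away (X (Sum.inl false) - X (Sum.inl true) : MvPolynomial (Bool ⊕ Fin g) ℂ)) (ℤ × ℤ))) := rfl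
      rw [this, AddMonoidAlgebra.coeff_add, Finsupp.add_apply, map_add, ihx, ihy, add_zero]
    | smul a x _ ih =>
      have : ((a • x : coulomb g) : (AddMonoidAlgebra (Localization.Away (X (Sum.inl false) - X (Sum.inl true) : MvPolynomial (Bool ⊕ Fin g) ℂ)) (ℤ × ℤ))) = (a : (AddMonoidAlgebra (Localization.Away (X (Sum.inl false) - X (Sum.inl true) : MvPolynomial (Bool ⊕ Fin g) ℂ)) (ℤ × ℤ))) * (x : (AddMonoidAlgebra (Localization.Away (X (Sum.inl false) - X (Sum.inl true) : MvPolynomial (Bool ⊕ Fin g) ℂ)) (ℤ × ℤ))) := rfl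
      rw [this, chi_mul g i s hs hs0 _ _ (good_of_mem g a.2) (good_of_mem g x.2), ih, mul_zero]
  have h1 := key _ hf
  have h2 : ((inclC g f : coulomb g) : (AddMonoidAlgebra (Localization.Away (X (Sum.inl false) - X (Sum.inl true) : MvPolynomial (Bool ⊕ Fin g) ℂ)) (ℤ × ℤ))) = incl g f := rfl
  rw [h2, incl_apply, AddMonoidAlgebra.coeff_single, Finsupp.single_eq_same, evK_algebraMap,
    pt0_chern] at h1
  exact (IsFractionRing.injective (MvPolynomial (Fin g) ℂ) (KF g)) (by rw [h1, map_zero])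

/-- set c2 = 0 -/
noncomputable def sig : (MvPolynomial (Bool ⊕ Fin g) ℂ) →ₐ[ℂ] (MvPolynomial (Bool ⊕ Fin g) ℂ) :=
  aeval (Sum.elim (fun b => cond b 0 (X (Sum.inl false))) (fun i => X (Sum.inr i)))

theorem sub_sig_mem (f : (MvPolynomial (Bool ⊕ Fin g) ℂ)) :
    f - sig g f ∈ Ideal.span ({X (Sum.inl true)} : Set (MvPolynomial (Bool ⊕ Fin g) ℂ)) := by
  have h : (Ideal.Quotient.mkₐ ℂ (Ideal.span ({X (Sum.inl true)} : Set (MvPolynomial (Bool ⊕ Fin g) ℂ)))).comp (sig g)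
      = Ideal.Quotient.mkₐ ℂ (Ideal.span ({X (Sum.inl true)} : Set (MvPolynomial (Bool ⊕ Fin g) ℂ))) := by
    apply MvPolynomial.algHom_ext
    intro j
    rcases j with j | j
    · cases j
      · simp [sig]
      · simp only [sig, AlgHom.comp_apply, aeval_X]
        simp
    · simp [sig]
  have h2 := congrArg (fun φ => φ f) h
  simp only [AlgHom.comp_apply] at h2
  rw [← Ideal.Quotient.eq_zero_iff_mem, map_sub]
  have h3 : (Ideal.Quotient.mk (Ideal.span ({X (Sum.inl true)} : Set (MvPolynomial (Bool ⊕ Fin g) ℂ)))) (sig g f)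
      = (Ideal.Quotient.mk (Ideal.span ({X (Sum.inl true)} : Set (MvPolynomial (Bool ⊕ Fin g) ℂ)))) f := h2
  rw [h3, sub_self]

/-- to univariate polynomials in c1 over C[eps], setting c2 = 0 -/
noncomputable def toUni : (MvPolynomial (Bool ⊕ Fin g) ℂ) →ₐ[ℂ] Polynomial (MvPolynomial (Fin g) ℂ) :=
  aeval (Sum.elim (fun b => cond b 0 Polynomial.X) (fun i => Polynomial.C (X i)))

/-- back from univariate polynomials -/
noncomputable def ofUni : Polynomial (MvPolynomial (Fin g) ℂ) →+* (MvPolynomial (Bool ⊕ Fin g) ℂ) :=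
  Polynomial.eval₂RingHom (rename Sum.inr : MvPolynomial (Fin g) ℂ →ₐ[ℂ] (MvPolynomial (Bool ⊕ Fin g) ℂ)).toRingHom
    (X (Sum.inl false))

theorem ofUni_toUni (f : (MvPolynomial (Bool ⊕ Fin g) ℂ)) : ofUni g (toUni g f) = sig g f := by
  have : (ofUni g).comp (toUni g).toRingHom = (sig g).toRingHom := by
    apply MvPolynomial.ringHom_ext
    · intro r
      simp [ofUni, toUni, sig]
    · intro j
      rcases j with j | j
      · cases j
        · simp [ofUni, toUni, sig]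
        · simp [ofUni, toUni, sig]
      · simp [ofUni, toUni, sig]
  exact congrArg (fun φ => φ f) this

theorem eval_toUni (i : Fin g) (s : ℂ) (f : (MvPolynomial (Bool ⊕ Fin g) ℂ)) :
    Polynomial.eval (C s * X i) (toUni g f) = fixedPt g i s f := by
  have : (Polynomial.evalRingHom (C s * X i : MvPolynomial (Fin g) ℂ)).comp (toUni g).toRingHom
      = (fixedPt g i s).toRingHom := by
    apply MvPolynomial.ringHom_ext
    · intro r
      simp [toUni, fixedPt]
    · intro j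
      rcases j with j | j
      · cases j
        · simp [toUni, fixedPt]
        · simp [toUni, fixedPt]
      · simp [toUni, fixedPt]
  exact congrArg (fun φ => φ f) this

theorem X_ne_neg_X (i j : Fin g) : (X i : MvPolynomial (Fin g) ℂ) ≠ - X j := by
  intro h
  have := congrArg (MvPolynomial.eval (fun _ => (1 : ℂ))) h
  simp at this
  norm_num at this

/-- the 2g roots ± eps_i -/
noncomputable def rootSet : Finset (MvPolynomial (Fin g) ℂ) :=
  (Finset.univ.image (fun i : Fin g => (X i : MvPolynomial (Fin g) ℂ))) ∪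
    (Finset.univ.image (fun i : Fin g => - (X i : MvPolynomial (Fin g) ℂ)))

theorem prod_rootSet (F : MvPolynomial (Fin g) ℂ → (MvPolynomial (Bool ⊕ Fin g) ℂ)) :
    ∏ a ∈ rootSet g, F a = (∏ i : Fin g, F (X i)) * (∏ i : Fin g, F (- X i)) := by
  unfold rootSet
  rw [Finset.prod_union, Finset.prod_image, Finset.prod_image]
  · intro i _ j _ h
    exact X_injective (neg_injective h)
  · intro i _ j _ h
    exact X_injective h
  · rw [Finset.disjoint_left]
    intro a h1 h2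
    obtain ⟨i, _, rfl⟩ := Finset.mem_image.mp h1
    obtain ⟨j, _, hj⟩ := Finset.mem_image.mp h2
    exact X_ne_neg_X g i j hj.symm

theorem sig_qPoly_dvd (f : (MvPolynomial (Bool ⊕ Fin g) ℂ))
    (hf : ∀ i, fixedPt g i 1 f = 0 ∧ fixedPt g i (-1) f = 0) : sig g (qPoly g) ∣ sig g f := by
  rw [← ofUni_toUni g f]
  by_cases h0 : toUni g f = 0
  · rw [h0, map_zero]; exact dvd_zero _
  have hroots : (rootSet g).val ≤ (toUni g f).roots := by
    rw [Multiset.le_iff_subset (rootSet g).nodup]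
    intro a ha
    rw [Polynomial.mem_roots h0, Polynomial.IsRoot]
    have ha' : a ∈ rootSet g := ha
    unfold rootSet at ha'
    rcases Finset.mem_union.mp ha' with h | h
    · obtain ⟨i, _, rfl⟩ := Finset.mem_image.mp h
      have := eval_toUni g i 1 f
      rw [map_one, one_mul] at this
      rw [this]; exact (hf i).1
    · obtain ⟨i, _, rfl⟩ := Finset.mem_image.mp h
      have := eval_toUni g i (-1) f
      rw [map_neg, map_one, neg_one_mul] at this
      rw [this]; exact (hf i).2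
  have hdvd := (Multiset.prod_X_sub_C_dvd_iff_le_roots h0 (rootSet g).val).mpr hroots
  have hdvd2 : ∏ a ∈ rootSet g, (Polynomial.X - Polynomial.C a) ∣ toUni g f := hdvd
  have hdvd3 := map_dvd (ofUni g) hdvd2
  refine dvd_trans ?_ hdvd3
  rw [map_prod, prod_rootSet g (fun a => ofUni g (Polynomial.X - Polynomial.C a)),
    ← Finset.prod_mul_distrib]
  unfold qPoly
  rw [map_prod]
  refine Finset.prod_dvd_prod_of_dvd _ _ (fun i _ => ?_)
  refine ⟨-1, ?_⟩
  have e1 : sig g (X (Sum.inr i) ^ 2 - X (Sum.inl false) ^ 2 + 4 * X (Sum.inl true))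
      = X (Sum.inr i) ^ 2 - X (Sum.inl false) ^ 2 := by
    simp [sig]
  have e2 : ofUni g (Polynomial.X - Polynomial.C (X i)) = X (Sum.inl false) - X (Sum.inr i) := by
    simp [ofUni]
  have e3 : ofUni g (Polynomial.X - Polynomial.C (- X i)) = X (Sum.inl false) + X (Sum.inr i) := by
    simp [ofUni]
  rw [e1, e2, e3]
  ring

theorem ca (f : (MvPolynomial (Bool ⊕ Fin g) ℂ)) (hf : ∀ i, fixedPt g i 1 f = 0 ∧ fixedPt g i (-1) f = 0) :
    f ∈ Ideal.span ({X (Sum.inl true), qPoly g} : Set (MvPolynomial (Bool ⊕ Fin g) ℂ)) := by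
  have hle : Ideal.span ({X (Sum.inl true)} : Set (MvPolynomial (Bool ⊕ Fin g) ℂ)) ≤
      Ideal.span ({X (Sum.inl true), qPoly g} : Set (MvPolynomial (Bool ⊕ Fin g) ℂ)) :=
    Ideal.span_mono (by simp)
  have h1 : f - sig g f ∈ Ideal.span ({X (Sum.inl true), qPoly g} : Set (MvPolynomial (Bool ⊕ Fin g) ℂ)) :=
    hle (sub_sig_mem g f)
  have h2 : sig g (qPoly g) ∈ Ideal.span ({X (Sum.inl true), qPoly g} : Set (MvPolynomial (Bool ⊕ Fin g) ℂ)) := by
    have h3 : qPoly g - sig g (qPoly g) ∈ Ideal.span ({X (Sum.inl true), qPoly g} : Set (MvPolynomial (Bool ⊕ Fin g) ℂ)) :=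
      hle (sub_sig_mem g (qPoly g))
    have h4 : qPoly g ∈ Ideal.span ({X (Sum.inl true), qPoly g} : Set (MvPolynomial (Bool ⊕ Fin g) ℂ)) :=
      Ideal.subset_span (by simp)
    have := Ideal.sub_mem _ h4 h3
    rwa [sub_sub_cancel] at this
  obtain ⟨q, hq⟩ := sig_qPoly_dvd g f hf
  have h5 : sig g f ∈ Ideal.span ({X (Sum.inl true), qPoly g} : Set (MvPolynomial (Bool ⊕ Fin g) ℂ)) := by
    rw [hq]; exact Ideal.mul_mem_right _ _ h2
  have := Ideal.add_mem _ h1 h5
  rwa [sub_add_cancel] at this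

end Vale.Agent.H78.Hikita
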