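import Mathlib

namespace Vale.Agent.H78.Hikita

open MvPolynomial

/-- The inverse of the root phi0 - phi1 of GL_2, in the ring of torus parameters
C[phi0, phi1, eps_1, .., eps_g] localized at the root
(variables: inl false = phi0, inl true = phi1, inr i = eps_i). -/
noncomputable def dinv (g : ℕ) :
    Localization.Away (X (Sum.inl false) - X (Sum.inl true) : MvPolynomial (Bool ⊕ Fin g) ℂ) :=
  IsLocalization.Away.invSelf (X (Sum.inl false) - X (Sum.inl true) : MvPolynomial (Bool ⊕ Fin g) ℂ)

/-- Cocycle factor of the abelian monopole operator of charge l: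
the product over the weights xi of N = gl_2^g + Hom(C^2, C) of xi ^ max(0, -<xi, l>);
the weights are -phi0, -phi1 and phi_a - phi_b + eps_i. -/
noncomputable def cocyc (g : ℕ) (l : ℤ × ℤ) : MvPolynomial (Bool ⊕ Fin g) ℂ :=
  (-X (Sum.inl false)) ^ l.1.toNat * (-X (Sum.inl true)) ^ l.2.toNat *
    ∏ i : Fin g, ((X (Sum.inl false) - X (Sum.inl true) + X (Sum.inr i)) ^ (l.2 - l.1).toNat *
      (X (Sum.inl true) - X (Sum.inl false) + X (Sum.inr i)) ^ (l.1 - l.2).toNat)

/-- The abelian monopole operator r^l, in the group algebra of the coweight lattice Z x Z. -/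
noncomputable def mono (g : ℕ) (l : ℤ × ℤ) :
    AddMonoidAlgebra
      (Localization.Away (X (Sum.inl false) - X (Sum.inl true) : MvPolynomial (Bool ⊕ Fin g) ℂ))
      (ℤ × ℤ) :=
  AddMonoidAlgebra.single l (algebraMap _ _ (cocyc g l))

/-- Dressed minuscule monopole operator of coweight (1,0) with dressing phi^n. -/
noncomputable def opE (g : ℕ) (n : ℕ) :
    AddMonoidAlgebra
      (Localization.Away (X (Sum.inl false) - X (Sum.inl true) : MvPolynomial (Bool ⊕ Fin g) ℂ))
      (ℤ × ℤ) :=
  AddMonoidAlgebra.single (1, 0)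
      (algebraMap _ _ (X (Sum.inl false) ^ n * cocyc g (1, 0)) * dinv g)
    - AddMonoidAlgebra.single (0, 1)
      (algebraMap _ _ (X (Sum.inl true) ^ n * cocyc g (0, 1)) * dinv g)

/-- Dressed minuscule monopole operator of coweight (0,-1) with dressing phi^n. -/
noncomputable def opF (g : ℕ) (n : ℕ) :
    AddMonoidAlgebra
      (Localization.Away (X (Sum.inl false) - X (Sum.inl true) : MvPolynomial (Bool ⊕ Fin g) ℂ))
      (ℤ × ℤ) :=
  AddMonoidAlgebra.single (0, -1)
      (algebraMap _ _ (X (Sum.inl true) ^ n * cocyc g (0, -1)) * dinv g)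
    - AddMonoidAlgebra.single (-1, 0)
      (algebraMap _ _ (X (Sum.inl false) ^ n * cocyc g (-1, 0)) * dinv g)

/-- The structure map from R = H^*_{G x F}(pt) = C[c1, c2, eps_1, .., eps_g]
(variables: inl false = c1, inl true = c2, inr i = eps_i): c1 goes to phi0 + phi1,
c2 to phi0 * phi1, and the result is placed in degree 0 of the group algebra. -/
noncomputable def incl (g : ℕ) : MvPolynomial (Bool ⊕ Fin g) ℂ →ₐ[ℂ]
    AddMonoidAlgebra
      (Localization.Away (X (Sum.inl false) - X (Sum.inl true) : MvPolynomial (Bool ⊕ Fin g) ℂ))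
      (ℤ × ℤ) :=
  AddMonoidAlgebra.singleZeroAlgHom.comp
    ((IsScalarTower.toAlgHom ℂ (MvPolynomial (Bool ⊕ Fin g) ℂ) _).comp
      (aeval (Sum.elim
        (fun b => cond b (X (Sum.inl false) * X (Sum.inl true))
          (X (Sum.inl false) + X (Sum.inl true)))
        (fun i => X (Sum.inr i)))))

/-- The (abelianized model of the) Coulomb branch algebra. -/
noncomputable def coulomb (g : ℕ) : Subalgebra ℂ
    (AddMonoidAlgebra
      (Localization.Away (X (Sum.inl false) - X (Sum.inl true) : MvPolynomial (Bool ⊕ Fin g) ℂ))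
      (ℤ × ℤ)) :=
  Algebra.adjoin ℂ (Set.range (incl g) ∪
    {opE g 0, opE g 1, opF g 0, opF g 1, mono g (1, 1), mono g (-1, -1)})

/-- The ideal generated by the elements of nonzero topological charge. -/
noncomputable def charged (g : ℕ) : Ideal (coulomb g) :=
  Ideal.span {a | ∃ k : ℤ, k ≠ 0 ∧ ∀ l ∈ a.1.coeff.support, l.1 + l.2 = k}

/-- Restriction to the torus fixed point with Chern roots (0, s * eps_i):
c1 goes to s * eps_i and c2 to 0. -/
noncomputable def fixedPt (g : ℕ) (i : Fin g) (s : ℂ) :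
    MvPolynomial (Bool ⊕ Fin g) ℂ →ₐ[ℂ] MvPolynomial (Fin g) ℂ :=
  aeval (Sum.elim (fun b => cond b 0 (C s * X i)) X)

theorem incl_mem (g : ℕ) (f : MvPolynomial (Bool ⊕ Fin g) ℂ) : incl g f ∈ coulomb g :=
  Algebra.subset_adjoin (Or.inl ⟨f, rfl⟩)

/-- The image of f : R in the Coulomb branch algebra. -/
noncomputable def inclC (g : ℕ) (f : MvPolynomial (Bool ⊕ Fin g) ℂ) : coulomb g :=
  ⟨incl g f, incl_mem g f⟩

end Vale.Agent.H78.Hikita
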