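import Vale.Agent.H12.LineSum
import Vale.Agent.H78.Fold

/-!
# Periodic tilings for direct sums of sets spanning at least a hyperplane

If `A ⊕ F 0 ⊕ ⋯ ⊕ F (k-1) = ℤ^d`, every `F i` has prime cardinality (or lies on a line), the
differences of every `F i` generate a subgroup of rank at least `d - 1`, and the differences of
any two factors together generate a subgroup of finite index, then there is a periodic tiling.
No condition on the mutual position of the spans (no common basis).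
-/

namespace Vale.Agent.H78.HyperSum

open Vale.Agent.H12.PrimeSum Vale.Agent.H78.Fold

theorem psub_one_eq {d : ℕ} (F : Finset (Fin d → ℤ)) :
    AddSubgroup.closure {x : Fin d → ℤ | ∃ f ∈ F, ∃ f' ∈ F, x = f - f'} =
      Psub 1 (↑F : Set (Fin d → ℤ)) := by
  have e : {x : Fin d → ℤ | ∃ f ∈ F, ∃ f' ∈ F, x = f - f'} =
      {x : Fin d → ℤ | ∃ f ∈ (↑F : Set (Fin d → ℤ)), ∃ f' ∈ (↑F : Set (Fin d → ℤ)),
        x = 1 • (f - f')} := by
    ext x; simp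
  rw [e]
  rfl

theorem hyper_family_periodic {d k : ℕ} (F : Fin k → Finset (Fin d → ℤ))
    (hF : ∀ i, (F i).card.Prime ∨ ∃ f₀ w : Fin d → ℤ, ∀ f ∈ F i, ∃ c : ℤ, f = f₀ + c • w)
    (hspan : ∀ i, ∃ (ℓ : (Fin d → ℤ) →+ ℤ) (w : Fin d → ℤ) (n : ℕ), ℓ w = 1 ∧ 0 < n ∧
      ∀ h : Fin d → ℤ, ℓ h = 0 →
        n • h ∈ AddSubgroup.closure {x : Fin d → ℤ | ∃ f ∈ F i, ∃ f' ∈ F i, x = f - f'})
    (hpair : ∀ i j, i ≠ j → ∃ n : ℕ, 0 < n ∧ ∀ v : Fin d → ℤ,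
      ∃ a ∈ AddSubgroup.closure {x : Fin d → ℤ | ∃ f ∈ F i, ∃ f' ∈ F i, x = f - f'},
      ∃ b ∈ AddSubgroup.closure {x : Fin d → ℤ | ∃ f ∈ F j, ∃ f' ∈ F j, x = f - f'},
        n • v = a + b)
    (A : Set (Fin d → ℤ))
    (hA : ∀ g : Fin d → ℤ, ∃! q : (Fin d → ℤ) × (Fin k → Fin d → ℤ),
      q.1 ∈ A ∧ (∀ i, q.2 i ∈ F i) ∧ q.1 + ∑ i, q.2 i = g) :
    ∃ (A' : Set (Fin d → ℤ)) (N : ℕ), 0 < N ∧
      (∀ g : Fin d → ℤ, ∃! q : (Fin d → ℤ) × (Fin k → Fin d → ℤ),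
        q.1 ∈ A' ∧ (∀ i, q.2 i ∈ F i) ∧ q.1 + ∑ i, q.2 i = g) ∧
      ∀ a ∈ A', ∀ v : Fin d → ℤ, a + N • v ∈ A' := by
  classical
  have htf : ∀ (n : ℤ) (w : Fin d → ℤ), n • w = 0 → n = 0 ∨ w = 0 :=
    fun _ _ h => smul_eq_zero.mp h
  choose μ hμ hrig using fun i => rigid_of_prime_or_line htf (F i) (hF i)
  obtain ⟨φ, hφ, h1, h2, -⟩ := coords_of_tiling F A hA
  -- invariance of the coordinate functions
  have hM : ∀ i g, ∀ m ∈ Psub (μ i) (↑(F i) : Set (Fin d → ℤ)), φ i (g + m) = φ i g := by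
    intro i
    refine coord_inv F φ hφ h1 i _ (fun B hB l hl b hb => ?_)
    refine hrig i B ⟨fun g => ⟨fun _ => ?_, fun _ => trivial⟩, fun a ha a' ha' g hf hf' => ?_⟩
      l hl b hb
    · obtain ⟨b0, ⟨hb0, hf0⟩, -⟩ := hB g
      exact ⟨b0, hb0, Finset.mem_coe.mpr hf0⟩
    · exact (hB g).unique ⟨ha, Finset.mem_coe.mp hf⟩ ⟨ha', Finset.mem_coe.mp hf'⟩
  choose ℓ w n hw hn hker using hspan
  choose np hnp hpr using hpair
  -- a common multiple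
  obtain ⟨N, hN, hN1, hN2⟩ : ∃ N : ℕ, 0 < N ∧ (∀ i, μ i * n i ∣ N) ∧
      (∀ i j (h : i ≠ j), μ i * μ j * np i j h ∣ N) := by
    refine ⟨(∏ i, μ i * n i) * ∏ i, ∏ j, (if h : i ≠ j then μ i * μ j * np i j h else 1),
      ?_, fun i => ?_, fun i j h => ?_⟩
    · refine Nat.mul_pos (Finset.prod_pos (fun i _ => Nat.mul_pos (hμ i) (hn i)))
        (Finset.prod_pos (fun i _ => Finset.prod_pos (fun j _ => ?_)))
      by_cases h : i ≠ j
      · rw [dif_pos h]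
        exact Nat.mul_pos (Nat.mul_pos (hμ i) (hμ j)) (hnp i j h)
      · rw [dif_neg h]
        exact Nat.one_pos
    · exact Dvd.dvd.mul_right
        (Finset.dvd_prod_of_mem (fun i => μ i * n i) (Finset.mem_univ i)) _
    · refine Dvd.dvd.mul_left ?_ _
      have d1 : (if h : i ≠ j then μ i * μ j * np i j h else 1) ∣
          ∏ j, (if h : i ≠ j then μ i * μ j * np i j h else 1) :=
        Finset.dvd_prod_of_mem (fun j => if h : i ≠ j then μ i * μ j * np i j h else 1)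
          (Finset.mem_univ j)
      have d2 : (∏ j, (if h : i ≠ j then μ i * μ j * np i j h else 1)) ∣
          ∏ i, ∏ j, (if h : i ≠ j then μ i * μ j * np i j h else 1) :=
        Finset.dvd_prod_of_mem
          (fun i => ∏ j, (if h : i ≠ j then μ i * μ j * np i j h else 1)) (Finset.mem_univ i)
      rw [dif_pos h] at d1
      exact d1.trans d2
  have hker' : ∀ i h, ℓ i h = 0 → (N : ℤ) • h ∈ Psub (μ i) (↑(F i) : Set (Fin d → ℤ)) := by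
    intro i h hh
    obtain ⟨c, hc⟩ := hN1 i
    have h0 := hker i h hh
    rw [psub_one_eq] at h0
    have h3 := mul_smul_mem_Psub c (μ i) (↑(F i) : Set (Fin d → ℤ)) h0
    have e : (N : ℤ) • h = (c * μ i) • n i • h := by
      rw [natCast_zsmul, hc, smul_smul]
      congr 1
      ring
    rw [e]
    exact h3
  have hpair' : ∀ i j, i ≠ j → ∀ v : Fin d → ℤ,
      ∃ a ∈ Psub (μ i) (↑(F i) : Set (Fin d → ℤ)),
      ∃ b ∈ Psub (μ j) (↑(F j) : Set (Fin d → ℤ)), (N : ℤ) • v = a + b := by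
    intro i j hij v
    obtain ⟨c, hc⟩ := hN2 i j hij
    obtain ⟨a, ha, b, hb, hab⟩ := hpr i j hij v
    rw [psub_one_eq] at ha hb
    refine ⟨(c * μ j * μ i) • a, mul_smul_mem_Psub (c * μ j) (μ i) _ ha,
      (c * μ i * μ j) • b, mul_smul_mem_Psub (c * μ i) (μ j) _ hb, ?_⟩
    have e : (N : ℤ) • v = (c * μ i * μ j) • np i j hij • v := by
      rw [natCast_zsmul, hc, smul_smul]
      congr 1
      ring
    rw [e, hab, smul_add]
    congr 1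
    congr 1
    ring
  obtain ⟨φ', P, hP, hφ', h1', h2', hper⟩ :=
    periodize F φ hφ h1 h2 (fun i => Psub (μ i) (↑(F i) : Set (Fin d → ℤ))) hM N hN ℓ w hw
      hker' hpair'
  refine ⟨{a : Fin d → ℤ | ∃ g0, a = g0 - ∑ i, φ' i g0}, P, hP,
    tiling_of_coords F φ' hφ' h1' h2', ?_⟩
  rintro a ⟨g0, rfl⟩ v
  refine ⟨g0 + (P : ℤ) • v, ?_⟩
  have : ∑ i, φ' i (g0 + (P : ℤ) • v) = ∑ i, φ' i g0 :=
    Finset.sum_congr rfl (fun i _ => hper i g0 v)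
  rw [this, natCast_zsmul]
  abel

/-- Two subgroups containing multiples of the kernels of two additive maps whose kernels are
not nested generate a subgroup of finite index. -/
theorem pair_index {d : ℕ} (ℓi ℓj : (Fin d → ℤ) →+ ℤ) (Ci Cj : AddSubgroup (Fin d → ℤ))
    (ni nj : ℕ) (hni : 0 < ni) (hnj : 0 < nj)
    (hi : ∀ h, ℓi h = 0 → ni • h ∈ Ci) (hj : ∀ h, ℓj h = 0 → nj • h ∈ Cj)
    (x : Fin d → ℤ) (hx : ℓi x = 0) (hx' : ℓj x ≠ 0) :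
    ∃ n : ℕ, 0 < n ∧ ∀ v : Fin d → ℤ, ∃ a ∈ Ci, ∃ b ∈ Cj, n • v = a + b := by
  obtain ⟨t, ht⟩ : ∃ t : ℤ, t = ℓj x := ⟨_, rfl⟩
  have ht0 : t ≠ 0 := by rw [ht]; exact hx'
  refine ⟨ni * nj * t.natAbs,
    Nat.mul_pos (Nat.mul_pos hni hnj) (Int.natAbs_pos.mpr ht0), fun v => ?_⟩
  have hv' : ℓj (t • v - ℓj v • x) = 0 := by
    rw [map_sub, map_zsmul, map_zsmul, smul_eq_mul, smul_eq_mul, ← ht]
    ring
  have hb0 : nj • (t • v - ℓj v • x) ∈ Cj := hj _ hv'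
  have ha0 : ni • x ∈ Ci := hi x hx
  rcases le_total 0 t with h | h
  · refine ⟨((nj : ℤ) * ℓj v) • (ni • x), Ci.zsmul_mem ha0 _,
      ni • (nj • (t • v - ℓj v • x)), Cj.nsmul_mem hb0 ni, ?_⟩
    simp only [← natCast_zsmul]
    push_cast
    rw [abs_of_nonneg h]
    module
  · refine ⟨(-((nj : ℤ) * ℓj v)) • (ni • x), Ci.zsmul_mem ha0 _,
      -(ni • (nj • (t • v - ℓj v • x))), Cj.neg_mem (Cj.nsmul_mem hb0 ni), ?_⟩
    simp only [← natCast_zsmul]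
    push_cast
    rw [abs_of_nonpos h]
    module

/-- **Periodic tilings for direct sums of sets each spanning at least a hyperplane.**  No
condition on the mutual position of the factors. -/
theorem hyper_family_periodic' {d k : ℕ} (F : Fin k → Finset (Fin d → ℤ))
    (hF : ∀ i, (F i).card.Prime ∨ ∃ f₀ w : Fin d → ℤ, ∀ f ∈ F i, ∃ c : ℤ, f = f₀ + c • w)
    (hspan : ∀ i, ∃ (ℓ : (Fin d → ℤ) →+ ℤ) (w : Fin d → ℤ) (n : ℕ), ℓ w = 1 ∧ 0 < n ∧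
      ∀ h : Fin d → ℤ, ℓ h = 0 →
        n • h ∈ AddSubgroup.closure {x : Fin d → ℤ | ∃ f ∈ F i, ∃ f' ∈ F i, x = f - f'})
    (A : Set (Fin d → ℤ))
    (hA : ∀ g : Fin d → ℤ, ∃! q : (Fin d → ℤ) × (Fin k → Fin d → ℤ),
      q.1 ∈ A ∧ (∀ i, q.2 i ∈ F i) ∧ q.1 + ∑ i, q.2 i = g) :
    ∃ (A' : Set (Fin d → ℤ)) (N : ℕ), 0 < N ∧
      (∀ g : Fin d → ℤ, ∃! q : (Fin d → ℤ) × (Fin k → Fin d → ℤ),
        q.1 ∈ A' ∧ (∀ i, q.2 i ∈ F i) ∧ q.1 + ∑ i, q.2 i = g) ∧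
      ∀ a ∈ A', ∀ v : Fin d → ℤ, a + N • v ∈ A' := by
  classical
  have htf : ∀ (n : ℤ) (w : Fin d → ℤ), n • w = 0 → n = 0 ∨ w = 0 :=
    fun _ _ h => smul_eq_zero.mp h
  choose μ hμ hrig using fun i => rigid_of_prime_or_line htf (F i) (hF i)
  obtain ⟨φ, hφ, h1, h2, -⟩ := coords_of_tiling F A hA
  have hM : ∀ i g, ∀ m ∈ Psub (μ i) (↑(F i) : Set (Fin d → ℤ)), φ i (g + m) = φ i g := by
    intro i
    refine coord_inv F φ hφ h1 i _ (fun B hB l hl b hb => ?_)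
    refine hrig i B ⟨fun g => ⟨fun _ => ?_, fun _ => trivial⟩, fun a ha a' ha' g hf hf' => ?_⟩
      l hl b hb
    · obtain ⟨b0, ⟨hb0, hf0⟩, -⟩ := hB g
      exact ⟨b0, hb0, Finset.mem_coe.mpr hf0⟩
    · exact (hB g).unique ⟨ha, Finset.mem_coe.mp hf⟩ ⟨ha', Finset.mem_coe.mp hf'⟩
  choose ℓ0 w0 n hw0 hn hker0 using hspan
  have hker1 : ∀ i h, ℓ0 i h = 0 → n i • h ∈ Psub 1 (↑(F i) : Set (Fin d → ℤ)) := by
    intro i h hh
    have h0 := hker0 i h hh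
    rw [psub_one_eq] at h0
    exact h0
  -- a pair `ℓ`, `w` chosen as a function of the kernel only
  have sel : ∀ K : AddSubgroup (Fin d → ℤ), ∃ p : ((Fin d → ℤ) →+ ℤ) × (Fin d → ℤ),
      (∃ ℓ' : (Fin d → ℤ) →+ ℤ, ∃ w' : Fin d → ℤ, ℓ' w' = 1 ∧ ℓ'.ker = K) →
        p.1 p.2 = 1 ∧ p.1.ker = K := by
    intro K
    by_cases h : ∃ ℓ' : (Fin d → ℤ) →+ ℤ, ∃ w' : Fin d → ℤ, ℓ' w' = 1 ∧ ℓ'.ker = K
    · obtain ⟨ℓ', w', e1, e2⟩ := h
      exact ⟨(ℓ', w'), fun _ => ⟨e1, e2⟩⟩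
    · exact ⟨(0, 0), fun h' => absurd h' h⟩
  choose S hS using sel
  have hSi : ∀ i, (S (ℓ0 i).ker).1 (S (ℓ0 i).ker).2 = 1 ∧ (S (ℓ0 i).ker).1.ker = (ℓ0 i).ker :=
    fun i => hS (ℓ0 i).ker ⟨ℓ0 i, w0 i, hw0 i, rfl⟩
  have hkerS : ∀ i h, (S (ℓ0 i).ker).1 h = 0 → ℓ0 i h = 0 := by
    intro i h hh
    have : h ∈ (S (ℓ0 i).ker).1.ker := AddMonoidHom.mem_ker.mpr hh
    rw [(hSi i).2] at this
    exact AddMonoidHom.mem_ker.mp this
  -- factors with different kernels generate a subgroup of finite index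
  have hpr : ∀ i j, (ℓ0 i).ker ≠ (ℓ0 j).ker → ∃ np : ℕ, 0 < np ∧ ∀ v : Fin d → ℤ,
      ∃ a ∈ Psub 1 (↑(F i) : Set (Fin d → ℤ)), ∃ b ∈ Psub 1 (↑(F j) : Set (Fin d → ℤ)),
        np • v = a + b := by
    intro i j hK
    have hx : ∃ x, (ℓ0 i x = 0 ∧ ℓ0 j x ≠ 0) ∨ (ℓ0 j x = 0 ∧ ℓ0 i x ≠ 0) := by
      by_contra hcon
      apply hK
      ext x
      simp only [AddMonoidHom.mem_ker]
      exact ⟨fun h => by_contra fun h' => hcon ⟨x, Or.inl ⟨h, h'⟩⟩,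
        fun h => by_contra fun h' => hcon ⟨x, Or.inr ⟨h, h'⟩⟩⟩
    obtain ⟨x, hx | hx⟩ := hx
    · exact pair_index (ℓ0 i) (ℓ0 j) _ _ (n i) (n j) (hn i) (hn j) (hker1 i) (hker1 j) x
        hx.1 hx.2
    · obtain ⟨np, hnp, h⟩ := pair_index (ℓ0 j) (ℓ0 i) _ _ (n j) (n i) (hn j) (hn i)
        (hker1 j) (hker1 i) x hx.1 hx.2
      refine ⟨np, hnp, fun v => ?_⟩
      obtain ⟨a, ha, b, hb, hab⟩ := h v
      exact ⟨b, hb, a, ha, by rw [hab, add_comm]⟩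
  choose np hnp hpr' using hpr
  -- a common multiple
  obtain ⟨N, hN, hN1, hN2⟩ : ∃ N : ℕ, 0 < N ∧ (∀ i, μ i * n i ∣ N) ∧
      (∀ i j (h : (ℓ0 i).ker ≠ (ℓ0 j).ker), μ i * μ j * np i j h ∣ N) := by
    refine ⟨(∏ i, μ i * n i) *
      ∏ i, ∏ j, (if h : (ℓ0 i).ker ≠ (ℓ0 j).ker then μ i * μ j * np i j h else 1),
      ?_, fun i => ?_, fun i j h => ?_⟩
    · refine Nat.mul_pos (Finset.prod_pos (fun i _ => Nat.mul_pos (hμ i) (hn i)))
        (Finset.prod_pos (fun i _ => Finset.prod_pos (fun j _ => ?_)))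
      by_cases h : (ℓ0 i).ker ≠ (ℓ0 j).ker
      · rw [dif_pos h]
        exact Nat.mul_pos (Nat.mul_pos (hμ i) (hμ j)) (hnp i j h)
      · rw [dif_neg h]
        exact Nat.one_pos
    · exact Dvd.dvd.mul_right
        (Finset.dvd_prod_of_mem (fun i => μ i * n i) (Finset.mem_univ i)) _
    · refine Dvd.dvd.mul_left ?_ _
      have d1 : (if h : (ℓ0 i).ker ≠ (ℓ0 j).ker then μ i * μ j * np i j h else 1) ∣
          ∏ j, (if h : (ℓ0 i).ker ≠ (ℓ0 j).ker then μ i * μ j * np i j h else 1) :=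
        Finset.dvd_prod_of_mem
          (fun j => if h : (ℓ0 i).ker ≠ (ℓ0 j).ker then μ i * μ j * np i j h else 1)
          (Finset.mem_univ j)
      have d2 : (∏ j, (if h : (ℓ0 i).ker ≠ (ℓ0 j).ker then μ i * μ j * np i j h else 1)) ∣
          ∏ i, ∏ j, (if h : (ℓ0 i).ker ≠ (ℓ0 j).ker then μ i * μ j * np i j h else 1) :=
        Finset.dvd_prod_of_mem
          (fun i => ∏ j, (if h : (ℓ0 i).ker ≠ (ℓ0 j).ker then μ i * μ j * np i j h else 1))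
          (Finset.mem_univ i)
      rw [dif_pos h] at d1
      exact d1.trans d2
  have hker' : ∀ i h, (S (ℓ0 i).ker).1 h = 0 →
      (N : ℤ) • h ∈ Psub (μ i) (↑(F i) : Set (Fin d → ℤ)) := by
    intro i h hh
    obtain ⟨c, hc⟩ := hN1 i
    have h3 := mul_smul_mem_Psub c (μ i) (↑(F i) : Set (Fin d → ℤ)) (hker1 i h (hkerS i h hh))
    have e : (N : ℤ) • h = (c * μ i) • n i • h := by
      rw [natCast_zsmul, hc, smul_smul]
      congr 1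
      ring
    rw [e]
    exact h3
  have hpair' : ∀ i j, i ≠ j →
      ((S (ℓ0 i).ker).1 = (S (ℓ0 j).ker).1 ∧ (S (ℓ0 i).ker).2 = (S (ℓ0 j).ker).2) ∨
      ∀ v : Fin d → ℤ, ∃ a ∈ Psub (μ i) (↑(F i) : Set (Fin d → ℤ)),
        ∃ b ∈ Psub (μ j) (↑(F j) : Set (Fin d → ℤ)), (N : ℤ) • v = a + b := by
    intro i j _
    by_cases hK : (ℓ0 i).ker = (ℓ0 j).ker
    · left
      rw [hK]
      exact ⟨rfl, rfl⟩
    · right
      intro v
      obtain ⟨c, hc⟩ := hN2 i j hK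
      obtain ⟨a, ha, b, hb, hab⟩ := hpr' i j hK v
      refine ⟨(c * μ j * μ i) • a, mul_smul_mem_Psub (c * μ j) (μ i) _ ha,
        (c * μ i * μ j) • b, mul_smul_mem_Psub (c * μ i) (μ j) _ hb, ?_⟩
      have e : (N : ℤ) • v = (c * μ i * μ j) • np i j hK • v := by
        rw [natCast_zsmul, hc, smul_smul]
        congr 1
        ring
      rw [e, hab, smul_add]
      congr 1
      congr 1
      ring
  obtain ⟨φ', P, hP, hφ', h1', h2', hper⟩ :=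
    periodize_cls F φ hφ h1 h2 (fun i => Psub (μ i) (↑(F i) : Set (Fin d → ℤ))) hM N hN
      (fun i => (S (ℓ0 i).ker).1) (fun i => (S (ℓ0 i).ker).2) (fun i => (hSi i).1)
      hker' hpair'
  refine ⟨{a : Fin d → ℤ | ∃ g0, a = g0 - ∑ i, φ' i g0}, P, hP,
    tiling_of_coords F φ' hφ' h1' h2', ?_⟩
  rintro a ⟨g0, rfl⟩ v
  refine ⟨g0 + (P : ℤ) • v, ?_⟩
  have : ∑ i, φ' i (g0 + (P : ℤ) • v) = ∑ i, φ' i g0 :=
    Finset.sum_congr rfl (fun i _ => hper i g0 v)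
  rw [this, natCast_zsmul]
  abel

end Vale.Agent.H78.HyperSum
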